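import Vale.Agent.Snaky.Types

namespace Vale.Agent.Snaky.LD

open Vale.Agent.Snaky

def d12 : Tr :=
(.node (nat_lit 128)
(.node (nat_lit 64)
(.node (nat_lit 32)
(.node (nat_lit 16)
(.node (nat_lit 8)
(.node (nat_lit 4)
(.node (nat_lit 2)
(.node (nat_lit 1)
(.leaf (.mk (nat_lit 3) (nat_lit 0x2000000030000000e0000000200000000000000000000000000000000000) (nat_lit 0x30000000300000001000000048000000000000005c0000005000000000000000000000000000) (.cons (nat_lit 781) (nat_lit 3076) (nat_lit 512) (.cons (nat_lit 652) (nat_lit 427) (nat_lit 482) .nil))))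
(.leaf (.mk (nat_lit 3) (nat_lit 0x2000000030000000e0000000200000000000000000000000000000000000) (nat_lit 0x20000000000000004800000000000000500000007000000030000000000000000000) (.cons (nat_lit 654) (nat_lit 123) (nat_lit 515) (.cons (nat_lit 621) (nat_lit 3074) (nat_lit 512) .nil)))))
(.node (nat_lit 1)
(.leaf (.mk (nat_lit 2) (nat_lit 0x2000000030000000e0000000200000002000000000000000000000000000) (nat_lit 0x4800000000000000100000001000000030000000000000000000) (.cons (nat_lit 620) (nat_lit 125) (nat_lit 515) (.cons (nat_lit 718) (nat_lit 3075) (nat_lit 512) .nil))))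
(.leaf (.mk (nat_lit 1) (nat_lit 0x70000000e0000000200000002000000000000000000000000000) (nat_lit 0x800000000000000000000000000000020000000000000000000) (.cons (nat_lit 589) (nat_lit 3) (nat_lit 383) (.cons (nat_lit 715) (nat_lit 7) (nat_lit 477) .nil))))))
(.node (nat_lit 2)
(.node (nat_lit 1)
(.leaf (.mk (nat_lit 2) (nat_lit 0x200000002000000030000000e0000000200000000000000000000000000000000000) (nat_lit 0x3000000010000000100000004800000000000000000000000000000000000000000000000000) (.cons (nat_lit 780) (nat_lit 91) (nat_lit 480) (.cons (nat_lit 718) (nat_lit 1926) (nat_lit 543) .nil))))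
(.leaf (.mk (nat_lit 3) (nat_lit 0x800000008000000060000000e0000000000000000000000000000000000000000000) (nat_lit 0x600000001800000100000000400000004000000040000000000000000000) (.cons (nat_lit 716) (nat_lit 685) (nat_lit 546) (.cons (nat_lit 654) (nat_lit 3090) (nat_lit 512) .nil)))))
(.node (nat_lit 1)
(.leaf (.mk (nat_lit 5) (nat_lit 0x800000000000000060000000e0000000000000000000000000000000000000000000) (nat_lit 0x70000001700000003000000018000001000000007c0000007000000070000000000000000000) (.cons (nat_lit 716) (nat_lit 685) (nat_lit 546) (.cons (nat_lit 749) (nat_lit 3086) (nat_lit 512) .nil))))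
(.leaf (.mk (nat_lit 5) (nat_lit 0x800000008000000060000000e0000000000000000000000000000000000000000000) (nat_lit 0x7000000170000000700000001800000100000000b00000003000000020000000000000000000) (.cons (nat_lit 716) (nat_lit 685) (nat_lit 546) (.cons (nat_lit 750) (nat_lit 3080) (nat_lit 512) (.cons (nat_lit 653) (nat_lit 3081) (nat_lit 512) .nil))))))))
(.node (nat_lit 4)
(.node (nat_lit 2)
(.node (nat_lit 1)
(.leaf (.mk (nat_lit 4) (nat_lit 0x80000000c000000060000000e0000000000000000000000000000000000000000000) (nat_lit 0x4000000150000000300000000000000100000000b00000003000000000000000000000000000) (.cons (nat_lit 782) (nat_lit 2757) (nat_lit 512) (.cons (nat_lit 653) (nat_lit 3084) (nat_lit 512) .nil))))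
(.leaf (.mk (nat_lit 4) (nat_lit 0x800000008000000060000000e0000000200000000000000000000000000000000000) (nat_lit 0x7000000170000000700000001800000000000000000000002000000020000000000000000000) (.cons (nat_lit 621) (nat_lit 274) (nat_lit 483) (.cons (nat_lit 749) (nat_lit 3082) (nat_lit 512) (.cons (nat_lit 621) (nat_lit 1971) (nat_lit 448) .nil))))))
(.node (nat_lit 1)
(.leaf (.mk (nat_lit 3) (nat_lit 0x80000000a00000006000000060000000200000000000000000000000000000000000) (nat_lit 0x7000000170000000500000000000000000000000000000000000000000000000000000000000) (.cons (nat_lit 750) (nat_lit 3083) (nat_lit 512) (.cons (nat_lit 780) (nat_lit 444) (nat_lit 514) (.cons (nat_lit 782) (nat_lit 972) (nat_lit 416) .nil)))))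
(.leaf (.mk (nat_lit 2) (nat_lit 0x80000000e00000006000000060000000200000000000000000000000000000000000) (nat_lit 0x150000000100000000000000000000000000000000000000000000000000000000000) (.cons (nat_lit 782) (nat_lit 2) (nat_lit 447) (.cons (nat_lit 748) (nat_lit 1814) (nat_lit 512) .nil))))))
(.node (nat_lit 2)
(.node (nat_lit 1)
(.leaf (.mk (nat_lit 3) (nat_lit 0x80000000c000000060000000e0000000200000000000000000000000000000000000) (nat_lit 0x110000000300000000000000100000000100000003000000000000000000000000000) (.cons (nat_lit 621) (nat_lit 3) (nat_lit 415) (.cons (nat_lit 749) (nat_lit 3085) (nat_lit 512) .nil))))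
(.leaf (.mk (nat_lit 2) (nat_lit 0x80000000e000000020000000e0000000200000000000000000000000000000000000) (nat_lit 0x110000000100000000000000100000000100000001000000000000000000000000000) (.cons (nat_lit 652) (nat_lit 2551) (nat_lit 544) (.cons (nat_lit 748) (nat_lit 1814) (nat_lit 512) .nil)))))
(.node (nat_lit 1)
(.leaf (.mk (nat_lit 4) (nat_lit 0x800000002000000060000000e0000000000000000000000000000000000000000000) (nat_lit 0x70000001700000001000000000000000000000007c0000007000000070000000000000000000) (.cons (nat_lit 654) (nat_lit 360) (nat_lit 451) (.cons (nat_lit 781) (nat_lit 3087) (nat_lit 512) (.cons (nat_lit 653) (nat_lit 3088) (nat_lit 512) .nil)))))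
(.leaf (.mk (nat_lit 3) (nat_lit 0xa0000000200000006000000060000000000000000000000000000000000000000000) (nat_lit 0x7000000150000000100000000000000000000000200000000000000000000000000000000000) (.cons (nat_lit 813) (nat_lit 5) (nat_lit 479) (.cons (nat_lit 748) (nat_lit 989) (nat_lit 447) .nil))))))))
(.node (nat_lit 8)
(.node (nat_lit 4)
(.node (nat_lit 2)
(.node (nat_lit 1)
(.leaf (.mk (nat_lit 3) (nat_lit 0x2000000060000000e0000000200000000000000000000000000000000000) (nat_lit 0x5c0000007000000070000000000000000000) (.cons (nat_lit 621) (nat_lit 443) (nat_lit 514) (.cons (nat_lit 652) (nat_lit 427) (nat_lit 482) (.cons (nat_lit 621) (nat_lit 3089) (nat_lit 512) .nil)))))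
(.leaf (.mk (nat_lit 2) (nat_lit 0x200000006000000060000000200000002000000000000000000000000000) (nat_lit 0x400000004000000060000000000000000000) (.cons (nat_lit 589) (nat_lit 3) (nat_lit 383) (.cons (nat_lit 622) (nat_lit 94) (nat_lit 512) .nil)))))
(.node (nat_lit 1)
(.leaf (.mk (nat_lit 2) (nat_lit 0x80000000800000006000000060000000400000000000000000000000000000000000) (nat_lit 0x600000000000000000000000000000004000000040000000000000000000) (.cons (nat_lit 750) (nat_lit 3) (nat_lit 448) (.cons (nat_lit 622) (nat_lit 419) (nat_lit 451) .nil))))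
(.leaf (.mk (nat_lit 4) (nat_lit 0xf0000000100000000000000000000000000000000000) (nat_lit 0x100000001800000100000000280000002000000020000000000000000000) (.cons (nat_lit 651) (nat_lit 1) (nat_lit 445) (.cons (nat_lit 653) (nat_lit 2911) (nat_lit 511) .nil))))))
(.node (nat_lit 2)
(.node (nat_lit 1)
(.leaf (.mk (nat_lit 5) (nat_lit 0xf8000000000000000000000000000000000000000000) (nat_lit 0x700000106000000ff0000000000000000000000000000000000) (.cons (nat_lit 651) (nat_lit 172) (nat_lit 418) (.cons (nat_lit 654) (nat_lit 3094) (nat_lit 512) (.cons (nat_lit 652) (nat_lit 3100) (nat_lit 512) .nil)))))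
(.leaf (.mk (nat_lit 5) (nat_lit 0xf8000000000000000000000000000000000000000000) (nat_lit 0x100000001f00000106000000f70000002000000020000000000000000000) (.cons (nat_lit 715) (nat_lit 173) (nat_lit 418) (.cons (nat_lit 654) (nat_lit 3094) (nat_lit 512) (.cons (nat_lit 653) (nat_lit 3095) (nat_lit 512) .nil))))))
(.node (nat_lit 1)
(.leaf (.mk (nat_lit 4) (nat_lit 0x78000000400000000000000000000000000000000000) (nat_lit 0x700000006000000a70000000000000000000000000000000000) (.cons (nat_lit 655) (nat_lit 7) (nat_lit 445) (.cons (nat_lit 682) (nat_lit 3099) (nat_lit 512) .nil))))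
(.leaf (.mk (nat_lit 4) (nat_lit 0xf8000000200000000000000000000000000000000000) (nat_lit 0x100000001800000104000000d00000002000000020000000000000000000) (.cons (nat_lit 654) (nat_lit 289) (nat_lit 577) (.cons (nat_lit 716) (nat_lit 3096) (nat_lit 512) .nil)))))))
(.node (nat_lit 4)
(.node (nat_lit 2)
(.node (nat_lit 1)
(.leaf (.mk (nat_lit 3) (nat_lit 0x10000000f0000000200000000000000000000000000000000000) (nat_lit 0x100000000800000100000000100000002000000020000000000000000000) (.cons (nat_lit 715) (nat_lit 4) (nat_lit 477) (.cons (nat_lit 621) (nat_lit 3097) (nat_lit 512) .nil))))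
(.leaf (.mk (nat_lit 2) (nat_lit 0x10000000f0000000200000002000000000000000000000000000) (nat_lit 0x100000000000000100000000100000000000000020000000000000000000) (.cons (nat_lit 589) (nat_lit 6) (nat_lit 382) (.cons (nat_lit 652) (nat_lit 3098) (nat_lit 512) .nil)))))
(.node (nat_lit 1)
(.leaf (.mk (nat_lit 1) (nat_lit 0x10000000f0000000300000002000000000000000000000000000) (nat_lit 0x100000000000000100000000000000000000000000000000000000000000) (.cons (nat_lit 748) (nat_lit 5) (nat_lit 414) (.cons (nat_lit 688) (nat_lit 1) (nat_lit 446) .nil))))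
(.leaf (.mk (nat_lit 3) (nat_lit 0x3c000000400000000000000000000000000000000000) (nat_lit 0x700000002000000270000000000000000000000000000000000) (.cons (nat_lit 653) (nat_lit 7) (nat_lit 444) (.cons (nat_lit 681) (nat_lit 171) (nat_lit 416) .nil))))))
(.node (nat_lit 2)
(.node (nat_lit 1)
(.leaf (.mk (nat_lit 3) (nat_lit 0xf8000000100000000000000000000000000000000000) (nat_lit 0x104000000e80000000000000000000000000000000000) (.cons (nat_lit 651) (nat_lit 1) (nat_lit 445) (.cons (nat_lit 653) (nat_lit 3101) (nat_lit 512) .nil))))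
(.leaf (.mk (nat_lit 2) (nat_lit 0xf8000000300000000000000000000000000000000000) (nat_lit 0x104000000c00000000000000000000000000000000000) (.cons (nat_lit 688) (nat_lit 1) (nat_lit 446) (.cons (nat_lit 654) (nat_lit 685) (nat_lit 513) .nil)))))
(.node (nat_lit 1)
(.leaf (.mk (nat_lit 5) (nat_lit 0x800000008000000010000000f0000000000000000000000000000000000000000000) (nat_lit 0x80000003800000178000000780000002800000000000000780000002000000000000000000000000000) (.cons (nat_lit 715) (nat_lit 4) (nat_lit 477) (.cons (nat_lit 748) (nat_lit 3119) (nat_lit 512) .nil))))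
(.leaf (.mk (nat_lit 5) (nat_lit 0xf8000000000000000000000000000000000000000000) (nat_lit 0x3f00000006000000e70000000000000000000000000000000000) (.cons (nat_lit 715) (nat_lit 173) (nat_lit 418) (.cons (nat_lit 654) (nat_lit 3094) (nat_lit 512) (.cons (nat_lit 654) (nat_lit 3115) (nat_lit 512) .nil))))))))))
(.node (nat_lit 16)
(.node (nat_lit 8)
(.node (nat_lit 4)
(.node (nat_lit 2)
(.node (nat_lit 1)
(.leaf (.mk (nat_lit 5) (nat_lit 0x800000008000000020000000f0000000000000000000000000000000000000000000) (nat_lit 0x17000000070000000170000000e000000fe0000005000000050000000000000000000) (.cons (nat_lit 683) (nat_lit 3106) (nat_lit 512) (.cons (nat_lit 749) (nat_lit 3107) (nat_lit 512) (.cons (nat_lit 683) (nat_lit 3108) (nat_lit 512) (.cons (nat_lit 652) (nat_lit 3109) (nat_lit 512) .nil))))))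
(.leaf (.mk (nat_lit 5) (nat_lit 0xf0000000080000000000000000000000000000000000) (nat_lit 0xe0000000c000000f40000000000000000000000000000000000) (.cons (nat_lit 652) (nat_lit 1) (nat_lit 445) (.cons (nat_lit 683) (nat_lit 1947) (nat_lit 511) .nil)))))
(.node (nat_lit 1)
(.leaf (.mk (nat_lit 4) (nat_lit 0x2000000078000000000000000000000000000000000000000000) (nat_lit 0x20000000200000001700000006000000ee0000004000000040000000000000000000) (.cons (nat_lit 654) (nat_lit 3113) (nat_lit 512) (.cons (nat_lit 682) (nat_lit 3114) (nat_lit 512) .nil))))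
(.leaf (.mk (nat_lit 4) (nat_lit 0x80000000a00000002000000070000000000000000000000000000000000000000000) (nat_lit 0x17000000050000000000000000c000000f00000005000000010000000000000000000) (.cons (nat_lit 781) (nat_lit 193) (nat_lit 576) (.cons (nat_lit 653) (nat_lit 3111) (nat_lit 512) (.cons (nat_lit 652) (nat_lit 811) (nat_lit 450) .nil)))))))
(.node (nat_lit 2)
(.node (nat_lit 1)
(.leaf (.mk (nat_lit 4) (nat_lit 0x20000000f8000000000000000000000000000000000000000000) (nat_lit 0x1700000006000000fc0000000000000000000000000000000000) (.cons (nat_lit 651) (nat_lit 172) (nat_lit 418) (.cons (nat_lit 682) (nat_lit 3110) (nat_lit 512) .nil))))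
(.leaf (.mk (nat_lit 3) (nat_lit 0x20000000f0000000100000000000000000000000000000000000) (nat_lit 0x20000000200000001000000000000000080000001000000010000000000000000000) (.cons (nat_lit 651) (nat_lit 1) (nat_lit 445) (.cons (nat_lit 620) (nat_lit 127) (nat_lit 450) .nil)))))
(.node (nat_lit 1)
(.leaf (.mk (nat_lit 3) (nat_lit 0x200000007c000000000000000000000000000000000000000000) (nat_lit 0x1700000002000000e00000000000000000000000000000000000) (.cons (nat_lit 654) (nat_lit 202) (nat_lit 576) (.cons (nat_lit 681) (nat_lit 534) (nat_lit 446) .nil))))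
(.leaf (.mk (nat_lit 3) (nat_lit 0x80000000a00000002000000070000000200000000000000000000000000000000000) (nat_lit 0x15000000050000000000000000c000000c00000004000000000000000000000000000) (.cons (nat_lit 654) (nat_lit 3112) (nat_lit 512) (.cons (nat_lit 748) (nat_lit 1788) (nat_lit 512) .nil)))))))
(.node (nat_lit 4)
(.node (nat_lit 2)
(.node (nat_lit 1)
(.leaf (.mk (nat_lit 2) (nat_lit 0x200000002000000070000000600000000000000000000000000000000000) (nat_lit 0xc000000800000004000000000000000000000000000) (.cons (nat_lit 622) (nat_lit 5) (nat_lit 415) (.cons (nat_lit 683) (nat_lit 289) (nat_lit 577) .nil))))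
(.leaf (.mk (nat_lit 3) (nat_lit 0x2000000078000000400000000000000000000000000000000000) (nat_lit 0x20000000200000000000000000000000a00000004000000040000000000000000000) (.cons (nat_lit 655) (nat_lit 7) (nat_lit 445) (.cons (nat_lit 622) (nat_lit 993) (nat_lit 352) .nil)))))
(.node (nat_lit 1)
(.leaf (.mk (nat_lit 3) (nat_lit 0x200000007c000000000000000000000000000000000000000000) (nat_lit 0x17000000020000000e0000000000000000000000000000000000) (.cons (nat_lit 650) (nat_lit 172) (nat_lit 417) (.cons (nat_lit 681) (nat_lit 534) (nat_lit 446) .nil))))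
(.leaf (.mk (nat_lit 4) (nat_lit 0xf8000000400000000000000000000000000000000000) (nat_lit 0x3800000006000000a70000000000000000000000000000000000) (.cons (nat_lit 655) (nat_lit 7) (nat_lit 445) (.cons (nat_lit 682) (nat_lit 3116) (nat_lit 512) .nil))))))
(.node (nat_lit 2)
(.node (nat_lit 1)
(.leaf (.mk (nat_lit 3) (nat_lit 0xfc000000400000000000000000000000000000000000) (nat_lit 0x3800000002000000270000000000000000000000000000000000) (.cons (nat_lit 653) (nat_lit 7) (nat_lit 444) (.cons (nat_lit 681) (nat_lit 3117) (nat_lit 512) .nil))))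
(.leaf (.mk (nat_lit 2) (nat_lit 0xfe000000000000000000000000000000000000000000) (nat_lit 0x3800000000000000070000000000000000000000000000000000) (.cons (nat_lit 649) (nat_lit 172) (nat_lit 416) (.cons (nat_lit 716) (nat_lit 3118) (nat_lit 512) .nil)))))
(.node (nat_lit 1)
(.leaf (.mk (nat_lit 1) (nat_lit 0x10000000fe000000000000000000000000000000000000000000) (nat_lit 0x2800000000000000000000000000000000000000000000000000) (.cons (nat_lit 717) (nat_lit 0) (nat_lit 475) (.cons (nat_lit 715) (nat_lit 4) (nat_lit 477) .nil))))
(.leaf (.mk (nat_lit 4) (nat_lit 0x800000009000000010000000f0000000000000000000000000000000000000000000) (nat_lit 0x80000003800000178000000680000002000000000000000780000002000000000000000000000000000) (.cons (nat_lit 652) (nat_lit 930) (nat_lit 514) (.cons (nat_lit 749) (nat_lit 3120) (nat_lit 512) (.cons (nat_lit 780) (nat_lit 1707) (nat_lit 513) .nil)))))))))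
(.node (nat_lit 8)
(.node (nat_lit 4)
(.node (nat_lit 2)
(.node (nat_lit 1)
(.leaf (.mk (nat_lit 3) (nat_lit 0x80000000b000000010000000f0000000000000000000000000000000000000000000) (nat_lit 0x2000000168000000480000002000000000000000580000000000000000000000000000000000) (.cons (nat_lit 652) (nat_lit 1257) (nat_lit 514) (.cons (nat_lit 781) (nat_lit 3121) (nat_lit 512) (.cons (nat_lit 747) (nat_lit 3122) (nat_lit 512) .nil)))))
(.leaf (.mk (nat_lit 2) (nat_lit 0xa0000000b00000001000000070000000000000000000000000000000000000000000) (nat_lit 0x2000000140000000400000002000000000000000400000000000000000000000000000000000) (.cons (nat_lit 717) (nat_lit 2757) (nat_lit 511) (.cons (nat_lit 784) (nat_lit 1081) (nat_lit 515) .nil)))))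
(.node (nat_lit 1)
(.leaf (.mk (nat_lit 2) (nat_lit 0x80000000b800000010000000f0000000000000000000000000000000000000000000) (nat_lit 0x148000000400000000000000000000000180000000000000000000000000000000000) (.cons (nat_lit 652) (nat_lit 1533) (nat_lit 450) (.cons (nat_lit 750) (nat_lit 89) (nat_lit 606) .nil))))
(.leaf (.mk (nat_lit 4) (nat_lit 0x10000000f0000000000000000000000000000000000000000000) (nat_lit 0x10000000100000000800000100000000380000002000000000000000000000000000) (.cons (nat_lit 715) (nat_lit 4) (nat_lit 477) (.cons (nat_lit 652) (nat_lit 3127) (nat_lit 512) .nil))))))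
(.node (nat_lit 2)
(.node (nat_lit 1)
(.leaf (.mk (nat_lit 5) (nat_lit 0x800000008000000030000000e0000000000000000000000000000000000000000000) (nat_lit 0x10000001500000007000000000000001100000003c0000003000000010000000100000000000) (.cons (nat_lit 688) (nat_lit 4) (nat_lit 478) (.cons (nat_lit 653) (nat_lit 3125) (nat_lit 512) .nil))))
(.leaf (.mk (nat_lit 4) (nat_lit 0x800000008000000030000000e0000000200000000000000000000000000000000000) (nat_lit 0x10000001500000007000000000000000100000001c0000003000000010000000100000000000) (.cons (nat_lit 652) (nat_lit 3126) (nat_lit 512) (.cons (nat_lit 749) (nat_lit 1784) (nat_lit 512) (.cons (nat_lit 748) (nat_lit 993) (nat_lit 383) (.cons (nat_lit 748) (nat_lit 517) (nat_lit 480) .nil)))))))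
(.node (nat_lit 1)
(.leaf (.mk (nat_lit 3) (nat_lit 0x20000000e0000000300000000000000000000000000000000000) (nat_lit 0x2000000000000000100000000c0000003000000010000000100000000000) (.cons (nat_lit 651) (nat_lit 246) (nat_lit 482) (.cons (nat_lit 620) (nat_lit 811) (nat_lit 418) .nil))))
(.leaf (.mk (nat_lit 3) (nat_lit 0x10000000f0000000100000000000000000000000000000000000) (nat_lit 0x10000000100000000000000100000000280000002000000000000000000000000000) (.cons (nat_lit 651) (nat_lit 1) (nat_lit 445) (.cons (nat_lit 653) (nat_lit 3128) (nat_lit 512) .nil)))))))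
(.node (nat_lit 4)
(.node (nat_lit 2)
(.node (nat_lit 1)
(.leaf (.mk (nat_lit 2) (nat_lit 0x10000000f0000000300000000000000000000000000000000000) (nat_lit 0x10000000100000000000000100000000000000002000000000000000000000000000) (.cons (nat_lit 688) (nat_lit 1) (nat_lit 446) (.cons (nat_lit 748) (nat_lit 123) (nat_lit 514) .nil))))
(.leaf (.mk (nat_lit 5) (nat_lit 0x80000000c00000002000000060000000000000000000000000000000000000000000) (nat_lit 0x40000000780000007c000000380000004000000000000000600000006000000040000000000000000000) (.cons (nat_lit 718) (nat_lit 2949) (nat_lit 512) (.cons (nat_lit 654) (nat_lit 2930) (nat_lit 512) (.cons (nat_lit 749) (nat_lit 3130) (nat_lit 512) (.cons (nat_lit 782) (nat_lit 2951) (nat_lit 512) (.cons (nat_lit 781) (nat_lit 3131) (nat_lit 512) .nil))))))))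
(.node (nat_lit 1)
(.leaf (.mk (nat_lit 4) (nat_lit 0x80000000e00000002000000060000000000000000000000000000000000000000000) (nat_lit 0x100000007c000000180000000000000000000000600000004000000000000000000000000000) (.cons (nat_lit 653) (nat_lit 2575) (nat_lit 512) (.cons (nat_lit 781) (nat_lit 3134) (nat_lit 512) (.cons (nat_lit 748) (nat_lit 3136) (nat_lit 512) .nil)))))
(.leaf (.mk (nat_lit 4) (nat_lit 0xa0000000c00000002000000060000000000000000000000000000000000000000000) (nat_lit 0x780000005c000000300000004000000000000000400000000000000000000000000000000000) (.cons (nat_lit 718) (nat_lit 3132) (nat_lit 512) (.cons (nat_lit 782) (nat_lit 3133) (nat_lit 512) (.cons (nat_lit 749) (nat_lit 3134) (nat_lit 512) .nil)))))))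
(.node (nat_lit 2)
(.node (nat_lit 1)
(.leaf (.mk (nat_lit 2) (nat_lit 0xa0000000c00000006000000060000000000000000000000000000000000000000000) (nat_lit 0x6000000040000000000000000000000000000000400000000000000000000000000000000000) (.cons (nat_lit 654) (nat_lit 3) (nat_lit 448) (.cons (nat_lit 782) (nat_lit 1270) (nat_lit 449) .nil))))
(.leaf (.mk (nat_lit 3) (nat_lit 0xe0000000c00000002000000060000000000000000000000000000000000000000000) (nat_lit 0x7800000018000000200000004000000000000000000000000000000000000000000000000000) (.cons (nat_lit 780) (nat_lit 3135) (nat_lit 512) (.cons (nat_lit 718) (nat_lit 1270) (nat_lit 449) .nil)))))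
(.node (nat_lit 1)
(.leaf (.mk (nat_lit 3) (nat_lit 0x20000000e00000002000000060000000000000000000000000000000000000000000) (nat_lit 0x100000001c000000100000000000000000000000400000000000000000000000000000000000) (.cons (nat_lit 654) (nat_lit 5) (nat_lit 447) (.cons (nat_lit 780) (nat_lit 1681) (nat_lit 514) .nil))))
(.leaf (.mk (nat_lit 2) (nat_lit 0xf0000000c00000002000000020000000000000000000000000000000000000000000) (nat_lit 0x1800000008000000200000000000000000000000000000000000000000000000000000000000) (.cons (nat_lit 779) (nat_lit 7) (nat_lit 541) (.cons (nat_lit 812) (nat_lit 377) (nat_lit 482) .nil))))))))))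
(.node (nat_lit 32)
(.node (nat_lit 16)
(.node (nat_lit 8)
(.node (nat_lit 4)
(.node (nat_lit 2)
(.node (nat_lit 1)
(.leaf (.mk (nat_lit 3) (nat_lit 0x80000000f00000002000000020000000000000000000000000000000000000000000) (nat_lit 0x5c000000080000000000000000000000200000000000000000000000000000000000) (.cons (nat_lit 747) (nat_lit 534) (nat_lit 512) (.cons (nat_lit 782) (nat_lit 486) (nat_lit 512) (.cons (nat_lit 780) (nat_lit 243) (nat_lit 546) .nil)))))
(.leaf (.mk (nat_lit 5) (nat_lit 0x80000000c00000000000000060000000200000000000000000000000000000000000) (nat_lit 0x17c000000380000006000000000000000400000006000000020000000000000000000) (.cons (nat_lit 718) (nat_lit 892) (nat_lit 515) (.cons (nat_lit 749) (nat_lit 3138) (nat_lit 512) (.cons (nat_lit 718) (nat_lit 802) (nat_lit 451) (.cons (nat_lit 718) (nat_lit 2574) (nat_lit 512) .nil)))))))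
(.node (nat_lit 1)
(.leaf (.mk (nat_lit 4) (nat_lit 0x80000000e00000000000000060000000200000000000000000000000000000000000) (nat_lit 0x17c000000180000002000000000000000400000004000000000000000000000000000) (.cons (nat_lit 717) (nat_lit 2575) (nat_lit 512) (.cons (nat_lit 748) (nat_lit 512) (nat_lit 512) (.cons (nat_lit 748) (nat_lit 3139) (nat_lit 512) .nil)))))
(.leaf (.mk (nat_lit 2) (nat_lit 0x80000000f00000000000000020000000200000000000000000000000000000000000) (nat_lit 0x118000000000000002000000000000000000000000000000000000000000000000000) (.cons (nat_lit 784) (nat_lit 0) (nat_lit 542) (.cons (nat_lit 780) (nat_lit 377) (nat_lit 450) .nil))))))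
(.node (nat_lit 2)
(.node (nat_lit 1)
(.leaf (.mk (nat_lit 6) (nat_lit 0x1e0000000000000000000000000000000000000000000) (nat_lit 0x70000000e10000003f80000000000000000000000000000000000) (.cons (nat_lit 652) (nat_lit 1252) (nat_lit 515) (.cons (nat_lit 653) (nat_lit 1773) (nat_lit 512) (.cons (nat_lit 656) (nat_lit 3158) (nat_lit 512) .nil)))))
(.leaf (.mk (nat_lit 6) (nat_lit 0x800000008000000000000000e0000000100000000000000000000000000000000000) (nat_lit 0x170000000700000003c000001100000006c0000001000000000000000000000000000) (.cons (nat_lit 651) (nat_lit 1918) (nat_lit 512) (.cons (nat_lit 684) (nat_lit 2234) (nat_lit 512) (.cons (nat_lit 717) (nat_lit 3155) (nat_lit 512) (.cons (nat_lit 653) (nat_lit 197) (nat_lit 577) .nil)))))))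
(.node (nat_lit 1)
(.leaf (.mk (nat_lit 7) (nat_lit 0xf0000000000000000000000000000000000000000000) (nat_lit 0x10000000300000003c00000008000001fc0000003800000018000000000000000000) (.cons (nat_lit 651) (nat_lit 1252) (nat_lit 514) (.cons (nat_lit 655) (nat_lit 875) (nat_lit 450) (.cons (nat_lit 651) (nat_lit 180) (nat_lit 482) (.cons (nat_lit 655) (nat_lit 3150) (nat_lit 512) .nil))))))
(.leaf (.mk (nat_lit 7) (nat_lit 0x1e0000000000000000000000000000000000000000000) (nat_lit 0x73800000618000007e00000000000000000000000000000000000) (.cons (nat_lit 656) (nat_lit 875) (nat_lit 451) (.cons (nat_lit 657) (nat_lit 87) (nat_lit 544) (.cons (nat_lit 716) (nat_lit 3145) (nat_lit 512) .nil))))))))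
(.node (nat_lit 4)
(.node (nat_lit 2)
(.node (nat_lit 1)
(.leaf (.mk (nat_lit 4) (nat_lit 0x1e0000000000000000000000000000000000000000000) (nat_lit 0x73800000210000007380000000000000000000000000000000000) (.cons (nat_lit 652) (nat_lit 180) (nat_lit 483) (.cons (nat_lit 657) (nat_lit 87) (nat_lit 544) .nil))))
(.leaf (.mk (nat_lit 6) (nat_lit 0x10000001e0000000000000000000000000000000000000000000) (nat_lit 0x72800000618000000e00000000000000000000000000000000000) (.cons (nat_lit 717) (nat_lit 4) (nat_lit 478) (.cons (nat_lit 721) (nat_lit 3146) (nat_lit 512) .nil)))))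
(.node (nat_lit 1)
(.leaf (.mk (nat_lit 5) (nat_lit 0x210000001e0000000000000000000000000000000000000000000) (nat_lit 0x50800000618000000e00000000000000000000000000000000000) (.cons (nat_lit 720) (nat_lit 0) (nat_lit 479) (.cons (nat_lit 689) (nat_lit 3147) (nat_lit 512) .nil))))
(.leaf (.mk (nat_lit 4) (nat_lit 0x210000003e0000000000000000000000000000000000000000000) (nat_lit 0x40800000418000000e00000000000000000000000000000000000) (.cons (nat_lit 722) (nat_lit 0) (nat_lit 480) (.cons (nat_lit 654) (nat_lit 3148) (nat_lit 512) .nil))))))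
(.node (nat_lit 2)
(.node (nat_lit 1)
(.leaf (.mk (nat_lit 3) (nat_lit 0x10000003e0000000400000000000000000000000000000000000) (nat_lit 0x800000418000000a00000000000000000000000000000000000) (.cons (nat_lit 653) (nat_lit 1) (nat_lit 447) (.cons (nat_lit 655) (nat_lit 3149) (nat_lit 512) .nil))))
(.leaf (.mk (nat_lit 2) (nat_lit 0x10000003e0000000c00000000000000000000000000000000000) (nat_lit 0x800000418000000000000000000000000000000000000000000) (.cons (nat_lit 690) (nat_lit 1) (nat_lit 448) (.cons (nat_lit 684) (nat_lit 928) (nat_lit 482) .nil)))))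
(.node (nat_lit 1)
(.leaf (.mk (nat_lit 6) (nat_lit 0xf0000000800000000000000000000000000000000000) (nat_lit 0x10000000300000003800000000000001780000003800000018000000000000000000) (.cons (nat_lit 656) (nat_lit 7) (nat_lit 446) (.cons (nat_lit 652) (nat_lit 3151) (nat_lit 512) .nil))))
(.leaf (.mk (nat_lit 5) (nat_lit 0xf0000000900000000000000000000000000000000000) (nat_lit 0x10000000300000003800000000000000680000003800000018000000000000000000) (.cons (nat_lit 651) (nat_lit 1) (nat_lit 445) (.cons (nat_lit 716) (nat_lit 3152) (nat_lit 512) .nil))))))))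
(.node (nat_lit 8)
(.node (nat_lit 4)
(.node (nat_lit 2)
(.node (nat_lit 1)
(.leaf (.mk (nat_lit 4) (nat_lit 0x10000000f0000000900000000000000000000000000000000000) (nat_lit 0x10000000300000002800000000000000600000003800000018000000000000000000) (.cons (nat_lit 715) (nat_lit 4) (nat_lit 477) (.cons (nat_lit 620) (nat_lit 3153) (nat_lit 512) .nil))))
(.leaf (.mk (nat_lit 3) (nat_lit 0x1000000030000000900000001000000000000000000000000000) (nat_lit 0x10000000300000002000000000000000600000002800000018000000000000000000) (.cons (nat_lit 717) (nat_lit 274) (nat_lit 482) (.cons (nat_lit 653) (nat_lit 3154) (nat_lit 512) .nil)))))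
(.node (nat_lit 1)
(.leaf (.mk (nat_lit 2) (nat_lit 0x1000000030000000b00000001000000000000000000000000000) (nat_lit 0x10000000100000000000000000000000400000002800000008000000000000000000) (.cons (nat_lit 619) (nat_lit 882) (nat_lit 450) (.cons (nat_lit 748) (nat_lit 123) (nat_lit 514) .nil))))
(.leaf (.mk (nat_lit 5) (nat_lit 0x800000008000000020000000e0000000100000000000000000000000000000000000) (nat_lit 0x170000000700000001c00000110000000600000001000000000000000000000000000) (.cons (nat_lit 688) (nat_lit 975) (nat_lit 415) (.cons (nat_lit 749) (nat_lit 3156) (nat_lit 512) (.cons (nat_lit 716) (nat_lit 244) (nat_lit 482) .nil)))))))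
(.node (nat_lit 2)
(.node (nat_lit 1)
(.leaf (.mk (nat_lit 4) (nat_lit 0x80000000a00000002000000060000000100000000000000000000000000000000000) (nat_lit 0x170000000500000000000000010000000600000001000000000000000000000000000) (.cons (nat_lit 781) (nat_lit 220) (nat_lit 578) (.cons (nat_lit 653) (nat_lit 3157) (nat_lit 512) .nil))))
(.leaf (.mk (nat_lit 3) (nat_lit 0x80000000a00000002000000020000000300000000000000000000000000000000000) (nat_lit 0x150000000500000000000000000000000000000001000000000000000000000000000) (.cons (nat_lit 620) (nat_lit 2) (nat_lit 414) (.cons (nat_lit 748) (nat_lit 1788) (nat_lit 512) .nil)))))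
(.node (nat_lit 1)
(.leaf (.mk (nat_lit 5) (nat_lit 0x1e0000001000000000000000000000000000000000000) (nat_lit 0x70000000e10000002c00000000000000000000000000000000000) (.cons (nat_lit 657) (nat_lit 7) (nat_lit 447) (.cons (nat_lit 721) (nat_lit 3159) (nat_lit 512) .nil))))
(.leaf (.mk (nat_lit 4) (nat_lit 0x200000001e0000001000000000000000000000000000000000000) (nat_lit 0x50000000e10000000c00000000000000000000000000000000000) (.cons (nat_lit 720) (nat_lit 0) (nat_lit 479) (.cons (nat_lit 655) (nat_lit 3160) (nat_lit 512) .nil)))))))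
(.node (nat_lit 4)
(.node (nat_lit 2)
(.node (nat_lit 1)
(.leaf (.mk (nat_lit 3) (nat_lit 0x200000001e0000001800000000000000000000000000000000000) (nat_lit 0x40000000e10000000400000000000000000000000000000000000) (.cons (nat_lit 684) (nat_lit 7) (nat_lit 446) (.cons (nat_lit 689) (nat_lit 3161) (nat_lit 512) .nil))))
(.leaf (.mk (nat_lit 2) (nat_lit 0x200000003c0000001800000000000000000000000000000000000) (nat_lit 0x40000000c00000000400000000000000000000000000000000000) (.cons (nat_lit 722) (nat_lit 0) (nat_lit 480) (.cons (nat_lit 690) (nat_lit 619) (nat_lit 419) .nil)))))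
(.node (nat_lit 1)
(.leaf (.mk (nat_lit 5) (nat_lit 0x800000008000000000000001c0000000000000000000000000000000000000000000) (nat_lit 0xf800000230000007780000000000000000000000000000000000) (.cons (nat_lit 719) (nat_lit 193) (nat_lit 578) (.cons (nat_lit 685) (nat_lit 3312) (nat_lit 512) (.cons (nat_lit 656) (nat_lit 3313) (nat_lit 512) (.cons (nat_lit 654) (nat_lit 3314) (nat_lit 512) .nil))))))
(.leaf (.mk (nat_lit 8) (nat_lit 0x800000008000000000000001c0000000000000000000000000000000000000000000) (nat_lit 0x2000000020000003e8000001e0000003fe00000070000000700000007000000010000) (.cons (nat_lit 719) (nat_lit 193) (nat_lit 578) (.cons (nat_lit 689) (nat_lit 3293) (nat_lit 512) (.cons (nat_lit 654) (nat_lit 3294) (nat_lit 512) (.cons (nat_lit 656) (nat_lit 3295) (nat_lit 512) .nil))))))))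
(.node (nat_lit 2)
(.node (nat_lit 1)
(.leaf (.mk (nat_lit 8) (nat_lit 0x800000008000000000000000c0000000400000000000000000000000000000000000) (nat_lit 0x280000003800000038000000be0000033c000000be0000007e00000070000000700000000000) (.cons (nat_lit 719) (nat_lit 2) (nat_lit 448) (.cons (nat_lit 685) (nat_lit 3271) (nat_lit 512) .nil))))
(.leaf (.mk (nat_lit 7) (nat_lit 0x800000008000000000000000c0000000400000000000000000000000000000000000) (nat_lit 0x2000000020000000f800000038000007bc000003f8000007fc000000e0000000e000) (.cons (nat_lit 719) (nat_lit 2) (nat_lit 448) (.cons (nat_lit 622) (nat_lit 3226) (nat_lit 512) .nil)))))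
(.node (nat_lit 1)
(.leaf (.mk (nat_lit 8) (nat_lit 0x800000008000000000000000e0000000000000000000000000000000000000000000) (nat_lit 0x20000000780000003800000eff00000f1e00001fbf0000003000000020000000000000000000) (.cons (nat_lit 688) (nat_lit 3204) (nat_lit 512) (.cons (nat_lit 684) (nat_lit 3205) (nat_lit 512) (.cons (nat_lit 684) (nat_lit 3206) (nat_lit 512) (.cons (nat_lit 656) (nat_lit 3207) (nat_lit 512) (.cons (nat_lit 684) (nat_lit 292) (nat_lit 578) .nil)))))))
(.leaf (.mk (nat_lit 8) (nat_lit 0x800000000000000000000000e0000000000000000000000000000000000000000000) (nat_lit 0x700000007800000178000000380000007e0000071e00000fff0000007800000078000000380000000000) (.cons (nat_lit 688) (nat_lit 3182) (nat_lit 512) (.cons (nat_lit 716) (nat_lit 3183) (nat_lit 512) (.cons (nat_lit 684) (nat_lit 2735) (nat_lit 512) (.cons (nat_lit 684) (nat_lit 3184) (nat_lit 512) (.cons (nat_lit 717) (nat_lit 3185) (nat_lit 512) .nil))))))))))))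
(.node (nat_lit 16)
(.node (nat_lit 8)
(.node (nat_lit 4)
(.node (nat_lit 2)
(.node (nat_lit 1)
(.leaf (.mk (nat_lit 8) (nat_lit 0x800000008000000000000000e0000000000000000000000000000000000000000000) (nat_lit 0x2000000038000000780000003800000efe0000071c00000fdc0000003800000038000000280000000000) (.cons (nat_lit 719) (nat_lit 3169) (nat_lit 512) (.cons (nat_lit 719) (nat_lit 3170) (nat_lit 512) (.cons (nat_lit 684) (nat_lit 2735) (nat_lit 512) (.cons (nat_lit 688) (nat_lit 3171) (nat_lit 512) (.cons (nat_lit 684) (nat_lit 3172) (nat_lit 512) .nil)))))))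
(.leaf (.mk (nat_lit 5) (nat_lit 0x800000008000000080000000e0000000000000000000000000000000000000000000) (nat_lit 0x4000000118000001dc0000000000000000000000000000000000) (.cons (nat_lit 654) (nat_lit 2) (nat_lit 448) (.cons (nat_lit 656) (nat_lit 3181) (nat_lit 512) .nil)))))
(.node (nat_lit 1)
(.leaf (.mk (nat_lit 6) (nat_lit 0x800000008000000080000000e0000000000000000000000000000000000000000000) (nat_lit 0xe700000070000000f400000000000000000000000000000000000) (.cons (nat_lit 654) (nat_lit 2) (nat_lit 448) (.cons (nat_lit 688) (nat_lit 3180) (nat_lit 512) .nil))))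
(.leaf (.mk (nat_lit 5) (nat_lit 0x800000008000000000000001e0000000000000000000000000000000000000000000) (nat_lit 0xef80000061000000f800000000000000000000000000000000000) (.cons (nat_lit 656) (nat_lit 271) (nat_lit 578) (.cons (nat_lit 717) (nat_lit 1022) (nat_lit 416) (.cons (nat_lit 656) (nat_lit 3179) (nat_lit 512) .nil)))))))
(.node (nat_lit 2)
(.node (nat_lit 1)
(.leaf (.mk (nat_lit 7) (nat_lit 0x800000008000000000000000f0000000000000000000000000000000000000000000) (nat_lit 0x20000000380000003800000038000000fc00000008000000dc0000003800000038000000280000000000) (.cons (nat_lit 651) (nat_lit 3173) (nat_lit 512) (.cons (nat_lit 652) (nat_lit 3174) (nat_lit 512) (.cons (nat_lit 654) (nat_lit 3175) (nat_lit 512) .nil)))))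
(.leaf (.mk (nat_lit 3) (nat_lit 0x800000008000000000000000f0000000080000000000000000000000000000000000) (nat_lit 0x8000000008000000d40000000000000000000000000000000000) (.cons (nat_lit 652) (nat_lit 1) (nat_lit 445) (.cons (nat_lit 683) (nat_lit 3177) (nat_lit 512) .nil)))))
(.node (nat_lit 1)
(.leaf (.mk (nat_lit 6) (nat_lit 0xf0000000100000000000000000000000000000000000) (nat_lit 0x200000003800000038000000380000003800000000000000080000003800000038000000280000000000) (.cons (nat_lit 651) (nat_lit 1) (nat_lit 445) (.cons (nat_lit 716) (nat_lit 3176) (nat_lit 512) .nil))))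
(.leaf (.mk (nat_lit 3) (nat_lit 0x800000008000000000000000f0000000400000000000000000000000000000000000) (nat_lit 0x9c00000008000000800000000000000000000000000000000000) (.cons (nat_lit 719) (nat_lit 2) (nat_lit 448) (.cons (nat_lit 683) (nat_lit 589) (nat_lit 449) .nil)))))))
(.node (nat_lit 4)
(.node (nat_lit 2)
(.node (nat_lit 1)
(.leaf (.mk (nat_lit 5) (nat_lit 0x10000000f0000000100000000000000000000000000000000000) (nat_lit 0x200000003800000038000000380000002800000000000000000000003800000038000000280000000000) (.cons (nat_lit 715) (nat_lit 4) (nat_lit 477) (.cons (nat_lit 748) (nat_lit 2760) (nat_lit 512) .nil))))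
(.leaf (.mk (nat_lit 2) (nat_lit 0x800000008000000000000000f8000000080000000000000000000000000000000000) (nat_lit 0x8000000000000000c40000000000000000000000000000000000) (.cons (nat_lit 650) (nat_lit 1) (nat_lit 444) (.cons (nat_lit 654) (nat_lit 3178) (nat_lit 512) .nil)))))
(.node (nat_lit 1)
(.leaf (.mk (nat_lit 1) (nat_lit 0x800000008000000000000000f8000000400000000000000000000000000000000000) (nat_lit 0x8000000000000000800000000000000000000000000000000000) (.cons (nat_lit 655) (nat_lit 7) (nat_lit 445) (.cons (nat_lit 719) (nat_lit 2) (nat_lit 448) .nil))))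
(.leaf (.mk (nat_lit 3) (nat_lit 0x800000008000000000000001e0000001000000000000000000000000000000000000) (nat_lit 0xb800000010000000800000000000000000000000000000000000) (.cons (nat_lit 719) (nat_lit 5) (nat_lit 449) (.cons (nat_lit 684) (nat_lit 407) (nat_lit 483) .nil))))))
(.node (nat_lit 2)
(.node (nat_lit 1)
(.leaf (.mk (nat_lit 5) (nat_lit 0x800000008000000080000001e0000000000000000000000000000000000000000000) (nat_lit 0xe700000060000000f000000000000000000000000000000000000) (.cons (nat_lit 656) (nat_lit 5) (nat_lit 449) (.cons (nat_lit 717) (nat_lit 1022) (nat_lit 416) .nil))))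
(.leaf (.mk (nat_lit 4) (nat_lit 0x800000008000000080000000e0000001000000000000000000000000000000000000) (nat_lit 0x40000001180000009c0000000000000000000000000000000000) (.cons (nat_lit 688) (nat_lit 5) (nat_lit 449) (.cons (nat_lit 684) (nat_lit 1011) (nat_lit 417) .nil)))))
(.node (nat_lit 1)
(.leaf (.mk (nat_lit 6) (nat_lit 0x1e0000000000000000000000000000000000000000000) (nat_lit 0x780000061800000fe00000000000000000000000000000000000) (.cons (nat_lit 656) (nat_lit 875) (nat_lit 451) (.cons (nat_lit 717) (nat_lit 2775) (nat_lit 513) (.cons (nat_lit 689) (nat_lit 2937) (nat_lit 512) (.cons (nat_lit 716) (nat_lit 1800) (nat_lit 512) (.cons (nat_lit 657) (nat_lit 1807) (nat_lit 512) .nil)))))))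
(.leaf (.mk (nat_lit 7) (nat_lit 0x800000000000000010000000e0000000000000000000000000000000000000000000) (nat_lit 0x200000003800000078000000380000006c000001100000003c0000003800000038000000280000000000) (.cons (nat_lit 717) (nat_lit 736) (nat_lit 416) (.cons (nat_lit 684) (nat_lit 1780) (nat_lit 512) (.cons (nat_lit 652) (nat_lit 3196) (nat_lit 512) (.cons (nat_lit 715) (nat_lit 1014) (nat_lit 416) .nil))))))))))
(.node (nat_lit 8)
(.node (nat_lit 4)
(.node (nat_lit 2)
(.node (nat_lit 1)
(.leaf (.mk (nat_lit 6) (nat_lit 0xf0000000000000000000000000000000000000000000) (nat_lit 0xe0000030e000007fe0000000000000000000000000000000000) (.cons (nat_lit 652) (nat_lit 1805) (nat_lit 510) (.cons (nat_lit 683) (nat_lit 2223) (nat_lit 512) (.cons (nat_lit 655) (nat_lit 1767) (nat_lit 511) (.cons (nat_lit 688) (nat_lit 2937) (nat_lit 511) .nil))))))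
(.leaf (.mk (nat_lit 6) (nat_lit 0x800000000000000020000000e0000000000000000000000000000000000000000000) (nat_lit 0x500000007000000170000000300000005000000300000007fc0000007000000070000000300000000000) (.cons (nat_lit 688) (nat_lit 2803) (nat_lit 512) (.cons (nat_lit 749) (nat_lit 3186) (nat_lit 512) (.cons (nat_lit 749) (nat_lit 3187) (nat_lit 512) (.cons (nat_lit 688) (nat_lit 1780) (nat_lit 513) .nil)))))))
(.node (nat_lit 1)
(.leaf (.mk (nat_lit 5) (nat_lit 0x800000002000000020000000e0000000000000000000000000000000000000000000) (nat_lit 0x500000007000000170000000100000005000000000000000780000007000000060000000200000000000) (.cons (nat_lit 654) (nat_lit 660) (nat_lit 514) (.cons (nat_lit 781) (nat_lit 3188) (nat_lit 512) (.cons (nat_lit 654) (nat_lit 3193) (nat_lit 512) (.cons (nat_lit 654) (nat_lit 362) (nat_lit 451) .nil))))))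
(.leaf (.mk (nat_lit 5) (nat_lit 0x800000002000000020000000e0000000000000000000000000000000000000000000) (nat_lit 0x500000007000000170000000100000004000000100000000780000007000000070000000100000000000) (.cons (nat_lit 654) (nat_lit 660) (nat_lit 514) (.cons (nat_lit 781) (nat_lit 3188) (nat_lit 512) (.cons (nat_lit 653) (nat_lit 3189) (nat_lit 512) (.cons (nat_lit 654) (nat_lit 362) (nat_lit 451) .nil))))))))
(.node (nat_lit 2)
(.node (nat_lit 1)
(.leaf (.mk (nat_lit 4) (nat_lit 0xa0000000200000002000000060000000000000000000000000000000000000000000) (nat_lit 0x500000007000000150000000100000004000000000000000200000000000000000000000000000000000) (.cons (nat_lit 814) (nat_lit 528) (nat_lit 448) (.cons (nat_lit 780) (nat_lit 3191) (nat_lit 512) (.cons (nat_lit 812) (nat_lit 766) (nat_lit 416) .nil)))))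
(.leaf (.mk (nat_lit 4) (nat_lit 0x2000000020000000e0000000200000000000000000000000000000000000) (nat_lit 0x4000000100000000580000007000000070000000100000000000) (.cons (nat_lit 652) (nat_lit 2551) (nat_lit 544) (.cons (nat_lit 621) (nat_lit 1894) (nat_lit 512) (.cons (nat_lit 654) (nat_lit 3190) (nat_lit 512) .nil))))))
(.node (nat_lit 1)
(.leaf (.mk (nat_lit 2) (nat_lit 0x2000000020000000e0000000600000000000000000000000000000000000) (nat_lit 0x100000000180000004000000000000000000000000000) (.cons (nat_lit 622) (nat_lit 5) (nat_lit 415) (.cons (nat_lit 652) (nat_lit 592) (nat_lit 415) .nil))))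
(.leaf (.mk (nat_lit 3) (nat_lit 0xb0000000200000002000000020000000000000000000000000000000000000000000) (nat_lit 0x5000000140000000100000000000000000000000200000000000000000000000000000000000) (.cons (nat_lit 812) (nat_lit 6) (nat_lit 478) (.cons (nat_lit 748) (nat_lit 3192) (nat_lit 512) .nil)))))))
(.node (nat_lit 4)
(.node (nat_lit 2)
(.node (nat_lit 1)
(.leaf (.mk (nat_lit 2) (nat_lit 0xb0000000300000002000000020000000000000000000000000000000000000000000) (nat_lit 0x4000000140000000000000000000000000000000200000000000000000000000000000000000) (.cons (nat_lit 653) (nat_lit 6) (nat_lit 446) (.cons (nat_lit 782) (nat_lit 511) (nat_lit 512) .nil))))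
(.leaf (.mk (nat_lit 4) (nat_lit 0x2000000020000000e0000000400000000000000000000000000000000000) (nat_lit 0x10000000100000005000000000000000380000007000000060000000200000000000) (.cons (nat_lit 622) (nat_lit 661) (nat_lit 514) (.cons (nat_lit 653) (nat_lit 3194) (nat_lit 512) (.cons (nat_lit 622) (nat_lit 363) (nat_lit 451) .nil))))))
(.node (nat_lit 1)
(.leaf (.mk (nat_lit 3) (nat_lit 0x2000000020000000e0000000600000000000000000000000000000000000) (nat_lit 0x10000000100000005000000000000000180000003000000020000000200000000000) (.cons (nat_lit 652) (nat_lit 684) (nat_lit 514) (.cons (nat_lit 621) (nat_lit 3195) (nat_lit 512) .nil))))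
(.leaf (.mk (nat_lit 2) (nat_lit 0x200000002000000060000000600000002000000000000000000000000000) (nat_lit 0x10000000100000005000000000000000000000000000000020000000200000000000) (.cons (nat_lit 589) (nat_lit 274) (nat_lit 451) (.cons (nat_lit 748) (nat_lit 91) (nat_lit 448) .nil))))))
(.node (nat_lit 2)
(.node (nat_lit 1)
(.leaf (.mk (nat_lit 6) (nat_lit 0x800000000000000010000000e0000000100000000000000000000000000000000000) (nat_lit 0x20000000780000003800000020000001100000002c0000003000000030000000000000000000) (.cons (nat_lit 688) (nat_lit 787) (nat_lit 417) (.cons (nat_lit 684) (nat_lit 3197) (nat_lit 512) (.cons (nat_lit 684) (nat_lit 3198) (nat_lit 512) (.cons (nat_lit 651) (nat_lit 218) (nat_lit 578) .nil))))))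
(.leaf (.mk (nat_lit 5) (nat_lit 0x800000000000000010000000f0000000100000000000000000000000000000000000) (nat_lit 0x2000000078000000380000002000000000000000280000003000000030000000000000000000) (.cons (nat_lit 651) (nat_lit 1) (nat_lit 445) (.cons (nat_lit 748) (nat_lit 3199) (nat_lit 512) .nil)))))
(.node (nat_lit 1)
(.leaf (.mk (nat_lit 3) (nat_lit 0x10000000f0000000100000000000000000000000000000000000) (nat_lit 0x200000002000000100000000080000001000000010000000000000000000) (.cons (nat_lit 651) (nat_lit 1) (nat_lit 445) (.cons (nat_lit 717) (nat_lit 273) (nat_lit 482) .nil))))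
(.leaf (.mk (nat_lit 4) (nat_lit 0x80000000100000001000000030000000100000000000000000000000000000000000) (nat_lit 0x2000000078000000280000002000000000000000200000003000000030000000000000000000) (.cons (nat_lit 653) (nat_lit 123) (nat_lit 514) (.cons (nat_lit 781) (nat_lit 3200) (nat_lit 512) (.cons (nat_lit 621) (nat_lit 3201) (nat_lit 512) .nil))))))))))))
(.node (nat_lit 64)
(.node (nat_lit 32)
(.node (nat_lit 16)
(.node (nat_lit 8)
(.node (nat_lit 4)
(.node (nat_lit 2)
(.node (nat_lit 1)
(.leaf (.mk (nat_lit 3) (nat_lit 0xa0000000100000001000000010000000100000000000000000000000000000000000) (nat_lit 0x2000000058000000280000000000000000000000000000000000000000000000000000000000) (.cons (nat_lit 749) (nat_lit 3) (nat_lit 446) (.cons (nat_lit 747) (nat_lit 3202) (nat_lit 512) .nil))))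
(.leaf (.mk (nat_lit 3) (nat_lit 0x100000001000000030000000100000002000000000000000000000000000) (nat_lit 0x200000002000000000000000200000001000000030000000000000000000) (.cons (nat_lit 653) (nat_lit 5) (nat_lit 414) (.cons (nat_lit 620) (nat_lit 1071) (nat_lit 448) .nil)))))
(.node (nat_lit 1)
(.leaf (.mk (nat_lit 2) (nat_lit 0xa0000000180000001000000010000000100000000000000000000000000000000000) (nat_lit 0x2000000058000000000000000000000000000000000000000000000000000000000000000000) (.cons (nat_lit 779) (nat_lit 6) (nat_lit 445) (.cons (nat_lit 780) (nat_lit 3203) (nat_lit 512) .nil))))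
(.leaf (.mk (nat_lit 1) (nat_lit 0xb0000000180000001000000010000000000000000000000000000000000000000000) (nat_lit 0x2000000040000000000000000000000000000000000000000000000000000000000000000000) (.cons (nat_lit 813) (nat_lit 3) (nat_lit 478) (.cons (nat_lit 782) (nat_lit 1) (nat_lit 541) .nil))))))
(.node (nat_lit 2)
(.node (nat_lit 1)
(.leaf (.mk (nat_lit 6) (nat_lit 0x800000008000000000000001e0000000000000000000000000000000000000000000) (nat_lit 0xef000000e0000001f800000000000000000000000000000000000) (.cons (nat_lit 656) (nat_lit 271) (nat_lit 578) (.cons (nat_lit 717) (nat_lit 1022) (nat_lit 416) (.cons (nat_lit 717) (nat_lit 3223) (nat_lit 512) .nil)))))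
(.leaf (.mk (nat_lit 7) (nat_lit 0x800000000000000000000000f0000000000000000000000000000000000000000000) (nat_lit 0x200000007800000038000000ff0000000e0000003f0000003000000020000000000000000000) (.cons (nat_lit 651) (nat_lit 180) (nat_lit 482) (.cons (nat_lit 652) (nat_lit 3209) (nat_lit 512) (.cons (nat_lit 683) (nat_lit 3212) (nat_lit 512) (.cons (nat_lit 683) (nat_lit 3213) (nat_lit 512) (.cons (nat_lit 715) (nat_lit 3214) (nat_lit 512) .nil))))))))
(.node (nat_lit 1)
(.leaf (.mk (nat_lit 7) (nat_lit 0x800000000000000000000000f0000000000000000000000000000000000000000000) (nat_lit 0x2000000078000000380000003800000100000003b80000003000000020000000000000000000) (.cons (nat_lit 652) (nat_lit 1805) (nat_lit 510) (.cons (nat_lit 652) (nat_lit 3209) (nat_lit 512) (.cons (nat_lit 656) (nat_lit 1807) (nat_lit 511) .nil)))))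
(.leaf (.mk (nat_lit 7) (nat_lit 0x800000008000000000000000e0000001000000000000000000000000000000000000) (nat_lit 0xee0000011c0000069c0000000000000000000000000000000000) (.cons (nat_lit 688) (nat_lit 271) (nat_lit 578) (.cons (nat_lit 684) (nat_lit 3208) (nat_lit 512) (.cons (nat_lit 655) (nat_lit 2369) (nat_lit 512) .nil))))))))
(.node (nat_lit 4)
(.node (nat_lit 2)
(.node (nat_lit 1)
(.leaf (.mk (nat_lit 6) (nat_lit 0xf0000001000000000000000000000000000000000000) (nat_lit 0xee0000000c0000009c0000000000000000000000000000000000) (.cons (nat_lit 655) (nat_lit 7) (nat_lit 446) (.cons (nat_lit 651) (nat_lit 2445) (nat_lit 513) .nil))))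
(.leaf (.mk (nat_lit 6) (nat_lit 0x800000000000000000000000f0000000100000000000000000000000000000000000) (nat_lit 0x2000000078000000380000003800000000000000280000003000000020000000000000000000) (.cons (nat_lit 651) (nat_lit 1) (nat_lit 445) (.cons (nat_lit 716) (nat_lit 3210) (nat_lit 512) .nil)))))
(.node (nat_lit 1)
(.leaf (.mk (nat_lit 5) (nat_lit 0x800000000000000010000000f0000000100000000000000000000000000000000000) (nat_lit 0x2000000078000000380000002800000000000000200000003000000020000000000000000000) (.cons (nat_lit 715) (nat_lit 4) (nat_lit 477) (.cons (nat_lit 748) (nat_lit 3211) (nat_lit 512) .nil))))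
(.leaf (.mk (nat_lit 4) (nat_lit 0x80000000100000001000000030000000100000000000000000000000000000000000) (nat_lit 0x2000000078000000280000002000000000000000200000003000000020000000000000000000) (.cons (nat_lit 653) (nat_lit 123) (nat_lit 514) (.cons (nat_lit 781) (nat_lit 3200) (nat_lit 512) (.cons (nat_lit 621) (nat_lit 446) (nat_lit 511) .nil)))))))
(.node (nat_lit 2)
(.node (nat_lit 1)
(.leaf (.mk (nat_lit 6) (nat_lit 0xf8000000000000000000000000000000000000000000) (nat_lit 0xe7000000060000003f0000000000000000000000000000000000) (.cons (nat_lit 651) (nat_lit 172) (nat_lit 418) (.cons (nat_lit 718) (nat_lit 3216) (nat_lit 512) (.cons (nat_lit 718) (nat_lit 3220) (nat_lit 512) .nil)))))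
(.leaf (.mk (nat_lit 6) (nat_lit 0xf8000000000000000000000000000000000000000000) (nat_lit 0x1000000010000000ff00000006000000370000002000000020000000000000000000) (.cons (nat_lit 715) (nat_lit 173) (nat_lit 418) (.cons (nat_lit 718) (nat_lit 3216) (nat_lit 512) (.cons (nat_lit 716) (nat_lit 3217) (nat_lit 512) .nil))))))
(.node (nat_lit 1)
(.leaf (.mk (nat_lit 5) (nat_lit 0x8000000f0000000000000000000000000000000000000000000) (nat_lit 0xf40000000c0000000e0000000000000000000000000000000000) (.cons (nat_lit 716) (nat_lit 4) (nat_lit 477) (.cons (nat_lit 683) (nat_lit 3215) (nat_lit 512) .nil))))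
(.leaf (.mk (nat_lit 4) (nat_lit 0x800000078000000000000000000000000000000000000000000) (nat_lit 0xe4000000040000000e0000000000000000000000000000000000) (.cons (nat_lit 714) (nat_lit 4) (nat_lit 476) (.cons (nat_lit 650) (nat_lit 2214) (nat_lit 513) .nil))))))))
(.node (nat_lit 8)
(.node (nat_lit 4)
(.node (nat_lit 2)
(.node (nat_lit 1)
(.leaf (.mk (nat_lit 4) (nat_lit 0x4000000078000000000000000000000000000000000000000000) (nat_lit 0xa700000006000000070000000000000000000000000000000000) (.cons (nat_lit 719) (nat_lit 0) (nat_lit 477) (.cons (nat_lit 682) (nat_lit 1275) (nat_lit 352) .nil))))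
(.leaf (.mk (nat_lit 5) (nat_lit 0x10000000f8000000000000000000000000000000000000000000) (nat_lit 0x1000000010000000e800000006000000370000002000000020000000000000000000) (.cons (nat_lit 715) (nat_lit 4) (nat_lit 477) (.cons (nat_lit 653) (nat_lit 3218) (nat_lit 512) .nil)))))
(.node (nat_lit 1)
(.leaf (.mk (nat_lit 4) (nat_lit 0x1000000078000000200000000000000000000000000000000000) (nat_lit 0x1000000010000000e000000006000000170000002000000020000000000000000000) (.cons (nat_lit 682) (nat_lit 3219) (nat_lit 512) (.cons (nat_lit 621) (nat_lit 993) (nat_lit 351) (.cons (nat_lit 621) (nat_lit 517) (nat_lit 448) .nil)))))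
(.leaf (.mk (nat_lit 3) (nat_lit 0x100000007c000000200000000000000000000000000000000000) (nat_lit 0xe000000002000000170000000000000000000000000000000000) (.cons (nat_lit 718) (nat_lit 89) (nat_lit 541) (.cons (nat_lit 649) (nat_lit 403) (nat_lit 480) .nil))))))
(.node (nat_lit 2)
(.node (nat_lit 1)
(.leaf (.mk (nat_lit 5) (nat_lit 0x40000000f8000000000000000000000000000000000000000000) (nat_lit 0xa700000006000000380000000000000000000000000000000000) (.cons (nat_lit 719) (nat_lit 0) (nat_lit 477) (.cons (nat_lit 682) (nat_lit 3221) (nat_lit 512) .nil))))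
(.leaf (.mk (nat_lit 4) (nat_lit 0x40000000fc000000000000000000000000000000000000000000) (nat_lit 0x2700000002000000380000000000000000000000000000000000) (.cons (nat_lit 717) (nat_lit 0) (nat_lit 476) (.cons (nat_lit 652) (nat_lit 3222) (nat_lit 512) .nil)))))
(.node (nat_lit 1)
(.leaf (.mk (nat_lit 3) (nat_lit 0xfc000000100000000000000000000000000000000000) (nat_lit 0x700000002000000280000000000000000000000000000000000) (.cons (nat_lit 651) (nat_lit 1) (nat_lit 445) (.cons (nat_lit 681) (nat_lit 589) (nat_lit 447) .nil))))
(.leaf (.mk (nat_lit 5) (nat_lit 0x800000008000000020000001e0000000000000000000000000000000000000000000) (nat_lit 0xed000000e0000001d800000000000000000000000000000000000) (.cons (nat_lit 716) (nat_lit 4) (nat_lit 478) (.cons (nat_lit 689) (nat_lit 3224) (nat_lit 512) .nil)))))))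
(.node (nat_lit 4)
(.node (nat_lit 2)
(.node (nat_lit 1)
(.leaf (.mk (nat_lit 4) (nat_lit 0x800000008000000020000003c0000000000000000000000000000000000000000000) (nat_lit 0xec000000c0000001d800000000000000000000000000000000000) (.cons (nat_lit 718) (nat_lit 4) (nat_lit 479) (.cons (nat_lit 690) (nat_lit 3225) (nat_lit 512) .nil))))
(.leaf (.mk (nat_lit 3) (nat_lit 0x800000008000000000000007c0000000000000000000000000000000000000000000) (nat_lit 0xe800000080000001d800000000000000000000000000000000000) (.cons (nat_lit 722) (nat_lit 89) (nat_lit 545) (.cons (nat_lit 691) (nat_lit 2195) (nat_lit 609) .nil)))))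
(.node (nat_lit 1)
(.leaf (.mk (nat_lit 6) (nat_lit 0xc0000000400000004000000000000000000000000000) (nat_lit 0x20000000200000007800000038000007bc000003b8000007fc000000e0000000e000) (.cons (nat_lit 590) (nat_lit 3227) (nat_lit 512) (.cons (nat_lit 590) (nat_lit 3228) (nat_lit 512) (.cons (nat_lit 590) (nat_lit 3229) (nat_lit 512) (.cons (nat_lit 623) (nat_lit 3230) (nat_lit 512) (.cons (nat_lit 590) (nat_lit 135) (nat_lit 452) (.cons (nat_lit 621) (nat_lit 3231) (nat_lit 512) .nil))))))))
(.leaf (.mk (nat_lit 4) (nat_lit 0xc0000000400000004000000040000000000000000000) (nat_lit 0x400000000000000080000000a0000000a0000000e0000000a000) (.cons (nat_lit 557) (nat_lit 522) (nat_lit 449) (.cons (nat_lit 589) (nat_lit 3269) (nat_lit 512) (.cons (nat_lit 558) (nat_lit 333) (nat_lit 449) .nil)))))))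
(.node (nat_lit 2)
(.node (nat_lit 1)
(.leaf (.mk (nat_lit 4) (nat_lit 0xc0000000400000004000000040000000000000000000) (nat_lit 0x200000006000000020000000a00000002000000020000000600000002000) (.cons (nat_lit 557) (nat_lit 522) (nat_lit 449) (.cons (nat_lit 589) (nat_lit 75) (nat_lit 417) (.cons (nat_lit 558) (nat_lit 3268) (nat_lit 512) .nil)))))
(.leaf (.mk (nat_lit 4) (nat_lit 0xc0000000400000004000000040000000000000000000) (nat_lit 0x200000006000000020000000a00000008000000080000000c00000008000) (.cons (nat_lit 558) (nat_lit 333) (nat_lit 449) (.cons (nat_lit 591) (nat_lit 1707) (nat_lit 419) (.cons (nat_lit 558) (nat_lit 3268) (nat_lit 512) .nil))))))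
(.node (nat_lit 1)
(.leaf (.mk (nat_lit 5) (nat_lit 0x4000000040000000c000000000000000000000000000) (nat_lit 0x4000000000000007bc00000338000007bc000000a0000000a000) (.cons (nat_lit 591) (nat_lit 362) (nat_lit 388) (.cons (nat_lit 621) (nat_lit 3258) (nat_lit 512) (.cons (nat_lit 624) (nat_lit 3259) (nat_lit 512) (.cons (nat_lit 621) (nat_lit 3260) (nat_lit 512) .nil))))))
(.leaf (.mk (nat_lit 5) (nat_lit 0xc0000000400000006000000000000000000000000000) (nat_lit 0x20000000200000003800000038000003bc00000398000003fc000000e0000000e000) (.cons (nat_lit 590) (nat_lit 3232) (nat_lit 512) (.cons (nat_lit 589) (nat_lit 3233) (nat_lit 512) (.cons (nat_lit 590) (nat_lit 3234) (nat_lit 512) (.cons (nat_lit 620) (nat_lit 3235) (nat_lit 512) (.cons (nat_lit 623) (nat_lit 3236) (nat_lit 512) .nil))))))))))))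
(.node (nat_lit 16)
(.node (nat_lit 8)
(.node (nat_lit 4)
(.node (nat_lit 2)
(.node (nat_lit 1)
(.leaf (.mk (nat_lit 4) (nat_lit 0xc0000000400000006000000040000000000000000000) (nat_lit 0x8000000010000003a0000000e0000000a000) (.cons (nat_lit 557) (nat_lit 522) (nat_lit 449) (.cons (nat_lit 558) (nat_lit 333) (nat_lit 449) (.cons (nat_lit 591) (nat_lit 2484) (nat_lit 478) .nil)))))
(.leaf (.mk (nat_lit 4) (nat_lit 0xc0000000400000006000000020000000000000000000) (nat_lit 0x20000000200000003800000038000003a00000000000000040000000600000002000) (.cons (nat_lit 557) (nat_lit 812) (nat_lit 387) (.cons (nat_lit 685) (nat_lit 3254) (nat_lit 512) (.cons (nat_lit 557) (nat_lit 669) (nat_lit 451) .nil))))))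
(.node (nat_lit 1)
(.leaf (.mk (nat_lit 4) (nat_lit 0xc0000000400000006000000040000000000000000000) (nat_lit 0x20000000a00000009800000380000000c00000004000) (.cons (nat_lit 558) (nat_lit 3252) (nat_lit 512) (.cons (nat_lit 591) (nat_lit 3253) (nat_lit 512) .nil))))
(.leaf (.mk (nat_lit 4) (nat_lit 0xc0000000400000007000000000000000000000000000) (nat_lit 0x3bc00000388000003bc000000a0000000a000) (.cons (nat_lit 655) (nat_lit 583) (nat_lit 383) (.cons (nat_lit 623) (nat_lit 3247) (nat_lit 512) (.cons (nat_lit 623) (nat_lit 3248) (nat_lit 512) (.cons (nat_lit 655) (nat_lit 84) (nat_lit 479) .nil))))))))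
(.node (nat_lit 2)
(.node (nat_lit 1)
(.leaf (.mk (nat_lit 4) (nat_lit 0x4000000040000000e000000000000000000000000000) (nat_lit 0x200000003000000310000003f8000000e0000000e000) (.cons (nat_lit 589) (nat_lit 3237) (nat_lit 512) (.cons (nat_lit 591) (nat_lit 3238) (nat_lit 512) (.cons (nat_lit 590) (nat_lit 3239) (nat_lit 512) (.cons (nat_lit 624) (nat_lit 3240) (nat_lit 512) (.cons (nat_lit 590) (nat_lit 3241) (nat_lit 512) .nil)))))))
(.leaf (.mk (nat_lit 3) (nat_lit 0x4000000040000000e000000020000000000000000000) (nat_lit 0x200000030000000050000000200000002000) (.cons (nat_lit 557) (nat_lit 812) (nat_lit 387) (.cons (nat_lit 624) (nat_lit 3246) (nat_lit 512) (.cons (nat_lit 557) (nat_lit 669) (nat_lit 451) .nil))))))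
(.node (nat_lit 1)
(.leaf (.mk (nat_lit 3) (nat_lit 0x4000000040000000e000000080000000000000000000) (nat_lit 0x300000031000000340000000800000008000) (.cons (nat_lit 559) (nat_lit 661) (nat_lit 451) (.cons (nat_lit 624) (nat_lit 3245) (nat_lit 512) .nil))))
(.leaf (.mk (nat_lit 3) (nat_lit 0x4000000040000000e000000040000000000000000000) (nat_lit 0x200000002000000010000003a0000000e00000006000) (.cons (nat_lit 591) (nat_lit 3243) (nat_lit 512) (.cons (nat_lit 558) (nat_lit 3244) (nat_lit 512) .nil)))))))
(.node (nat_lit 4)
(.node (nat_lit 2)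
(.node (nat_lit 1)
(.leaf (.mk (nat_lit 3) (nat_lit 0x40000001e000000000000000000000000000) (nat_lit 0x3000000210000003b8000000000000000000) (.cons (nat_lit 653) (nat_lit 494) (nat_lit 481) (.cons (nat_lit 620) (nat_lit 201) (nat_lit 514) .nil))))
(.leaf (.mk (nat_lit 3) (nat_lit 0x4000000040000000e000000040000000000000000000) (nat_lit 0x110000003b8000000a00000000000) (.cons (nat_lit 589) (nat_lit 3242) (nat_lit 512) (.cons (nat_lit 591) (nat_lit 3243) (nat_lit 512) .nil)))))
(.node (nat_lit 1)
(.leaf (.mk (nat_lit 2) (nat_lit 0x4000000040000000e000000060000000000000000000) (nat_lit 0x10000000018000000200000000000) (.cons (nat_lit 557) (nat_lit 2) (nat_lit 351) (.cons (nat_lit 588) (nat_lit 592) (nat_lit 351) .nil))))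
(.leaf (.mk (nat_lit 2) (nat_lit 0x4000000040000000e0000000c0000000000000000000) (nat_lit 0x1000000300000000800000000000) (.cons (nat_lit 559) (nat_lit 5) (nat_lit 352) (.cons (nat_lit 592) (nat_lit 685) (nat_lit 451) .nil))))))
(.node (nat_lit 2)
(.node (nat_lit 1)
(.leaf (.mk (nat_lit 2) (nat_lit 0x40000000400000006000000040000000400000000000) (nat_lit 0x20000000200000000000000020000000200000006000) (.cons (nat_lit 557) (nat_lit 125) (nat_lit 452) (.cons (nat_lit 653) (nat_lit 419) (nat_lit 387) .nil))))
(.leaf (.mk (nat_lit 2) (nat_lit 0x40000001e000000080000000000000000000) (nat_lit 0x300000021000000300000000000000000000) (.cons (nat_lit 592) (nat_lit 289) (nat_lit 515) (.cons (nat_lit 653) (nat_lit 494) (nat_lit 481) .nil)))))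
(.node (nat_lit 1)
(.leaf (.mk (nat_lit 2) (nat_lit 0x40000001e000000020000000000000000000) (nat_lit 0x200000020000000050000000000000000000) (.cons (nat_lit 588) (nat_lit 1) (nat_lit 382) (.cons (nat_lit 625) (nat_lit 975) (nat_lit 352) .nil))))
(.leaf (.mk (nat_lit 3) (nat_lit 0x4000000040000000f000000000000000000000000000) (nat_lit 0x3c00000308000003bc000000200000002000) (.cons (nat_lit 589) (nat_lit 3250) (nat_lit 512) (.cons (nat_lit 624) (nat_lit 3251) (nat_lit 512) (.cons (nat_lit 619) (nat_lit 171) (nat_lit 354) .nil)))))))))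
(.node (nat_lit 8)
(.node (nat_lit 4)
(.node (nat_lit 2)
(.node (nat_lit 1)
(.leaf (.mk (nat_lit 3) (nat_lit 0x4000000040000000f000000000000000000000000000) (nat_lit 0xa000000100000001b8000000a0000000a000) (.cons (nat_lit 591) (nat_lit 3249) (nat_lit 512) (.cons (nat_lit 589) (nat_lit 3250) (nat_lit 512) .nil))))
(.leaf (.mk (nat_lit 2) (nat_lit 0x4000000040000000f000000080000000000000000000) (nat_lit 0x800000000000000100000000800000008000) (.cons (nat_lit 592) (nat_lit 7) (nat_lit 382) (.cons (nat_lit 559) (nat_lit 363) (nat_lit 388) .nil)))))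
(.node (nat_lit 1)
(.leaf (.mk (nat_lit 2) (nat_lit 0x4000000040000000f000000020000000000000000000) (nat_lit 0x200000010000000018000000200000002000) (.cons (nat_lit 557) (nat_lit 669) (nat_lit 451) (.cons (nat_lit 588) (nat_lit 619) (nat_lit 352) .nil))))
(.leaf (.mk (nat_lit 2) (nat_lit 0x40000001f000000000000000000000000000) (nat_lit 0x300000020000000380000000000000000000) (.cons (nat_lit 592) (nat_lit 202) (nat_lit 514) (.cons (nat_lit 653) (nat_lit 494) (nat_lit 481) .nil))))))
(.node (nat_lit 2)
(.node (nat_lit 1)
(.leaf (.mk (nat_lit 2) (nat_lit 0x80000000400000006000000040000000400000000000) (nat_lit 0x20000000a00000000000000000000000000000004000) (.cons (nat_lit 655) (nat_lit 3) (nat_lit 352) (.cons (nat_lit 653) (nat_lit 419) (nat_lit 387) .nil))))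
(.leaf (.mk (nat_lit 3) (nat_lit 0x400000004000000060000000c0000000000000000000) (nat_lit 0x9800000300000000800000000000) (.cons (nat_lit 559) (nat_lit 5) (nat_lit 352) (.cons (nat_lit 592) (nat_lit 736) (nat_lit 321) .nil)))))
(.node (nat_lit 1)
(.leaf (.mk (nat_lit 3) (nat_lit 0xe0000000400000006000000020000000000000000000) (nat_lit 0x20000000200000003800000018000003a00000000000000040000000400000000000) (.cons (nat_lit 684) (nat_lit 3255) (nat_lit 512) (.cons (nat_lit 655) (nat_lit 3256) (nat_lit 512) (.cons (nat_lit 717) (nat_lit 993) (nat_lit 352) .nil)))))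
(.leaf (.mk (nat_lit 2) (nat_lit 0xf0000000400000002000000020000000000000000000) (nat_lit 0x1800000008000001a00000000000000000000000000000000000) (.cons (nat_lit 655) (nat_lit 289) (nat_lit 578) (.cons (nat_lit 716) (nat_lit 377) (nat_lit 386) .nil)))))))
(.node (nat_lit 4)
(.node (nat_lit 2)
(.node (nat_lit 1)
(.leaf (.mk (nat_lit 2) (nat_lit 0xe0000000c00000006000000000000000000000000000) (nat_lit 0x2000000010000003000000000000000040000000400000000000) (.cons (nat_lit 590) (nat_lit 1716) (nat_lit 450) (.cons (nat_lit 656) (nat_lit 3257) (nat_lit 512) .nil))))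
(.leaf (.mk (nat_lit 1) (nat_lit 0xe0000001c00000006000000000000000000000000000) (nat_lit 0x10000002000000000000000000000000000000000000) (.cons (nat_lit 657) (nat_lit 1) (nat_lit 415) (.cons (nat_lit 684) (nat_lit 7) (nat_lit 446) .nil)))))
(.node (nat_lit 1)
(.leaf (.mk (nat_lit 4) (nat_lit 0x4000000040000000e000000000000000000000000000) (nat_lit 0x4000000000000003bc000003180000003c000000200000002000) (.cons (nat_lit 589) (nat_lit 802) (nat_lit 387) (.cons (nat_lit 620) (nat_lit 3265) (nat_lit 512) (.cons (nat_lit 589) (nat_lit 3266) (nat_lit 512) .nil)))))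
(.leaf (.mk (nat_lit 4) (nat_lit 0x4000000040000001c000000000000000000000000000) (nat_lit 0x7b800000238000007b8000000a0000000a000) (.cons (nat_lit 653) (nat_lit 244) (nat_lit 419) (.cons (nat_lit 621) (nat_lit 3261) (nat_lit 512) (.cons (nat_lit 653) (nat_lit 736) (nat_lit 353) (.cons (nat_lit 621) (nat_lit 3262) (nat_lit 512) .nil))))))))
(.node (nat_lit 2)
(.node (nat_lit 1)
(.leaf (.mk (nat_lit 4) (nat_lit 0x4000000040000000e000000000000000000000000000) (nat_lit 0x40000000000000003000000310000007b8000000200000002000) (.cons (nat_lit 624) (nat_lit 3240) (nat_lit 512) (.cons (nat_lit 591) (nat_lit 2627) (nat_lit 448) (.cons (nat_lit 589) (nat_lit 802) (nat_lit 387) .nil)))))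
(.leaf (.mk (nat_lit 3) (nat_lit 0x4000000040000001e000000000000000000000000000) (nat_lit 0x78000000218000007b8000000800000008000) (.cons (nat_lit 591) (nat_lit 3263) (nat_lit 512) (.cons (nat_lit 620) (nat_lit 3264) (nat_lit 512) (.cons (nat_lit 625) (nat_lit 207) (nat_lit 514) .nil))))))
(.node (nat_lit 1)
(.leaf (.mk (nat_lit 3) (nat_lit 0x4000000040000001e000000000000000000000000000) (nat_lit 0xa000000010000003b0000000a0000000a000) (.cons (nat_lit 589) (nat_lit 668) (nat_lit 451) (.cons (nat_lit 591) (nat_lit 3263) (nat_lit 512) .nil))))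
(.leaf (.mk (nat_lit 2) (nat_lit 0x4000000040000001e000000080000000000000000000) (nat_lit 0x800000001000000300000000800000008000) (.cons (nat_lit 559) (nat_lit 363) (nat_lit 388) (.cons (nat_lit 592) (nat_lit 289) (nat_lit 515) .nil))))))))))
(.node (nat_lit 32)
(.node (nat_lit 16)
(.node (nat_lit 8)
(.node (nat_lit 4)
(.node (nat_lit 2)
(.node (nat_lit 1)
(.leaf (.mk (nat_lit 2) (nat_lit 0x40000001f000000000000000000000000000) (nat_lit 0x1800000000800000038000000000000000000) (.cons (nat_lit 588) (nat_lit 172) (nat_lit 355) (.cons (nat_lit 655) (nat_lit 435) (nat_lit 450) .nil))))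
(.leaf (.mk (nat_lit 3) (nat_lit 0x40000000f000000000000000000000000000) (nat_lit 0x3bc000003080000001c000000000000000000) (.cons (nat_lit 655) (nat_lit 435) (nat_lit 450) (.cons (nat_lit 619) (nat_lit 171) (nat_lit 354) (.cons (nat_lit 624) (nat_lit 3267) (nat_lit 512) .nil))))))
(.node (nat_lit 1)
(.leaf (.mk (nat_lit 3) (nat_lit 0x4000000040000000e000000020000000000000000000) (nat_lit 0x400000000000000000000001100000001c000000000000000000) (.cons (nat_lit 718) (nat_lit 2) (nat_lit 383) (.cons (nat_lit 588) (nat_lit 237) (nat_lit 418) .nil))))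
(.leaf (.mk (nat_lit 2) (nat_lit 0x40000001f000000000000000000000000000) (nat_lit 0x3b00000020000000000000000000000000000) (.cons (nat_lit 656) (nat_lit 89) (nat_lit 479) (.cons (nat_lit 653) (nat_lit 494) (nat_lit 481) .nil))))))
(.node (nat_lit 2)
(.node (nat_lit 1)
(.leaf (.mk (nat_lit 2) (nat_lit 0xc0000000400000004000000040000000400000000000) (nat_lit 0x2000000020000000a00000000000000000000000000000000000) (.cons (nat_lit 655) (nat_lit 3) (nat_lit 352) (.cons (nat_lit 685) (nat_lit 91) (nat_lit 385) .nil))))
(.leaf (.mk (nat_lit 3) (nat_lit 0x40000000400000004000000060000000000000000000) (nat_lit 0x400000000000000000000000a000000080000000a00000000000) (.cons (nat_lit 557) (nat_lit 2) (nat_lit 351) (.cons (nat_lit 591) (nat_lit 3270) (nat_lit 512) .nil)))))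
(.node (nat_lit 1)
(.leaf (.mk (nat_lit 2) (nat_lit 0x400000004000000040000000e0000000000000000000) (nat_lit 0x400000000000000000000000a000000000000000800000000000) (.cons (nat_lit 559) (nat_lit 5) (nat_lit 352) (.cons (nat_lit 718) (nat_lit 1267) (nat_lit 354) .nil))))
(.leaf (.mk (nat_lit 7) (nat_lit 0xe0000000400000000000000000000000000000000000) (nat_lit 0x30000000300000003e0000011c000000bc0000007e00000070000000700000000000) (.cons (nat_lit 717) (nat_lit 3272) (nat_lit 512) (.cons (nat_lit 684) (nat_lit 3273) (nat_lit 512) (.cons (nat_lit 653) (nat_lit 3274) (nat_lit 512) (.cons (nat_lit 684) (nat_lit 3275) (nat_lit 512) (.cons (nat_lit 684) (nat_lit 3276) (nat_lit 512) (.cons (nat_lit 684) (nat_lit 3277) (nat_lit 512) .nil)))))))))))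
(.node (nat_lit 4)
(.node (nat_lit 2)
(.node (nat_lit 1)
(.leaf (.mk (nat_lit 3) (nat_lit 0x20000000e0000000400000000000000000000000000000000000) (nat_lit 0x20000000200000001c00000110000000200000004000000040000000000000000000) (.cons (nat_lit 622) (nat_lit 993) (nat_lit 352) (.cons (nat_lit 716) (nat_lit 244) (nat_lit 482) .nil))))
(.leaf (.mk (nat_lit 5) (nat_lit 0xf0000000400000000000000000000000000000000000) (nat_lit 0x100000001c00000108000000bc0000002000000020000000000000000000) (.cons (nat_lit 651) (nat_lit 1574) (nat_lit 353) (.cons (nat_lit 683) (nat_lit 589) (nat_lit 449) (.cons (nat_lit 652) (nat_lit 3091) (nat_lit 512) .nil))))))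
(.node (nat_lit 1)
(.leaf (.mk (nat_lit 6) (nat_lit 0xe0000000600000000000000000000000000000000000) (nat_lit 0x20000000300000003000000100000000980000007c00000070000000700000000000) (.cons (nat_lit 652) (nat_lit 592) (nat_lit 415) (.cons (nat_lit 717) (nat_lit 3287) (nat_lit 512) (.cons (nat_lit 652) (nat_lit 3288) (nat_lit 512) .nil)))))
(.leaf (.mk (nat_lit 6) (nat_lit 0xf0000000400000000000000000000000000000000000) (nat_lit 0x30000000300000003c00000008000000bc0000007000000000000000000000000000) (.cons (nat_lit 651) (nat_lit 1574) (nat_lit 353) (.cons (nat_lit 683) (nat_lit 589) (nat_lit 449) (.cons (nat_lit 652) (nat_lit 3283) (nat_lit 512) .nil)))))))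
(.node (nat_lit 2)
(.node (nat_lit 1)
(.leaf (.mk (nat_lit 5) (nat_lit 0xf0000000400000000000000000000000000000000000) (nat_lit 0x200000003c000001080000009c0000001000000010000000000000000000) (.cons (nat_lit 651) (nat_lit 1574) (nat_lit 353) (.cons (nat_lit 652) (nat_lit 249) (nat_lit 482) (.cons (nat_lit 683) (nat_lit 589) (nat_lit 449) .nil)))))
(.leaf (.mk (nat_lit 6) (nat_lit 0xf0000000400000000000000000000000000000000000) (nat_lit 0x200000002e0000010c000000bc0000003e00000010000000000000000000) (.cons (nat_lit 651) (nat_lit 1574) (nat_lit 353) (.cons (nat_lit 683) (nat_lit 875) (nat_lit 449) (.cons (nat_lit 652) (nat_lit 3278) (nat_lit 512) (.cons (nat_lit 651) (nat_lit 3279) (nat_lit 512) .nil)))))))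
(.node (nat_lit 1)
(.leaf (.mk (nat_lit 5) (nat_lit 0xf0000000500000000000000000000000000000000000) (nat_lit 0x200000002000000100000000a80000003e00000010000000000000000000) (.cons (nat_lit 651) (nat_lit 1) (nat_lit 445) (.cons (nat_lit 653) (nat_lit 3281) (nat_lit 512) .nil))))
(.leaf (.mk (nat_lit 4) (nat_lit 0xf0000000480000000000000000000000000000000000) (nat_lit 0xe0000000c000000340000000000000000000000000000000000) (.cons (nat_lit 652) (nat_lit 1) (nat_lit 445) (.cons (nat_lit 683) (nat_lit 3280) (nat_lit 512) .nil))))))))
(.node (nat_lit 8)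
(.node (nat_lit 4)
(.node (nat_lit 2)
(.node (nat_lit 1)
(.leaf (.mk (nat_lit 3) (nat_lit 0x78000000480000000000000000000000000000000000) (nat_lit 0xe00000004000000240000000000000000000000000000000000) (.cons (nat_lit 650) (nat_lit 1) (nat_lit 444) (.cons (nat_lit 682) (nat_lit 407) (nat_lit 481) .nil))))
(.leaf (.mk (nat_lit 4) (nat_lit 0xf0000000700000000000000000000000000000000000) (nat_lit 0x200000002000000100000000800000003e00000010000000000000000000) (.cons (nat_lit 688) (nat_lit 1) (nat_lit 446) (.cons (nat_lit 620) (nat_lit 3282) (nat_lit 512) .nil)))))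
(.node (nat_lit 1)
(.leaf (.mk (nat_lit 3) (nat_lit 0x30000000700000001000000000000000000000000000) (nat_lit 0x200000002000000000000000800000002e00000010000000000000000000) (.cons (nat_lit 717) (nat_lit 149) (nat_lit 480) (.cons (nat_lit 619) (nat_lit 197) (nat_lit 544) .nil))))
(.leaf (.mk (nat_lit 5) (nat_lit 0xf0000000500000000000000000000000000000000000) (nat_lit 0x30000000300000003800000000000000280000007000000000000000000000000000) (.cons (nat_lit 651) (nat_lit 1) (nat_lit 445) (.cons (nat_lit 716) (nat_lit 3284) (nat_lit 512) .nil))))))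
(.node (nat_lit 2)
(.node (nat_lit 1)
(.leaf (.mk (nat_lit 4) (nat_lit 0x10000000f0000000500000000000000000000000000000000000) (nat_lit 0x30000000300000002800000000000000200000007000000000000000000000000000) (.cons (nat_lit 715) (nat_lit 4) (nat_lit 477) (.cons (nat_lit 749) (nat_lit 3285) (nat_lit 512) .nil))))
(.leaf (.mk (nat_lit 3) (nat_lit 0x200000001000000030000000500000000000000000000000000000000000) (nat_lit 0x30000000100000002000000000000000200000007000000000000000000000000000) (.cons (nat_lit 717) (nat_lit 149) (nat_lit 512) (.cons (nat_lit 748) (nat_lit 2575) (nat_lit 511) (.cons (nat_lit 653) (nat_lit 3286) (nat_lit 512) .nil))))))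
(.node (nat_lit 1)
(.leaf (.mk (nat_lit 2) (nat_lit 0x200000001000000030000000700000000000000000000000000000000000) (nat_lit 0x10000000100000002000000000000000000000007000000000000000000000000000) (.cons (nat_lit 717) (nat_lit 193) (nat_lit 544) (.cons (nat_lit 748) (nat_lit 123) (nat_lit 514) .nil))))
(.leaf (.mk (nat_lit 5) (nat_lit 0x20000000e0000000600000000000000000000000000000000000) (nat_lit 0x300000001000000100000000000000007000000070000000300000000000) (.cons (nat_lit 622) (nat_lit 360) (nat_lit 419) (.cons (nat_lit 716) (nat_lit 3291) (nat_lit 512) .nil)))))))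
(.node (nat_lit 4)
(.node (nat_lit 2)
(.node (nat_lit 1)
(.leaf (.mk (nat_lit 5) (nat_lit 0xe0000000700000000000000000000000000000000000) (nat_lit 0x20000000200000002000000000000000880000007c00000070000000700000000000) (.cons (nat_lit 651) (nat_lit 0) (nat_lit 445) (.cons (nat_lit 717) (nat_lit 3289) (nat_lit 512) .nil))))
(.leaf (.mk (nat_lit 4) (nat_lit 0x2000000060000000700000000000000000000000000000000000) (nat_lit 0x20000000200000000000000000000000800000007c00000070000000700000000000) (.cons (nat_lit 622) (nat_lit 360) (nat_lit 419) (.cons (nat_lit 749) (nat_lit 1209) (nat_lit 417) (.cons (nat_lit 621) (nat_lit 3290) (nat_lit 512) .nil))))))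
(.node (nat_lit 1)
(.leaf (.mk (nat_lit 3) (nat_lit 0x2000000060000000700000002000000000000000000000000000) (nat_lit 0x800000005c00000070000000700000000000) (.cons (nat_lit 589) (nat_lit 3089) (nat_lit 480) (.cons (nat_lit 620) (nat_lit 3242) (nat_lit 543) .nil))))
(.leaf (.mk (nat_lit 4) (nat_lit 0x30000000e0000000600000000000000000000000000000000000) (nat_lit 0x100000000000000100000000000000003000000030000000300000000000) (.cons (nat_lit 688) (nat_lit 4) (nat_lit 478) (.cons (nat_lit 621) (nat_lit 3292) (nat_lit 512) .nil))))))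
(.node (nat_lit 2)
(.node (nat_lit 1)
(.leaf (.mk (nat_lit 3) (nat_lit 0x3000000060000000600000002000000000000000000000000000) (nat_lit 0x100000000000000000000000000000001000000030000000300000000000) (.cons (nat_lit 748) (nat_lit 6) (nat_lit 414) (.cons (nat_lit 589) (nat_lit 443) (nat_lit 482) .nil))))
(.leaf (.mk (nat_lit 7) (nat_lit 0x3c0000000000000000000000000000000000000000000) (nat_lit 0x2000000020000000e000000040000000fe00000070000000700000007000000010000) (.cons (nat_lit 654) (nat_lit 1805) (nat_lit 512) (.cons (nat_lit 654) (nat_lit 1773) (nat_lit 513) (.cons (nat_lit 658) (nat_lit 87) (nat_lit 545) (.cons (nat_lit 721) (nat_lit 3306) (nat_lit 512) .nil)))))))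
(.node (nat_lit 1)
(.leaf (.mk (nat_lit 4) (nat_lit 0x800000008000000000000001c0000000400000000000000000000000000000000000) (nat_lit 0x800000060000000ea00000000000000000000000000000000000) (.cons (nat_lit 719) (nat_lit 2) (nat_lit 448) (.cons (nat_lit 689) (nat_lit 1805) (nat_lit 512) .nil))))
(.leaf (.mk (nat_lit 6) (nat_lit 0x800000008000000000000001c0000001000000000000000000000000000000000000) (nat_lit 0x2000000020000000e8000001e0000003e800000010000000000000000000000000000) (.cons (nat_lit 719) (nat_lit 5) (nat_lit 449) (.cons (nat_lit 689) (nat_lit 3296) (nat_lit 512) .nil)))))))))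
(.node (nat_lit 16)
(.node (nat_lit 8)
(.node (nat_lit 4)
(.node (nat_lit 2)
(.node (nat_lit 1)
(.leaf (.mk (nat_lit 5) (nat_lit 0x3c0000001000000000000000000000000000000000000) (nat_lit 0x2000000020000000e0000001c0000003e800000010000000000000000000000000000) (.cons (nat_lit 690) (nat_lit 3297) (nat_lit 512) (.cons (nat_lit 721) (nat_lit 3298) (nat_lit 512) (.cons (nat_lit 690) (nat_lit 3299) (nat_lit 512) (.cons (nat_lit 722) (nat_lit 3300) (nat_lit 512) .nil))))))
(.leaf (.mk (nat_lit 4) (nat_lit 0x7c0000001000000000000000000000000000000000000) (nat_lit 0x180000003e800000000000000000000000000000000000) (.cons (nat_lit 658) (nat_lit 202) (nat_lit 580) (.cons (nat_lit 691) (nat_lit 1805) (nat_lit 514) (.cons (nat_lit 691) (nat_lit 3302) (nat_lit 512) (.cons (nat_lit 691) (nat_lit 3305) (nat_lit 512) .nil)))))))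
(.node (nat_lit 1)
(.leaf (.mk (nat_lit 3) (nat_lit 0x200000003c0000001000000000000000000000000000000000000) (nat_lit 0x200000002000000040000000000000006000000010000000000000000000000000000) (.cons (nat_lit 722) (nat_lit 0) (nat_lit 480) (.cons (nat_lit 753) (nat_lit 3303) (nat_lit 512) .nil))))
(.leaf (.mk (nat_lit 4) (nat_lit 0x7c0000001000000000000000000000000000000000000) (nat_lit 0xe000000180000003a800000000000000000000000000000000000) (.cons (nat_lit 722) (nat_lit 89) (nat_lit 545) (.cons (nat_lit 691) (nat_lit 1805) (nat_lit 514) .nil))))))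
(.node (nat_lit 2)
(.node (nat_lit 1)
(.leaf (.mk (nat_lit 4) (nat_lit 0x400000003c0000001000000000000000000000000000000000000) (nat_lit 0xa0000000c0000001c800000000000000000000000000000000000) (.cons (nat_lit 721) (nat_lit 0) (nat_lit 480) (.cons (nat_lit 690) (nat_lit 3301) (nat_lit 512) .nil))))
(.leaf (.mk (nat_lit 3) (nat_lit 0x40000000780000001000000000000000000000000000000000000) (nat_lit 0x8000000080000001c800000000000000000000000000000000000) (.cons (nat_lit 723) (nat_lit 0) (nat_lit 481) (.cons (nat_lit 691) (nat_lit 3302) (nat_lit 512) .nil)))))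
(.node (nat_lit 1)
(.leaf (.mk (nat_lit 2) (nat_lit 0xf80000001000000000000000000000000000000000000) (nat_lit 0x1c800000000000000000000000000000000000) (.cons (nat_lit 655) (nat_lit 1) (nat_lit 449) (.cons (nat_lit 659) (nat_lit 202) (nat_lit 581) .nil))))
(.leaf (.mk (nat_lit 2) (nat_lit 0x20000000200000003c0000001000000000000000000000000000000000000) (nat_lit 0x200000000000000000000000000000006000000010000000000000000000000000000) (.cons (nat_lit 785) (nat_lit 2) (nat_lit 450) (.cons (nat_lit 657) (nat_lit 3304) (nat_lit 512) .nil)))))))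
(.node (nat_lit 4)
(.node (nat_lit 2)
(.node (nat_lit 1)
(.leaf (.mk (nat_lit 1) (nat_lit 0x20000000200000003c0000003000000000000000000000000000000000000) (nat_lit 0x4000000010000000000000000000000000000) (.cons (nat_lit 624) (nat_lit 2) (nat_lit 418) (.cons (nat_lit 658) (nat_lit 7) (nat_lit 448) .nil))))
(.leaf (.mk (nat_lit 2) (nat_lit 0xfc0000001000000000000000000000000000000000000) (nat_lit 0x1000000006800000000000000000000000000000000000) (.cons (nat_lit 655) (nat_lit 1) (nat_lit 449) (.cons (nat_lit 657) (nat_lit 2658) (nat_lit 514) .nil)))))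
(.node (nat_lit 1)
(.leaf (.mk (nat_lit 6) (nat_lit 0x200000003c0000000000000000000000000000000000000000000) (nat_lit 0x200000002000000040000000000000007e00000070000000700000007000000010000) (.cons (nat_lit 722) (nat_lit 0) (nat_lit 480) (.cons (nat_lit 657) (nat_lit 3307) (nat_lit 512) .nil))))
(.leaf (.mk (nat_lit 5) (nat_lit 0x200000003c0000002000000000000000000000000000000000000) (nat_lit 0x200000002000000000000000000000005e00000070000000700000007000000010000) (.cons (nat_lit 658) (nat_lit 7) (nat_lit 448) (.cons (nat_lit 625) (nat_lit 3308) (nat_lit 512) .nil))))))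
(.node (nat_lit 2)
(.node (nat_lit 1)
(.leaf (.mk (nat_lit 4) (nat_lit 0x200000003c0000002000000020000000000000000000000000000) (nat_lit 0x200000002000000000000000000000001e00000050000000700000007000000010000) (.cons (nat_lit 592) (nat_lit 72) (nat_lit 484) (.cons (nat_lit 654) (nat_lit 3309) (nat_lit 512) (.cons (nat_lit 593) (nat_lit 317) (nat_lit 484) (.cons (nat_lit 593) (nat_lit 3310) (nat_lit 512) .nil))))))
(.leaf (.mk (nat_lit 3) (nat_lit 0x200000003c0000002400000020000000000000000000000000000) (nat_lit 0x200000002000000000000000000000001a00000050000000400000000000000000000) (.cons (nat_lit 653) (nat_lit 1) (nat_lit 447) (.cons (nat_lit 656) (nat_lit 3311) (nat_lit 512) .nil)))))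
(.node (nat_lit 1)
(.leaf (.mk (nat_lit 3) (nat_lit 0x20000000300000002000000020000000200000000000000000000) (nat_lit 0x1000000040000000500000007000000010000) (.cons (nat_lit 594) (nat_lit 94) (nat_lit 484) (.cons (nat_lit 560) (nat_lit 325) (nat_lit 484) .nil))))
(.leaf (.mk (nat_lit 2) (nat_lit 0x20000000300000003400000020000000000000000000000000000) (nat_lit 0x200000002000000000000000000000000800000050000000400000000000000000000) (.cons (nat_lit 626) (nat_lit 2057) (nat_lit 577) (.cons (nat_lit 753) (nat_lit 329) (nat_lit 484) .nil))))))))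
(.node (nat_lit 8)
(.node (nat_lit 4)
(.node (nat_lit 2)
(.node (nat_lit 1)
(.leaf (.mk (nat_lit 4) (nat_lit 0x1e0000000000000000000000000000000000000000000) (nat_lit 0x7800000210000007780000000000000000000000000000000000) (.cons (nat_lit 652) (nat_lit 180) (nat_lit 483) (.cons (nat_lit 657) (nat_lit 1807) (nat_lit 512) (.cons (nat_lit 653) (nat_lit 1805) (nat_lit 511) .nil)))))
(.leaf (.mk (nat_lit 4) (nat_lit 0x800000008000000000000001c0000001000000000000000000000000000000000000) (nat_lit 0xb800000030000002380000000000000000000000000000000000) (.cons (nat_lit 719) (nat_lit 5) (nat_lit 449) (.cons (nat_lit 685) (nat_lit 170) (nat_lit 419) .nil)))))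
(.node (nat_lit 1)
(.leaf (.mk (nat_lit 3) (nat_lit 0x800000008000000000000001c0000000400000000000000000000000000000000000) (nat_lit 0x8000000220000000380000000000000000000000000000000000) (.cons (nat_lit 719) (nat_lit 2) (nat_lit 448) (.cons (nat_lit 653) (nat_lit 237) (nat_lit 483) .nil))))
(.leaf (.mk (nat_lit 6) (nat_lit 0x800000008000000000000001c0000000000000000000000000000000000000000000) (nat_lit 0xf800000062000000f700000000000000000000000000000000000) (.cons (nat_lit 719) (nat_lit 193) (nat_lit 578) (.cons (nat_lit 689) (nat_lit 3483) (nat_lit 512) (.cons (nat_lit 654) (nat_lit 2367) (nat_lit 513) (.cons (nat_lit 656) (nat_lit 2368) (nat_lit 513) .nil))))))))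
(.node (nat_lit 2)
(.node (nat_lit 1)
(.leaf (.mk (nat_lit 8) (nat_lit 0x800000008000000000000001c0000000000000000000000000000000000000000000) (nat_lit 0x2000000020000000be0000003c000003fe0000007000000070000000700000004000) (.cons (nat_lit 719) (nat_lit 193) (nat_lit 578) (.cons (nat_lit 685) (nat_lit 3468) (nat_lit 512) (.cons (nat_lit 656) (nat_lit 3469) (nat_lit 512) (.cons (nat_lit 654) (nat_lit 3470) (nat_lit 512) .nil))))))
(.leaf (.mk (nat_lit 8) (nat_lit 0x80000000800000000000000180000001000000000000000000000000000000000000) (nat_lit 0xa0000000e0000000e0000003e8000001e6000003e8000003f0000000700000007000000000000) (.cons (nat_lit 719) (nat_lit 5) (nat_lit 449) (.cons (nat_lit 689) (nat_lit 3422) (nat_lit 512) .nil)))))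
(.node (nat_lit 1)
(.leaf (.mk (nat_lit 7) (nat_lit 0x80000000800000000000000180000001000000000000000000000000000000000000) (nat_lit 0x2000000020000000f8000000e0000001ef000000fe000001ff0000003800000038000) (.cons (nat_lit 719) (nat_lit 5) (nat_lit 449) (.cons (nat_lit 624) (nat_lit 3404) (nat_lit 512) .nil))))
(.leaf (.mk (nat_lit 8) (nat_lit 0x80000000800000000000000380000000000000000000000000000000000000000000) (nat_lit 0x20000000f0000000e0000007fb800003c7800007efc0000060000000200000000000000000000) (.cons (nat_lit 690) (nat_lit 3381) (nat_lit 512) (.cons (nat_lit 686) (nat_lit 3382) (nat_lit 512) (.cons (nat_lit 690) (nat_lit 3383) (nat_lit 512) (.cons (nat_lit 690) (nat_lit 3384) (nat_lit 512) (.cons (nat_lit 654) (nat_lit 3385) (nat_lit 512) .nil))))))))))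
(.node (nat_lit 4)
(.node (nat_lit 2)
(.node (nat_lit 1)
(.leaf (.mk (nat_lit 8) (nat_lit 0x80000000000000000000000380000000000000000000000000000000000000000000) (nat_lit 0x70000000f0000000f4000000e0000003f0000003c7000007ff800000f0000000f0000000e000000000000) (.cons (nat_lit 686) (nat_lit 3341) (nat_lit 512) (.cons (nat_lit 722) (nat_lit 3342) (nat_lit 512) (.cons (nat_lit 690) (nat_lit 3324) (nat_lit 512) (.cons (nat_lit 690) (nat_lit 3343) (nat_lit 512) (.cons (nat_lit 721) (nat_lit 3344) (nat_lit 512) .nil)))))))
(.leaf (.mk (nat_lit 8) (nat_lit 0x80000000800000000000000380000000000000000000000000000000000000000000) (nat_lit 0x20000000e0000000f0000000e0000003fb800001c7000001df800000e0000000e0000000a000000000000) (.cons (nat_lit 719) (nat_lit 3322) (nat_lit 512) (.cons (nat_lit 719) (nat_lit 3323) (nat_lit 512) (.cons (nat_lit 690) (nat_lit 3324) (nat_lit 512) (.cons (nat_lit 686) (nat_lit 3325) (nat_lit 512) (.cons (nat_lit 690) (nat_lit 3326) (nat_lit 512) .nil))))))))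
(.node (nat_lit 1)
(.leaf (.mk (nat_lit 5) (nat_lit 0x80000000800000008000000380000000000000000000000000000000000000000000) (nat_lit 0x10000000c4000001dc00000000000000000000000000000000000) (.cons (nat_lit 656) (nat_lit 5) (nat_lit 449) (.cons (nat_lit 654) (nat_lit 3339) (nat_lit 512) .nil))))
(.leaf (.mk (nat_lit 6) (nat_lit 0x80000000800000008000000380000000000000000000000000000000000000000000) (nat_lit 0x73800000070000001780000000000000000000000000000000000) (.cons (nat_lit 656) (nat_lit 5) (nat_lit 449) (.cons (nat_lit 686) (nat_lit 3338) (nat_lit 512) .nil))))))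
(.node (nat_lit 2)
(.node (nat_lit 1)
(.leaf (.mk (nat_lit 7) (nat_lit 0x80000000000000000000000780000000000000000000000000000000000000000000) (nat_lit 0x20000000e0000000f0000000e0000001e000000080000001dc000000e0000000e0000000a000000000000) (.cons (nat_lit 655) (nat_lit 1805) (nat_lit 513) (.cons (nat_lit 658) (nat_lit 3328) (nat_lit 512) (.cons (nat_lit 655) (nat_lit 1773) (nat_lit 514) .nil)))))
(.leaf (.mk (nat_lit 5) (nat_lit 0x800000008000000000000003c0000000000000000000000000000000000000000000) (nat_lit 0xfb800000430000000f80000000000000000000000000000000000) (.cons (nat_lit 654) (nat_lit 265) (nat_lit 580) (.cons (nat_lit 721) (nat_lit 3216) (nat_lit 515) (.cons (nat_lit 654) (nat_lit 3337) (nat_lit 512) .nil))))))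
(.node (nat_lit 1)
(.leaf (.mk (nat_lit 7) (nat_lit 0x80000000800000000000000780000000000000000000000000000000000000000000) (nat_lit 0x20000000e0000000e0000000e0000001f800000080000001d8000000e0000000e0000000a000000000000) (.cons (nat_lit 656) (nat_lit 3327) (nat_lit 512) (.cons (nat_lit 658) (nat_lit 3328) (nat_lit 512) (.cons (nat_lit 656) (nat_lit 3329) (nat_lit 512) .nil)))))
(.leaf (.mk (nat_lit 3) (nat_lit 0x80000000800000000000000780000001000000000000000000000000000000000000) (nat_lit 0x800000080000001c800000000000000000000000000000000000) (.cons (nat_lit 719) (nat_lit 5) (nat_lit 449) (.cons (nat_lit 691) (nat_lit 3302) (nat_lit 512) .nil))))))))))))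

end Vale.Agent.Snaky.LD
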