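import Vale.Agent.Snaky.Types

namespace Vale.Agent.Snaky.LD

open Vale.Agent.Snaky

def d8 : Tr :=
(.node (nat_lit 128)
(.node (nat_lit 64)
(.node (nat_lit 32)
(.node (nat_lit 16)
(.node (nat_lit 8)
(.node (nat_lit 4)
(.node (nat_lit 2)
(.node (nat_lit 1)
(.leaf (.mk (nat_lit 5) (nat_lit 0x100000001e0000001000000010000000020000000000000000000) (nat_lit 0x400000000000000070000000e0000003d0000003f00000024000) (.cons (nat_lit 591) (nat_lit 2049) (nat_lit 512) (.cons (nat_lit 653) (nat_lit 2050) (nat_lit 512) (.cons (nat_lit 653) (nat_lit 2051) (nat_lit 512) .nil)))))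
(.leaf (.mk (nat_lit 4) (nat_lit 0x100000001000000010000000100000000a0000000000000000000) (nat_lit 0x8000000340000003800000020000) (.cons (nat_lit 623) (nat_lit 2) (nat_lit 385) (.cons (nat_lit 592) (nat_lit 2055) (nat_lit 512) .nil)))))
(.node (nat_lit 1)
(.leaf (.mk (nat_lit 4) (nat_lit 0x1e0000000200000000000000020000000000000000000) (nat_lit 0x4000000000000000500000002000000040000000600000004000) (.cons (nat_lit 652) (nat_lit 1) (nat_lit 446) (.cons (nat_lit 621) (nat_lit 585) (nat_lit 448) .nil))))
(.leaf (.mk (nat_lit 4) (nat_lit 0x100000001e0000001200000010000000020000000000000000000) (nat_lit 0x400000000000000010000000e000000090000000100000000000) (.cons (nat_lit 652) (nat_lit 1) (nat_lit 446) (.cons (nat_lit 621) (nat_lit 2052) (nat_lit 512) .nil))))))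
(.node (nat_lit 2)
(.node (nat_lit 1)
(.leaf (.mk (nat_lit 3) (nat_lit 0x10000000160000001200000012000000020000000000000000000) (nat_lit 0x400000000000000000000000c000000090000000100000000000) (.cons (nat_lit 718) (nat_lit 3) (nat_lit 383) (.cons (nat_lit 588) (nat_lit 2053) (nat_lit 512) .nil))))
(.leaf (.mk (nat_lit 2) (nat_lit 0x10000000120000001200000012000000030000000000000000000) (nat_lit 0xc000000080000000100000000000) (.cons (nat_lit 556) (nat_lit 2) (nat_lit 350) (.cons (nat_lit 623) (nat_lit 2054) (nat_lit 512) .nil)))))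
(.node (nat_lit 1)
(.leaf (.mk (nat_lit 1) (nat_lit 0x1000000010000000100000001a000000030000000000000000000) (nat_lit 0x4000000080000000000000000000) (.cons (nat_lit 622) (nat_lit 1) (nat_lit 382) (.cons (nat_lit 591) (nat_lit 2) (nat_lit 385) .nil))))
(.leaf (.mk (nat_lit 3) (nat_lit 0x1000000010000000100000001a0000000000000000000) (nat_lit 0x240000003800000020000) (.cons (nat_lit 559) (nat_lit 2) (nat_lit 353) (.cons (nat_lit 561) (nat_lit 2056) (nat_lit 512) .nil)))))))
(.node (nat_lit 4)
(.node (nat_lit 2)
(.node (nat_lit 1)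
(.leaf (.mk (nat_lit 2) (nat_lit 0x1000000010000000100000001a0000002000000000000) (nat_lit 0x240000001000000020000) (.cons (nat_lit 593) (nat_lit 5) (nat_lit 354) (.cons (nat_lit 560) (nat_lit 2057) (nat_lit 512) .nil))))
(.leaf (.mk (nat_lit 1) (nat_lit 0x10000000100000001a0000003000000000000) (nat_lit 0x40000000000000020000) (.cons (nat_lit 529) (nat_lit 5) (nat_lit 322) (.cons (nat_lit 590) (nat_lit 7) (nat_lit 351) .nil)))))
(.node (nat_lit 1)
(.leaf (.mk (nat_lit 6) (nat_lit 0x1e0000001000000010000000180000000000000000000) (nat_lit 0x6000000010000000780000023800000070000000f80000001000) (.cons (nat_lit 559) (nat_lit 2) (nat_lit 353) (.cons (nat_lit 589) (nat_lit 2059) (nat_lit 512) .nil))))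
(.leaf (.mk (nat_lit 5) (nat_lit 0x1e00000000000000100000001a0000000000000000000) (nat_lit 0x6000000010000000780000023800000050000000780000001000) (.cons (nat_lit 590) (nat_lit 2060) (nat_lit 512) (.cons (nat_lit 653) (nat_lit 2061) (nat_lit 512) (.cons (nat_lit 590) (nat_lit 179) (nat_lit 387) (.cons (nat_lit 652) (nat_lit 2062) (nat_lit 512) .nil))))))))
(.node (nat_lit 2)
(.node (nat_lit 1)
(.leaf (.mk (nat_lit 3) (nat_lit 0x600000000000000100000001e0000000000000000000) (nat_lit 0x4000000000000000200000023000000000000000400000000000) (.cons (nat_lit 625) (nat_lit 0) (nat_lit 383) (.cons (nat_lit 621) (nat_lit 2068) (nat_lit 512) .nil))))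
(.leaf (.mk (nat_lit 4) (nat_lit 0x1e0000000200000000000000020000000000000000000) (nat_lit 0x4000000000000000500000002000000010000000300000001000) (.cons (nat_lit 652) (nat_lit 1) (nat_lit 446) (.cons (nat_lit 621) (nat_lit 1679) (nat_lit 450) .nil)))))
(.node (nat_lit 1)
(.leaf (.mk (nat_lit 4) (nat_lit 0x1e00000001000000100000001a0000000000000000000) (nat_lit 0x2000000010000000280000021800000050000000380000000000) (.cons (nat_lit 653) (nat_lit 1) (nat_lit 446) (.cons (nat_lit 588) (nat_lit 2063) (nat_lit 512) .nil))))
(.leaf (.mk (nat_lit 3) (nat_lit 0xe00000001000000100000001b0000000000000000000) (nat_lit 0x2000000010000000080000021800000040000000380000000000) (.cons (nat_lit 590) (nat_lit 2064) (nat_lit 512) (.cons (nat_lit 684) (nat_lit 2065) (nat_lit 512) (.cons (nat_lit 620) (nat_lit 2066) (nat_lit 512) .nil)))))))))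
(.node (nat_lit 8)
(.node (nat_lit 4)
(.node (nat_lit 2)
(.node (nat_lit 1)
(.leaf (.mk (nat_lit 2) (nat_lit 0x100000001f0000000000000000000) (nat_lit 0x20000000000000000380000000000) (.cons (nat_lit 625) (nat_lit 0) (nat_lit 383) (.cons (nat_lit 556) (nat_lit 172) (nat_lit 323) .nil))))
(.leaf (.mk (nat_lit 2) (nat_lit 0xf0000000100000000000000030000000000000000000) (nat_lit 0x2000000000000000080000001000000000000000200000000000) (.cons (nat_lit 651) (nat_lit 1) (nat_lit 445) (.cons (nat_lit 620) (nat_lit 132) (nat_lit 418) .nil)))))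
(.node (nat_lit 1)
(.leaf (.mk (nat_lit 2) (nat_lit 0xe00000001000000110000001b0000000000000000000) (nat_lit 0x2000000010000000080000020800000040000000000000000000) (.cons (nat_lit 590) (nat_lit 2067) (nat_lit 512) (.cons (nat_lit 684) (nat_lit 1604) (nat_lit 354) .nil))))
(.leaf (.mk (nat_lit 1) (nat_lit 0x110000001f0000000000000000000) (nat_lit 0x20800000000000000000000000000) (.cons (nat_lit 619) (nat_lit 4) (nat_lit 381) (.cons (nat_lit 625) (nat_lit 0) (nat_lit 383) .nil))))))
(.node (nat_lit 2)
(.node (nat_lit 1)
(.leaf (.mk (nat_lit 2) (nat_lit 0x600000000000000020000001e0000000000000000000) (nat_lit 0x4000000000000000200000001000000000000000400000000000) (.cons (nat_lit 620) (nat_lit 4) (nat_lit 382) (.cons (nat_lit 653) (nat_lit 132) (nat_lit 419) .nil))))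
(.leaf (.mk (nat_lit 1) (nat_lit 0x100000001e0000001000000010000000080000000000000000000) (nat_lit 0x20000000000000000000000008000000000000000000000000000) (.cons (nat_lit 623) (nat_lit 2) (nat_lit 385) (.cons (nat_lit 721) (nat_lit 0) (nat_lit 479) .nil)))))
(.node (nat_lit 1)
(.leaf (.mk (nat_lit 6) (nat_lit 0x1e0000001000000010000000180000000000000000000) (nat_lit 0x6000000010000000780000023800000070000000b80000001000) (.cons (nat_lit 559) (nat_lit 2) (nat_lit 353) (.cons (nat_lit 589) (nat_lit 2071) (nat_lit 512) .nil))))
(.leaf (.mk (nat_lit 5) (nat_lit 0x1e00000000000000100000001a0000000000000000000) (nat_lit 0x6000000010000000780000023800000050000000380000001000) (.cons (nat_lit 590) (nat_lit 2072) (nat_lit 512) (.cons (nat_lit 590) (nat_lit 179) (nat_lit 387) (.cons (nat_lit 653) (nat_lit 2061) (nat_lit 512) (.cons (nat_lit 652) (nat_lit 2062) (nat_lit 512) .nil)))))))))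
(.node (nat_lit 4)
(.node (nat_lit 2)
(.node (nat_lit 1)
(.leaf (.mk (nat_lit 3) (nat_lit 0x1e00000000000000100000001e0000000000000000000) (nat_lit 0x4000000000000000300000023000000000000000000000000000) (.cons (nat_lit 625) (nat_lit 0) (nat_lit 383) (.cons (nat_lit 621) (nat_lit 2073) (nat_lit 512) .nil))))
(.leaf (.mk (nat_lit 2) (nat_lit 0x1e00000000000000020000001e0000000000000000000) (nat_lit 0x4000000000000000300000001000000000000000000000000000) (.cons (nat_lit 620) (nat_lit 4) (nat_lit 382) (.cons (nat_lit 653) (nat_lit 1604) (nat_lit 355) .nil)))))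
(.node (nat_lit 1)
(.leaf (.mk (nat_lit 5) (nat_lit 0x100000001e0000001200000010000000000000000000000000000) (nat_lit 0x600000000000000050000002e000000370000002700000005000) (.cons (nat_lit 652) (nat_lit 1) (nat_lit 446) (.cons (nat_lit 621) (nat_lit 2075) (nat_lit 512) .nil))))
(.leaf (.mk (nat_lit 4) (nat_lit 0x10000000160000001200000012000000000000000000000000000) (nat_lit 0x600000000000000040000002c000000370000002700000005000) (.cons (nat_lit 589) (nat_lit 1679) (nat_lit 450) (.cons (nat_lit 622) (nat_lit 2076) (nat_lit 512) (.cons (nat_lit 589) (nat_lit 803) (nat_lit 386) .nil)))))))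
(.node (nat_lit 2)
(.node (nat_lit 1)
(.leaf (.mk (nat_lit 3) (nat_lit 0x10000000120000001200000016000000000000000000000000000) (nat_lit 0x2000000000000000400000028000000340000002400000004000) (.cons (nat_lit 590) (nat_lit 362) (nat_lit 387) (.cons (nat_lit 593) (nat_lit 2077) (nat_lit 512) .nil))))
(.leaf (.mk (nat_lit 2) (nat_lit 0x10000000100000001000000016000000200000000000000000000) (nat_lit 0x28000000100000002000000000000) (.cons (nat_lit 625) (nat_lit 5) (nat_lit 386) (.cons (nat_lit 592) (nat_lit 2078) (nat_lit 512) .nil)))))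
(.node (nat_lit 1)
(.leaf (.mk (nat_lit 1) (nat_lit 0x100000001000000016000000300000000000000000000) (nat_lit 0x8000000000000002000000000000) (.cons (nat_lit 561) (nat_lit 5) (nat_lit 354) (.cons (nat_lit 623) (nat_lit 7) (nat_lit 383) .nil))))
(.leaf (.mk (nat_lit 6) (nat_lit 0x160000001200000012000000000000000000000000000) (nat_lit 0x600000000000000040000002d0000003f0000003f0000002d000) (.cons (nat_lit 589) (nat_lit 1679) (nat_lit 450) (.cons (nat_lit 622) (nat_lit 2080) (nat_lit 512) (.cons (nat_lit 622) (nat_lit 2081) (nat_lit 512) (.cons (nat_lit 589) (nat_lit 585) (nat_lit 448) (.cons (nat_lit 589) (nat_lit 521) (nat_lit 448) .nil))))))))))))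
(.node (nat_lit 16)
(.node (nat_lit 8)
(.node (nat_lit 4)
(.node (nat_lit 2)
(.node (nat_lit 1)
(.leaf (.mk (nat_lit 5) (nat_lit 0x160000001200000016000000000000000000000000000) (nat_lit 0x60000000000000004000000290000003d0000003c0000002c000) (.cons (nat_lit 590) (nat_lit 362) (nat_lit 387) (.cons (nat_lit 592) (nat_lit 2089) (nat_lit 512) (.cons (nat_lit 717) (nat_lit 2090) (nat_lit 512) .nil)))))
(.leaf (.mk (nat_lit 5) (nat_lit 0x160000001200000016000000000000000000000000000) (nat_lit 0x20000000000000004000000090000003f0000003f0000002d000) (.cons (nat_lit 588) (nat_lit 2082) (nat_lit 512) (.cons (nat_lit 589) (nat_lit 2083) (nat_lit 512) (.cons (nat_lit 590) (nat_lit 362) (nat_lit 387) .nil))))))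
(.node (nat_lit 1)
(.leaf (.mk (nat_lit 4) (nat_lit 0x120000001200000016000000010000000000000000000) (nat_lit 0x20000000000000000000000090000003a0000003900000029000) (.cons (nat_lit 589) (nat_lit 882) (nat_lit 419) (.cons (nat_lit 592) (nat_lit 2084) (nat_lit 512) (.cons (nat_lit 556) (nat_lit 2085) (nat_lit 512) .nil)))))
(.leaf (.mk (nat_lit 3) (nat_lit 0x60000000200000016000000020000000000000000000) (nat_lit 0x400000008000000050000000700000004000) (.cons (nat_lit 588) (nat_lit 882) (nat_lit 419) (.cons (nat_lit 557) (nat_lit 333) (nat_lit 448) .nil))))))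
(.node (nat_lit 2)
(.node (nat_lit 1)
(.leaf (.mk (nat_lit 3) (nat_lit 0x120000001200000016000000110000000000000000000) (nat_lit 0x2000000000000000000000009000000280000003800000028000) (.cons (nat_lit 593) (nat_lit 2078) (nat_lit 512) (.cons (nat_lit 591) (nat_lit 2087) (nat_lit 512) (.cons (nat_lit 560) (nat_lit 121) (nat_lit 454) .nil)))))
(.leaf (.mk (nat_lit 2) (nat_lit 0x20000000200000002000000010000000100000000000) (nat_lit 0x2000000000000000000000001000000020000000000000001000) (.cons (nat_lit 589) (nat_lit 2) (nat_lit 350) (.cons (nat_lit 620) (nat_lit 2086) (nat_lit 512) .nil)))))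
(.node (nat_lit 1)
(.leaf (.mk (nat_lit 1) (nat_lit 0x20000000200000003000000010000000100000000000) (nat_lit 0x2000000000000000000000000000000000000000000000001000) (.cons (nat_lit 524) (nat_lit 3) (nat_lit 318) (.cons (nat_lit 717) (nat_lit 2) (nat_lit 382) .nil))))
(.leaf (.mk (nat_lit 2) (nat_lit 0x120000001200000016000000190000000000000000000) (nat_lit 0x2000000000000000000000009000000000000000800000000000) (.cons (nat_lit 559) (nat_lit 2) (nat_lit 353) (.cons (nat_lit 620) (nat_lit 2088) (nat_lit 512) .nil)))))))
(.node (nat_lit 4)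
(.node (nat_lit 2)
(.node (nat_lit 1)
(.leaf (.mk (nat_lit 1) (nat_lit 0x20000000200000007000000190000000000000000000) (nat_lit 0x2000000000000000000000008000000000000000000000000000) (.cons (nat_lit 717) (nat_lit 2) (nat_lit 382) (.cons (nat_lit 623) (nat_lit 7) (nat_lit 382) .nil))))
(.leaf (.mk (nat_lit 4) (nat_lit 0x140000001200000016000000100000000000000000000) (nat_lit 0x4000000000000000400000029000000280000003800000028000) (.cons (nat_lit 593) (nat_lit 2078) (nat_lit 512) (.cons (nat_lit 591) (nat_lit 2094) (nat_lit 512) (.cons (nat_lit 559) (nat_lit 72) (nat_lit 451) .nil))))))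
(.node (nat_lit 1)
(.leaf (.mk (nat_lit 4) (nat_lit 0x2000000120000001200000016000000000000000000000000000) (nat_lit 0x90000003d0000003800000028000) (.cons (nat_lit 590) (nat_lit 5) (nat_lit 383) (.cons (nat_lit 592) (nat_lit 2091) (nat_lit 512) .nil))))
(.leaf (.mk (nat_lit 3) (nat_lit 0x2000000120000001200000016000000100000000000000000000) (nat_lit 0x9000000290000003800000028000) (.cons (nat_lit 593) (nat_lit 2078) (nat_lit 512) (.cons (nat_lit 591) (nat_lit 2092) (nat_lit 512) (.cons (nat_lit 560) (nat_lit 121) (nat_lit 454) .nil)))))))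
(.node (nat_lit 2)
(.node (nat_lit 1)
(.leaf (.mk (nat_lit 2) (nat_lit 0x2000000120000001200000016000000180000000000000000000) (nat_lit 0x9000000010000000800000000000) (.cons (nat_lit 559) (nat_lit 2) (nat_lit 353) (.cons (nat_lit 620) (nat_lit 2093) (nat_lit 512) .nil))))
(.leaf (.mk (nat_lit 1) (nat_lit 0x2000000020000000200000007000000180000000000000000000) (nat_lit 0x8000000010000000000000000000) (.cons (nat_lit 588) (nat_lit 2) (nat_lit 382) (.cons (nat_lit 623) (nat_lit 7) (nat_lit 382) .nil)))))
(.node (nat_lit 1)
(.leaf (.mk (nat_lit 3) (nat_lit 0x140000001200000016000000180000000000000000000) (nat_lit 0x4000000000000000400000029000000000000000800000000000) (.cons (nat_lit 559) (nat_lit 2) (nat_lit 353) (.cons (nat_lit 623) (nat_lit 2095) (nat_lit 512) .nil))))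
(.leaf (.mk (nat_lit 2) (nat_lit 0x4000000020000001e000000180000000000000000000) (nat_lit 0x4000000000000000400000021000000000000000000000000000) (.cons (nat_lit 620) (nat_lit 7) (nat_lit 382) (.cons (nat_lit 654) (nat_lit 2096) (nat_lit 512) .nil))))))))
(.node (nat_lit 8)
(.node (nat_lit 4)
(.node (nat_lit 2)
(.node (nat_lit 1)
(.leaf (.mk (nat_lit 1) (nat_lit 0x4000000060000001c000000080000000000000000000) (nat_lit 0x4000000000000000000000020000000000000000000000000000) (.cons (nat_lit 718) (nat_lit 5) (nat_lit 384) (.cons (nat_lit 625) (nat_lit 4) (nat_lit 415) .nil))))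
(.leaf (.mk (nat_lit 5) (nat_lit 0x100000001e0000001200000010000000000000000000000000000) (nat_lit 0x400000000000000050000002e0000002f0000000300000001000) (.cons (nat_lit 652) (nat_lit 1) (nat_lit 446) (.cons (nat_lit 589) (nat_lit 2098) (nat_lit 512) .nil)))))
(.node (nat_lit 1)
(.leaf (.mk (nat_lit 4) (nat_lit 0x10000000160000001200000010000000020000000000000000000) (nat_lit 0x400000000000000040000002e0000002d0000000300000001000) (.cons (nat_lit 621) (nat_lit 1679) (nat_lit 450) (.cons (nat_lit 623) (nat_lit 2099) (nat_lit 512) (.cons (nat_lit 621) (nat_lit 2052) (nat_lit 512) .nil)))))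
(.leaf (.mk (nat_lit 3) (nat_lit 0x10000000100000001200000018000000020000000000000000000) (nat_lit 0x4000000240000002c0000000000000000000) (.cons (nat_lit 591) (nat_lit 2) (nat_lit 385) (.cons (nat_lit 625) (nat_lit 2100) (nat_lit 512) .nil))))))
(.node (nat_lit 2)
(.node (nat_lit 1)
(.leaf (.mk (nat_lit 2) (nat_lit 0x10000000100000001200000038000000020000000000000000000) (nat_lit 0x400000004000000240000000000000000000) (.cons (nat_lit 593) (nat_lit 5) (nat_lit 386) (.cons (nat_lit 622) (nat_lit 787) (nat_lit 354) .nil))))
(.leaf (.mk (nat_lit 8) (nat_lit 0x800000008000000100000001e0000000000000000000000000000000000000000000) (nat_lit 0x400000025c0000001c0000037e00000ff8000007f000000ffc0000000000) (.cons (nat_lit 721) (nat_lit 0) (nat_lit 479) (.cons (nat_lit 654) (nat_lit 2102) (nat_lit 512) .nil)))))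
(.node (nat_lit 1)
(.leaf (.mk (nat_lit 7) (nat_lit 0x800000008000000100000001e0000000400000000000000000000000000000000000) (nat_lit 0x400000005c0000001c0000033e00000ff8000007f000000ffc0000000000) (.cons (nat_lit 656) (nat_lit 2103) (nat_lit 512) (.cons (nat_lit 591) (nat_lit 2104) (nat_lit 512) (.cons (nat_lit 718) (nat_lit 2105) (nat_lit 512) .nil)))))
(.leaf (.mk (nat_lit 6) (nat_lit 0x1e0000001400000000000000000000000000000000000) (nat_lit 0x1c0000001c0000023e0000000000000000000000000000000000) (.cons (nat_lit 657) (nat_lit 7) (nat_lit 447) (.cons (nat_lit 684) (nat_lit 2149) (nat_lit 512) .nil)))))))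
(.node (nat_lit 4)
(.node (nat_lit 2)
(.node (nat_lit 1)
(.leaf (.mk (nat_lit 6) (nat_lit 0x800000008000000100000001e0000000400000000000000080000000000000000000) (nat_lit 0x4000000040000000000000030000000ff80000077000000ffc0000000000) (.cons (nat_lit 718) (nat_lit 2115) (nat_lit 512) (.cons (nat_lit 718) (nat_lit 2116) (nat_lit 512) (.cons (nat_lit 656) (nat_lit 2117) (nat_lit 512) (.cons (nat_lit 590) (nat_lit 2118) (nat_lit 512) .nil))))))
(.leaf (.mk (nat_lit 6) (nat_lit 0x800000008000000040000001e0000000400000000000000000000000000000000000) (nat_lit 0x40000000000000001000000038000000f0000000e0000000e00000000000) (.cons (nat_lit 750) (nat_lit 3) (nat_lit 448) (.cons (nat_lit 622) (nat_lit 2106) (nat_lit 512) .nil)))))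
(.node (nat_lit 1)
(.leaf (.mk (nat_lit 5) (nat_lit 0x40000001e0000000400000004000000000000000000000000000) (nat_lit 0x1000000038000000b0000000e0000000e00000000000) (.cons (nat_lit 589) (nat_lit 72) (nat_lit 481) (.cons (nat_lit 591) (nat_lit 2107) (nat_lit 512) (.cons (nat_lit 589) (nat_lit 2108) (nat_lit 512) (.cons (nat_lit 652) (nat_lit 2109) (nat_lit 512) .nil))))))
(.leaf (.mk (nat_lit 3) (nat_lit 0x40000001e0000000400000004000000080000000000000000000) (nat_lit 0x300000008000000040000000c00000000000) (.cons (nat_lit 623) (nat_lit 5) (nat_lit 384) (.cons (nat_lit 590) (nat_lit 2114) (nat_lit 512) .nil))))))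
(.node (nat_lit 2)
(.node (nat_lit 1)
(.leaf (.mk (nat_lit 3) (nat_lit 0x40000001e0000000400000004000000020000000000000000000) (nat_lit 0x300000002000000040000000600000000000) (.cons (nat_lit 621) (nat_lit 2) (nat_lit 383) (.cons (nat_lit 590) (nat_lit 2113) (nat_lit 512) .nil))))
(.leaf (.mk (nat_lit 4) (nat_lit 0x40000001e0000000500000004000000000000000000000000000) (nat_lit 0x1000000028000000b0000000a0000000000000000000) (.cons (nat_lit 653) (nat_lit 1) (nat_lit 446) (.cons (nat_lit 621) (nat_lit 2110) (nat_lit 512) .nil)))))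
(.node (nat_lit 1)
(.leaf (.mk (nat_lit 3) (nat_lit 0x40000000e0000000500000006000000000000000000000000000) (nat_lit 0x100000000800000090000000a0000000000000000000) (.cons (nat_lit 589) (nat_lit 2) (nat_lit 383) (.cons (nat_lit 623) (nat_lit 2111) (nat_lit 512) .nil))))
(.leaf (.mk (nat_lit 2) (nat_lit 0x40000000e000000050000000e000000000000000000000000000) (nat_lit 0x10000000080000001000000080000000000000000000) (.cons (nat_lit 591) (nat_lit 5) (nat_lit 384) (.cons (nat_lit 651) (nat_lit 2112) (nat_lit 512) .nil))))))))))
(.node (nat_lit 32)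
(.node (nat_lit 16)
(.node (nat_lit 8)
(.node (nat_lit 4)
(.node (nat_lit 2)
(.node (nat_lit 1)
(.leaf (.mk (nat_lit 1) (nat_lit 0xe000000018000000e000000000000000000000000000) (nat_lit 0x10000000000000001000000000000000000000000000) (.cons (nat_lit 620) (nat_lit 4) (nat_lit 413) (.cons (nat_lit 684) (nat_lit 1) (nat_lit 445) .nil))))
(.leaf (.mk (nat_lit 2) (nat_lit 0x1e0000000400000004000000060000000000000000000) (nat_lit 0x300000000000000000000000600000000000) (.cons (nat_lit 557) (nat_lit 2) (nat_lit 351) (.cons (nat_lit 653) (nat_lit 310) (nat_lit 483) .nil)))))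
(.node (nat_lit 1)
(.leaf (.mk (nat_lit 2) (nat_lit 0x1e00000004000000040000000c0000000000000000000) (nat_lit 0x300000000000000000000000c00000000000) (.cons (nat_lit 559) (nat_lit 5) (nat_lit 352) (.cons (nat_lit 653) (nat_lit 310) (nat_lit 483) .nil))))
(.leaf (.mk (nat_lit 3) (nat_lit 0x800000008000000140000001e0000000400000000000000080000000000000000000) (nat_lit 0x40000000000000000000000300000001c000000000000000000000000000) (.cons (nat_lit 750) (nat_lit 3) (nat_lit 448) (.cons (nat_lit 623) (nat_lit 2148) (nat_lit 512) .nil))))))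
(.node (nat_lit 2)
(.node (nat_lit 1)
(.leaf (.mk (nat_lit 4) (nat_lit 0x80000000800000004000000040000000400000000000000080000000000000000000) (nat_lit 0x40000000000000000000000000000000e000000060000000a00000000000) (.cons (nat_lit 750) (nat_lit 3) (nat_lit 448) (.cons (nat_lit 622) (nat_lit 231) (nat_lit 483) .nil))))
(.leaf (.mk (nat_lit 4) (nat_lit 0x100000001e0000001000000000000000080000000000000000000) (nat_lit 0x2000000038000000300000002800000000000) (.cons (nat_lit 657) (nat_lit 7) (nat_lit 447) (.cons (nat_lit 624) (nat_lit 72) (nat_lit 483) .nil)))))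
(.node (nat_lit 1)
(.leaf (.mk (nat_lit 5) (nat_lit 0x800000008000000100000001e00000004000000000000000c0000000000000000000) (nat_lit 0x4000000040000000000000030000000f780000073000000ff80000000000) (.cons (nat_lit 622) (nat_lit 2119) (nat_lit 512) (.cons (nat_lit 592) (nat_lit 2120) (nat_lit 512) (.cons (nat_lit 592) (nat_lit 2121) (nat_lit 512) (.cons (nat_lit 592) (nat_lit 2122) (nat_lit 512) (.cons (nat_lit 592) (nat_lit 2123) (nat_lit 512) .nil)))))))
(.leaf (.mk (nat_lit 3) (nat_lit 0x800000008000000000000000400000004000000040000000c0000000000000000000) (nat_lit 0x400000004000000000000000000000002000000020000000a00000000000) (.cons (nat_lit 559) (nat_lit 5) (nat_lit 352) (.cons (nat_lit 589) (nat_lit 2146) (nat_lit 512) .nil)))))))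
(.node (nat_lit 4)
(.node (nat_lit 2)
(.node (nat_lit 1)
(.leaf (.mk (nat_lit 4) (nat_lit 0x100000001e00000004000000000000001c0000000000000000000) (nat_lit 0x30000000f600000060000000e800000000000) (.cons (nat_lit 559) (nat_lit 2124) (nat_lit 512) (.cons (nat_lit 593) (nat_lit 2144) (nat_lit 512) (.cons (nat_lit 593) (nat_lit 2130) (nat_lit 512) .nil)))))
(.leaf (.mk (nat_lit 4) (nat_lit 0x100000001e00000000000000000000001c0000000000000000000) (nat_lit 0x3000000073800000230000007f80000000000) (.cons (nat_lit 656) (nat_lit 2127) (nat_lit 512) (.cons (nat_lit 589) (nat_lit 209) (nat_lit 483) (.cons (nat_lit 589) (nat_lit 2138) (nat_lit 512) (.cons (nat_lit 593) (nat_lit 2139) (nat_lit 512) .nil)))))))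
(.node (nat_lit 1)
(.leaf (.mk (nat_lit 4) (nat_lit 0x800000008000000100000001e00000004000000000000001c0000000000000000000) (nat_lit 0x4000000040000000000000030000000f780000063000000e380000000000) (.cons (nat_lit 593) (nat_lit 2130) (nat_lit 512) (.cons (nat_lit 589) (nat_lit 2131) (nat_lit 512) .nil))))
(.leaf (.mk (nat_lit 4) (nat_lit 0x100000001e00000004000000000000001c0000000000000000000) (nat_lit 0x3000000074000000230000007b80000000000) (.cons (nat_lit 559) (nat_lit 2124) (nat_lit 512) (.cons (nat_lit 589) (nat_lit 2125) (nat_lit 512) (.cons (nat_lit 589) (nat_lit 2126) (nat_lit 512) (.cons (nat_lit 656) (nat_lit 2127) (nat_lit 512) .nil))))))))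
(.node (nat_lit 2)
(.node (nat_lit 1)
(.leaf (.mk (nat_lit 2) (nat_lit 0x1e00000004000000000000001c0000000800000000000) (nat_lit 0x3000000014000000000000000000000000000) (.cons (nat_lit 622) (nat_lit 5) (nat_lit 352) (.cons (nat_lit 656) (nat_lit 2129) (nat_lit 512) .nil))))
(.leaf (.mk (nat_lit 3) (nat_lit 0x400000004000000000000001e0000000000000000000) (nat_lit 0x4000000010000003b80000000000) (.cons (nat_lit 557) (nat_lit 265) (nat_lit 483) (.cons (nat_lit 559) (nat_lit 2128) (nat_lit 512) (.cons (nat_lit 588) (nat_lit 201) (nat_lit 482) .nil))))))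
(.node (nat_lit 1)
(.leaf (.mk (nat_lit 3) (nat_lit 0x400000004000000000000001e0000000000000000000) (nat_lit 0x74000000200000007300000000000) (.cons (nat_lit 557) (nat_lit 265) (nat_lit 483) (.cons (nat_lit 593) (nat_lit 207) (nat_lit 482) .nil))))
(.leaf (.mk (nat_lit 3) (nat_lit 0x100000001e0000001000000000000000180000000000000000000) (nat_lit 0x2000000030000000200000002800000000000) (.cons (nat_lit 657) (nat_lit 7) (nat_lit 447) (.cons (nat_lit 624) (nat_lit 93) (nat_lit 483) .nil))))))))
(.node (nat_lit 8)
(.node (nat_lit 4)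
(.node (nat_lit 2)
(.node (nat_lit 1)
(.leaf (.mk (nat_lit 2) (nat_lit 0x400000004000000000000001e0000000800000000000) (nat_lit 0x4000000010000003000000000000) (.cons (nat_lit 622) (nat_lit 5) (nat_lit 352) (.cons (nat_lit 560) (nat_lit 289) (nat_lit 483) .nil))))
(.leaf (.mk (nat_lit 1) (nat_lit 0x1e0000001000000000000000180000000800000000000) (nat_lit 0x2000000010000000000000000000000000000) (.cons (nat_lit 624) (nat_lit 2) (nat_lit 353) (.cons (nat_lit 657) (nat_lit 7) (nat_lit 447) .nil)))))
(.node (nat_lit 1)
(.leaf (.mk (nat_lit 3) (nat_lit 0x100000001e00000000000000000000003c0000000000000000000) (nat_lit 0x30000000f000000040000000e000000000000) (.cons (nat_lit 561) (nat_lit 2134) (nat_lit 512) (.cons (nat_lit 594) (nat_lit 207) (nat_lit 483) (.cons (nat_lit 625) (nat_lit 2135) (nat_lit 512) .nil)))))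
(.leaf (.mk (nat_lit 3) (nat_lit 0x800000008000000000000000400000004000000000000001e0000000000000000000) (nat_lit 0x400000004000000000000000000000007800000010000000380000000000) (.cons (nat_lit 557) (nat_lit 265) (nat_lit 483) (.cons (nat_lit 621) (nat_lit 2132) (nat_lit 512) (.cons (nat_lit 588) (nat_lit 171) (nat_lit 323) .nil)))))))
(.node (nat_lit 2)
(.node (nat_lit 1)
(.leaf (.mk (nat_lit 2) (nat_lit 0x800000008000000000000000400000004000000020000001e0000000000000000000) (nat_lit 0x400000004000000000000000000000005000000000000000000000000000) (.cons (nat_lit 620) (nat_lit 4) (nat_lit 382) (.cons (nat_lit 718) (nat_lit 2133) (nat_lit 512) .nil))))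
(.leaf (.mk (nat_lit 1) (nat_lit 0x80000000800000004000000040000000400000002000000020000000000000000000) (nat_lit 0x400000000000000000000000000000004000000000000000000000000000) (.cons (nat_lit 622) (nat_lit 2) (nat_lit 383) (.cons (nat_lit 750) (nat_lit 3) (nat_lit 448) .nil)))))
(.node (nat_lit 1)
(.leaf (.mk (nat_lit 2) (nat_lit 0x1e00000000000000000000003c0000002000000000000) (nat_lit 0x3000000010000000000000004000000000000) (.cons (nat_lit 562) (nat_lit 7) (nat_lit 352) (.cons (nat_lit 656) (nat_lit 2137) (nat_lit 512) .nil))))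
(.leaf (.mk (nat_lit 2) (nat_lit 0x100000001e00000000000000200000003c0000000000000000000) (nat_lit 0x3000000050000000000000000000000000000) (.cons (nat_lit 626) (nat_lit 0) (nat_lit 384) (.cons (nat_lit 656) (nat_lit 2136) (nat_lit 512) .nil)))))))
(.node (nat_lit 4)
(.node (nat_lit 2)
(.node (nat_lit 1)
(.leaf (.mk (nat_lit 1) (nat_lit 0x100000001e0000001000000020000000200000000000000000000) (nat_lit 0x2000000010000000000000000000000000000) (.cons (nat_lit 624) (nat_lit 5) (nat_lit 386) (.cons (nat_lit 657) (nat_lit 7) (nat_lit 447) .nil))))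
(.leaf (.mk (nat_lit 1) (nat_lit 0x1e0000001000000000000000300000002000000000000) (nat_lit 0x2000000010000000000000000000000000000) (.cons (nat_lit 624) (nat_lit 5) (nat_lit 354) (.cons (nat_lit 657) (nat_lit 7) (nat_lit 447) .nil)))))
(.node (nat_lit 1)
(.leaf (.mk (nat_lit 3) (nat_lit 0x1e00000000000000000000001e0000000000000000000) (nat_lit 0x3000000033800000010000000b80000000000) (.cons (nat_lit 624) (nat_lit 2142) (nat_lit 512) (.cons (nat_lit 588) (nat_lit 171) (nat_lit 323) .nil))))
(.leaf (.mk (nat_lit 3) (nat_lit 0x100000001e00000000000000000000003c0000000000000000000) (nat_lit 0x3000000070000000020000007700000000000) (.cons (nat_lit 561) (nat_lit 2134) (nat_lit 512) (.cons (nat_lit 625) (nat_lit 2140) (nat_lit 512) (.cons (nat_lit 589) (nat_lit 201) (nat_lit 483) .nil)))))))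
(.node (nat_lit 2)
(.node (nat_lit 1)
(.leaf (.mk (nat_lit 2) (nat_lit 0x100000001000000000000000200000003c0000000000000000000) (nat_lit 0x1000000050000000020000000000000000000) (.cons (nat_lit 626) (nat_lit 0) (nat_lit 384) (.cons (nat_lit 624) (nat_lit 2141) (nat_lit 512) .nil))))
(.leaf (.mk (nat_lit 1) (nat_lit 0x100000001000000000000000300000003c0000000000000000000) (nat_lit 0x1000000000000000020000000000000000000) (.cons (nat_lit 589) (nat_lit 0) (nat_lit 383) (.cons (nat_lit 656) (nat_lit 5) (nat_lit 386) .nil)))))
(.node (nat_lit 1)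
(.leaf (.mk (nat_lit 2) (nat_lit 0x1e00000000000000100000001e0000000000000000000) (nat_lit 0x3000000020000000000000000800000000000) (.cons (nat_lit 625) (nat_lit 0) (nat_lit 383) (.cons (nat_lit 656) (nat_lit 2143) (nat_lit 512) .nil))))
(.leaf (.mk (nat_lit 1) (nat_lit 0x1e0000001000000010000000180000000000000000000) (nat_lit 0x2000000000000000000000000800000000000) (.cons (nat_lit 559) (nat_lit 2) (nat_lit 353) (.cons (nat_lit 657) (nat_lit 7) (nat_lit 447) .nil)))))))))
(.node (nat_lit 16)
(.node (nat_lit 8)
(.node (nat_lit 4)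
(.node (nat_lit 2)
(.node (nat_lit 1)
(.leaf (.mk (nat_lit 3) (nat_lit 0x400000004000000000000003c0000000000000000000) (nat_lit 0xe600000040000000e800000000000) (.cons (nat_lit 622) (nat_lit 2145) (nat_lit 512) (.cons (nat_lit 594) (nat_lit 207) (nat_lit 483) .nil))))
(.leaf (.mk (nat_lit 1) (nat_lit 0x400000004000000040000003c0000000000000000000) (nat_lit 0x2000000000000000800000000000) (.cons (nat_lit 559) (nat_lit 5) (nat_lit 352) (.cons (nat_lit 621) (nat_lit 4) (nat_lit 383) .nil)))))
(.node (nat_lit 1)
(.leaf (.mk (nat_lit 2) (nat_lit 0x80000000800000000000000040000000400000004000000060000000000000000000) (nat_lit 0x400000004000000000000000000000002000000000000000200000000000) (.cons (nat_lit 557) (nat_lit 2) (nat_lit 351) (.cons (nat_lit 718) (nat_lit 2147) (nat_lit 512) .nil))))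
(.leaf (.mk (nat_lit 1) (nat_lit 0x80000000800000004000000040000000400000004000000020000000000000000000) (nat_lit 0x400000000000000000000000000000002000000000000000000000000000) (.cons (nat_lit 621) (nat_lit 2) (nat_lit 383) (.cons (nat_lit 750) (nat_lit 3) (nat_lit 448) .nil))))))
(.node (nat_lit 2)
(.node (nat_lit 1)
(.leaf (.mk (nat_lit 2) (nat_lit 0x140000001e0000000400000008000000080000000000000000000) (nat_lit 0x3000000014000000000000000000000000000) (.cons (nat_lit 622) (nat_lit 5) (nat_lit 384) (.cons (nat_lit 656) (nat_lit 752) (nat_lit 352) .nil))))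
(.leaf (.mk (nat_lit 5) (nat_lit 0x1f0000000400000000000000000000000000000000000) (nat_lit 0x1c0000000c0000003e0000000000000000000000000000000000) (.cons (nat_lit 652) (nat_lit 172) (nat_lit 419) (.cons (nat_lit 715) (nat_lit 2150) (nat_lit 512) (.cons (nat_lit 653) (nat_lit 2151) (nat_lit 512) (.cons (nat_lit 651) (nat_lit 180) (nat_lit 482) .nil)))))))
(.node (nat_lit 1)
(.leaf (.mk (nat_lit 4) (nat_lit 0x8000000f0000000400000000000000000000000000000000000) (nat_lit 0x140000000c0000002e0000000000000000000000000000000000) (.cons (nat_lit 716) (nat_lit 4) (nat_lit 477) (.cons (nat_lit 683) (nat_lit 2152) (nat_lit 512) .nil))))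
(.leaf (.mk (nat_lit 3) (nat_lit 0x1f0000000600000000000000000000000000000000000) (nat_lit 0x1c0000000c000000100000000000000000000000000000000000) (.cons (nat_lit 652) (nat_lit 1) (nat_lit 446) (.cons (nat_lit 683) (nat_lit 1232) (nat_lit 450) .nil)))))))
(.node (nat_lit 4)
(.node (nat_lit 2)
(.node (nat_lit 1)
(.leaf (.mk (nat_lit 3) (nat_lit 0x800000078000000400000000000000000000000000000000000) (nat_lit 0x4000000040000002e0000000000000000000000000000000000) (.cons (nat_lit 714) (nat_lit 4) (nat_lit 476) (.cons (nat_lit 650) (nat_lit 403) (nat_lit 481) .nil))))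
(.leaf (.mk (nat_lit 8) (nat_lit 0x800000008000000000000001e0000001000000000000000000000000000000000000) (nat_lit 0x600000037e0000001c0000025c00000ff8000007f000000ff80000000000) (.cons (nat_lit 657) (nat_lit 7) (nat_lit 447) (.cons (nat_lit 591) (nat_lit 2154) (nat_lit 512) .nil)))))
(.node (nat_lit 1)
(.leaf (.mk (nat_lit 7) (nat_lit 0x800000008000000000000001e0000001000000000000000080000000000000000000) (nat_lit 0x600000037e0000001c0000005c00000ff80000077000000ff80000000000) (.cons (nat_lit 720) (nat_lit 2155) (nat_lit 512) (.cons (nat_lit 718) (nat_lit 2156) (nat_lit 512) (.cons (nat_lit 654) (nat_lit 2157) (nat_lit 512) (.cons (nat_lit 720) (nat_lit 2158) (nat_lit 512) .nil))))))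
(.leaf (.mk (nat_lit 4) (nat_lit 0x100000001e0000001000000000000000080000000000000000000) (nat_lit 0x20000000000000000000000038000000300000002800000000000) (.cons (nat_lit 721) (nat_lit 0) (nat_lit 479) (.cons (nat_lit 624) (nat_lit 72) (nat_lit 483) .nil))))))
(.node (nat_lit 2)
(.node (nat_lit 1)
(.leaf (.mk (nat_lit 6) (nat_lit 0x800000008000000040000001e0000000000000000000000080000000000000000000) (nat_lit 0x400000003e0000001c0000005c000000e000000060000000a00000000000) (.cons (nat_lit 684) (nat_lit 2199) (nat_lit 512) (.cons (nat_lit 654) (nat_lit 2116) (nat_lit 512) .nil))))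
(.leaf (.mk (nat_lit 6) (nat_lit 0x800000008000000000000001e0000001400000000000000080000000000000000000) (nat_lit 0x600000037e0000001c0000001c00000f780000077000000ff80000000000) (.cons (nat_lit 592) (nat_lit 2167) (nat_lit 512) (.cons (nat_lit 592) (nat_lit 2168) (nat_lit 512) (.cons (nat_lit 684) (nat_lit 2169) (nat_lit 512) .nil))))))
(.node (nat_lit 1)
(.leaf (.mk (nat_lit 6) (nat_lit 0x800000008000000100000001e0000001000000000000000080000000000000000000) (nat_lit 0x400000027e0000001c0000005c000001c000000000000000000000000000) (.cons (nat_lit 721) (nat_lit 0) (nat_lit 479) (.cons (nat_lit 684) (nat_lit 2159) (nat_lit 512) .nil))))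
(.leaf (.mk (nat_lit 5) (nat_lit 0x800000008000000100000001f0000001000000000000000080000000000000000000) (nat_lit 0x400000007e0000000c0000005c000001c000000000000000000000000000) (.cons (nat_lit 716) (nat_lit 173) (nat_lit 419) (.cons (nat_lit 683) (nat_lit 2160) (nat_lit 512) (.cons (nat_lit 651) (nat_lit 2161) (nat_lit 512) (.cons (nat_lit 651) (nat_lit 180) (nat_lit 482) .nil))))))))))
(.node (nat_lit 8)
(.node (nat_lit 4)
(.node (nat_lit 2)
(.node (nat_lit 1)
(.leaf (.mk (nat_lit 4) (nat_lit 0x800000008000000100000001f8000001000000000000000080000000000000000000) (nat_lit 0x400000006e000000040000005c000001c000000000000000000000000000) (.cons (nat_lit 651) (nat_lit 172) (nat_lit 418) (.cons (nat_lit 718) (nat_lit 2166) (nat_lit 512) .nil))))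
(.leaf (.mk (nat_lit 4) (nat_lit 0x800000008000000100000001f0000001080000000000000080000000000000000000) (nat_lit 0x40000000700000000c00000054000001c000000000000000000000000000) (.cons (nat_lit 652) (nat_lit 1) (nat_lit 445) (.cons (nat_lit 718) (nat_lit 2162) (nat_lit 512) .nil)))))
(.node (nat_lit 1)
(.leaf (.mk (nat_lit 3) (nat_lit 0x800000008000000140000001f0000001080000000000000080000000000000000000) (nat_lit 0x40000000300000000c00000044000001c000000000000000000000000000) (.cons (nat_lit 623) (nat_lit 2163) (nat_lit 512) (.cons (nat_lit 683) (nat_lit 2164) (nat_lit 512) .nil))))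
(.leaf (.mk (nat_lit 2) (nat_lit 0x80000000800000014000000140000001000000008000000080000000000000000000) (nat_lit 0x400000000000000000000000400000014000000000000000000000000000) (.cons (nat_lit 624) (nat_lit 2) (nat_lit 385) (.cons (nat_lit 654) (nat_lit 2165) (nat_lit 512) .nil))))))
(.node (nat_lit 2)
(.node (nat_lit 1)
(.leaf (.mk (nat_lit 2) (nat_lit 0x40000001f8000000080000000000000000000000000000000000) (nat_lit 0x3000000004000000040000000000000000000000000000000000) (.cons (nat_lit 650) (nat_lit 1) (nat_lit 444) (.cons (nat_lit 717) (nat_lit 999) (nat_lit 416) .nil))))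
(.leaf (.mk (nat_lit 1) (nat_lit 0x80000000800000004000000040000000400000008000000080000000000000000000) (nat_lit 0x400000000000000000000000000000004000000000000000000000000000) (.cons (nat_lit 622) (nat_lit 5) (nat_lit 384) (.cons (nat_lit 750) (nat_lit 3) (nat_lit 448) .nil)))))
(.node (nat_lit 1)
(.leaf (.mk (nat_lit 3) (nat_lit 0x80000000800000014000000178000001000000000000000080000000000000000000) (nat_lit 0x400000002e0000000400000040000001c000000000000000000000000000) (.cons (nat_lit 623) (nat_lit 2163) (nat_lit 512) (.cons (nat_lit 682) (nat_lit 534) (nat_lit 447) .nil))))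
(.leaf (.mk (nat_lit 5) (nat_lit 0x800000008000000000000001e0000001400000000000000180000000000000000000) (nat_lit 0x4000000340000000000000000000000f780000067000000ff80000000000) (.cons (nat_lit 624) (nat_lit 2176) (nat_lit 512) (.cons (nat_lit 590) (nat_lit 2182) (nat_lit 512) (.cons (nat_lit 590) (nat_lit 2183) (nat_lit 512) (.cons (nat_lit 590) (nat_lit 2184) (nat_lit 512) (.cons (nat_lit 590) (nat_lit 2185) (nat_lit 512) .nil))))))))))
(.node (nat_lit 4)
(.node (nat_lit 2)
(.node (nat_lit 1)
(.leaf (.mk (nat_lit 5) (nat_lit 0x1e0000001400000000000000180000000000000000000) (nat_lit 0x33000000000000000000000077800000270000007f80000000000) (.cons (nat_lit 624) (nat_lit 2176) (nat_lit 512) (.cons (nat_lit 590) (nat_lit 2177) (nat_lit 512) (.cons (nat_lit 590) (nat_lit 2178) (nat_lit 512) (.cons (nat_lit 590) (nat_lit 2179) (nat_lit 512) .nil))))))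
(.leaf (.mk (nat_lit 5) (nat_lit 0x800000008000000000000001f0000000400000000000000000000000000000000000) (nat_lit 0x400000007e0000000c0000001c0000000000000000000000000000000000) (.cons (nat_lit 716) (nat_lit 173) (nat_lit 419) (.cons (nat_lit 651) (nat_lit 2170) (nat_lit 512) (.cons (nat_lit 651) (nat_lit 2171) (nat_lit 512) (.cons (nat_lit 651) (nat_lit 180) (nat_lit 482) .nil)))))))
(.node (nat_lit 1)
(.leaf (.mk (nat_lit 4) (nat_lit 0x800000008000000000000000f0000000480000000000000000000000000000000000) (nat_lit 0x400000006e0000000c000000140000000000000000000000000000000000) (.cons (nat_lit 652) (nat_lit 1) (nat_lit 445) (.cons (nat_lit 683) (nat_lit 2174) (nat_lit 512) .nil))))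
(.leaf (.mk (nat_lit 4) (nat_lit 0x800000008000000000000001f0000000480000000000000000000000000000000000) (nat_lit 0x40000000700000000c000000140000000000000000000000000000000000) (.cons (nat_lit 652) (nat_lit 1) (nat_lit 445) (.cons (nat_lit 683) (nat_lit 2172) (nat_lit 512) .nil))))))
(.node (nat_lit 2)
(.node (nat_lit 1)
(.leaf (.mk (nat_lit 3) (nat_lit 0x800000008000000000000001f8000000480000000000000000000000000000000000) (nat_lit 0x400000007000000004000000040000000000000000000000000000000000) (.cons (nat_lit 650) (nat_lit 1) (nat_lit 444) (.cons (nat_lit 718) (nat_lit 2173) (nat_lit 512) .nil))))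
(.leaf (.mk (nat_lit 2) (nat_lit 0x800000008000000040000001f8000000400000000000000000000000000000000000) (nat_lit 0x400000003000000004000000000000000000000000000000000000000000) (.cons (nat_lit 750) (nat_lit 3) (nat_lit 448) (.cons (nat_lit 717) (nat_lit 999) (nat_lit 416) .nil)))))
(.node (nat_lit 1)
(.leaf (.mk (nat_lit 3) (nat_lit 0x80000000800000000000000078000000480000000000000000000000000000000000) (nat_lit 0x400000006e00000004000000040000000000000000000000000000000000) (.cons (nat_lit 650) (nat_lit 1) (nat_lit 444) (.cons (nat_lit 682) (nat_lit 2175) (nat_lit 512) .nil))))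
(.leaf (.mk (nat_lit 2) (nat_lit 0x8000000080000000000000007c000000400000000000000000000000000000000000) (nat_lit 0x400000006e00000000000000000000000000000000000000000000000000) (.cons (nat_lit 718) (nat_lit 1837) (nat_lit 512) (.cons (nat_lit 714) (nat_lit 173) (nat_lit 417) .nil)))))))))))
(.node (nat_lit 64)
(.node (nat_lit 32)
(.node (nat_lit 16)
(.node (nat_lit 8)
(.node (nat_lit 4)
(.node (nat_lit 2)
(.node (nat_lit 1)
(.leaf (.mk (nat_lit 3) (nat_lit 0x1e0000001000000010000000180000000000000000000) (nat_lit 0x30000000000000000000000020000000200000002800000000000) (.cons (nat_lit 559) (nat_lit 2) (nat_lit 353) (.cons (nat_lit 593) (nat_lit 1937) (nat_lit 512) .nil))))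
(.leaf (.mk (nat_lit 4) (nat_lit 0x1e00000004000000000000001c0000000000000000000) (nat_lit 0x3000000000000000000000007800000230000007f80000000000) (.cons (nat_lit 589) (nat_lit 209) (nat_lit 483) (.cons (nat_lit 717) (nat_lit 828) (nat_lit 354) .nil)))))
(.node (nat_lit 1)
(.leaf (.mk (nat_lit 4) (nat_lit 0x1e00000014000000000000001c0000000000000000000) (nat_lit 0x3000000000000000000000037800000030000000b80000000000) (.cons (nat_lit 717) (nat_lit 828) (nat_lit 354) (.cons (nat_lit 589) (nat_lit 224) (nat_lit 483) .nil))))
(.leaf (.mk (nat_lit 4) (nat_lit 0x1e00000014000000000000001c0000000000000000000) (nat_lit 0x13000000000000000000000074000000220000007700000000000) (.cons (nat_lit 717) (nat_lit 828) (nat_lit 354) (.cons (nat_lit 593) (nat_lit 2180) (nat_lit 512) .nil))))))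
(.node (nat_lit 2)
(.node (nat_lit 1)
(.leaf (.mk (nat_lit 3) (nat_lit 0x1000000010000000000000003c0000000000000000000) (nat_lit 0x10000000000000000000000070000000020000007700000000000) (.cons (nat_lit 561) (nat_lit 271) (nat_lit 483) (.cons (nat_lit 625) (nat_lit 2181) (nat_lit 512) (.cons (nat_lit 589) (nat_lit 201) (nat_lit 483) .nil)))))
(.leaf (.mk (nat_lit 2) (nat_lit 0x1000000010000000200000003c0000000000000000000) (nat_lit 0x10000000000000000000000050000000020000000000000000000) (.cons (nat_lit 626) (nat_lit 0) (nat_lit 384) (.cons (nat_lit 624) (nat_lit 1978) (nat_lit 419) .nil)))))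
(.node (nat_lit 1)
(.leaf (.mk (nat_lit 4) (nat_lit 0x800000008000000000000001400000014000000000000001c0000000000000000000) (nat_lit 0x400000004000000000000000000000037800000030000000b80000000000) (.cons (nat_lit 559) (nat_lit 2186) (nat_lit 512) (.cons (nat_lit 589) (nat_lit 2131) (nat_lit 512) (.cons (nat_lit 589) (nat_lit 224) (nat_lit 483) .nil)))))
(.leaf (.mk (nat_lit 4) (nat_lit 0x400000004000000000000001c0000000000000000000) (nat_lit 0x40000000000000000000000e780000063000000ff80000000000) (.cons (nat_lit 593) (nat_lit 2144) (nat_lit 512) (.cons (nat_lit 589) (nat_lit 209) (nat_lit 483) (.cons (nat_lit 622) (nat_lit 1684) (nat_lit 419) (.cons (nat_lit 589) (nat_lit 2193) (nat_lit 512) (.cons (nat_lit 593) (nat_lit 2194) (nat_lit 512) .nil))))))))))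
(.node (nat_lit 4)
(.node (nat_lit 2)
(.node (nat_lit 1)
(.leaf (.mk (nat_lit 4) (nat_lit 0x800000008000000000000001e00000014000000000000001c0000000000000000000) (nat_lit 0x4000000340000000000000000000000f780000063000000f380000000000) (.cons (nat_lit 593) (nat_lit 2190) (nat_lit 512) (.cons (nat_lit 589) (nat_lit 2131) (nat_lit 512) .nil))))
(.leaf (.mk (nat_lit 4) (nat_lit 0x1400000014000000000000001c0000000000000000000) (nat_lit 0x17800000230000007f80000000000) (.cons (nat_lit 559) (nat_lit 2186) (nat_lit 512) (.cons (nat_lit 589) (nat_lit 2187) (nat_lit 512) (.cons (nat_lit 589) (nat_lit 292) (nat_lit 483) (.cons (nat_lit 622) (nat_lit 2188) (nat_lit 512) .nil)))))))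
(.node (nat_lit 1)
(.leaf (.mk (nat_lit 1) (nat_lit 0x1400000014000000000000001c0000000800000000000) (nat_lit 0x14000000000000000000000000000) (.cons (nat_lit 622) (nat_lit 5) (nat_lit 352) (.cons (nat_lit 624) (nat_lit 2) (nat_lit 353) .nil))))
(.leaf (.mk (nat_lit 3) (nat_lit 0x1400000014000000000000001e0000000000000000000) (nat_lit 0x14000000200000007300000000000) (.cons (nat_lit 557) (nat_lit 265) (nat_lit 483) (.cons (nat_lit 561) (nat_lit 270) (nat_lit 483) .nil))))))
(.node (nat_lit 2)
(.node (nat_lit 1)
(.leaf (.mk (nat_lit 3) (nat_lit 0x400000004000000040000001c0000000000000000000) (nat_lit 0x2000000220000000e00000000000) (.cons (nat_lit 559) (nat_lit 5) (nat_lit 352) (.cons (nat_lit 557) (nat_lit 2189) (nat_lit 512) .nil))))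
(.leaf (.mk (nat_lit 2) (nat_lit 0x400000004000000040000001c0000000200000000000) (nat_lit 0x2000000220000000400000000000) (.cons (nat_lit 589) (nat_lit 2) (nat_lit 351) (.cons (nat_lit 593) (nat_lit 975) (nat_lit 320) .nil)))))
(.node (nat_lit 1)
(.leaf (.mk (nat_lit 3) (nat_lit 0x1e00000010000000000000003c0000000000000000000) (nat_lit 0x300000000000000000000000f000000040000000e000000000000) (.cons (nat_lit 561) (nat_lit 271) (nat_lit 483) (.cons (nat_lit 625) (nat_lit 2191) (nat_lit 512) (.cons (nat_lit 594) (nat_lit 207) (nat_lit 483) .nil)))))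
(.leaf (.mk (nat_lit 2) (nat_lit 0x1e00000010000000200000003c0000000000000000000) (nat_lit 0x30000000000000000000000050000000000000000000000000000) (.cons (nat_lit 626) (nat_lit 0) (nat_lit 384) (.cons (nat_lit 720) (nat_lit 2192) (nat_lit 512) .nil))))))))
(.node (nat_lit 8)
(.node (nat_lit 4)
(.node (nat_lit 2)
(.node (nat_lit 1)
(.leaf (.mk (nat_lit 1) (nat_lit 0x100000001e0000001000000020000000200000000000000000000) (nat_lit 0x20000000000000000000000010000000000000000000000000000) (.cons (nat_lit 624) (nat_lit 5) (nat_lit 386) (.cons (nat_lit 721) (nat_lit 0) (nat_lit 479) .nil))))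
(.leaf (.mk (nat_lit 3) (nat_lit 0x400000004000000000000001e0000000000000000000) (nat_lit 0x4000000000000000000000007800000210000000380000000000) (.cons (nat_lit 557) (nat_lit 265) (nat_lit 483) (.cons (nat_lit 621) (nat_lit 2198) (nat_lit 512) (.cons (nat_lit 588) (nat_lit 171) (nat_lit 323) .nil))))))
(.node (nat_lit 1)
(.leaf (.mk (nat_lit 3) (nat_lit 0x400000004000000000000003c0000000000000000000) (nat_lit 0x400000042000000ff00000000000) (.cons (nat_lit 557) (nat_lit 1915) (nat_lit 418) (.cons (nat_lit 594) (nat_lit 2195) (nat_lit 512) (.cons (nat_lit 589) (nat_lit 2196) (nat_lit 512) (.cons (nat_lit 589) (nat_lit 201) (nat_lit 483) .nil))))))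
(.leaf (.mk (nat_lit 2) (nat_lit 0x400000004000000000000007c0000000000000000000) (nat_lit 0x400000000000000ec00000000000) (.cons (nat_lit 559) (nat_lit 2197) (nat_lit 512) (.cons (nat_lit 562) (nat_lit 202) (nat_lit 484) .nil))))))
(.node (nat_lit 2)
(.node (nat_lit 1)
(.leaf (.mk (nat_lit 2) (nat_lit 0x400000004000000000000003e0000000000000000000) (nat_lit 0x4000000000000007300000000000) (.cons (nat_lit 557) (nat_lit 265) (nat_lit 483) (.cons (nat_lit 561) (nat_lit 202) (nat_lit 483) .nil))))
(.leaf (.mk (nat_lit 1) (nat_lit 0x400000004000000000000007c0000000800000000000) (nat_lit 0x4000000000000000400000000000) (.cons (nat_lit 558) (nat_lit 1) (nat_lit 352) (.cons (nat_lit 622) (nat_lit 5) (nat_lit 352) .nil)))))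
(.node (nat_lit 1)
(.leaf (.mk (nat_lit 2) (nat_lit 0x400000004000000020000001e0000000000000000000) (nat_lit 0x4000000000000000000000005000000200000000000000000000) (.cons (nat_lit 620) (nat_lit 4) (nat_lit 382) (.cons (nat_lit 622) (nat_lit 1751) (nat_lit 449) .nil))))
(.leaf (.mk (nat_lit 5) (nat_lit 0x40000001f0000000000000000000000000000000000000000000) (nat_lit 0x3e0000000c0000001c0000000000000000000000000000000000) (.cons (nat_lit 716) (nat_lit 173) (nat_lit 419) (.cons (nat_lit 651) (nat_lit 2200) (nat_lit 512) (.cons (nat_lit 651) (nat_lit 2201) (nat_lit 512) (.cons (nat_lit 651) (nat_lit 180) (nat_lit 482) .nil)))))))))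
(.node (nat_lit 4)
(.node (nat_lit 2)
(.node (nat_lit 1)
(.leaf (.mk (nat_lit 4) (nat_lit 0x40000000f0000000080000000000000000000000000000000000) (nat_lit 0x2e0000000c000000140000000000000000000000000000000000) (.cons (nat_lit 652) (nat_lit 1) (nat_lit 445) (.cons (nat_lit 683) (nat_lit 2202) (nat_lit 512) .nil))))
(.leaf (.mk (nat_lit 3) (nat_lit 0x40000001f0000000080000000000000000000000000000000000) (nat_lit 0x300000000c000000140000000000000000000000000000000000) (.cons (nat_lit 652) (nat_lit 1) (nat_lit 445) (.cons (nat_lit 683) (nat_lit 2164) (nat_lit 512) .nil)))))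
(.node (nat_lit 1)
(.leaf (.mk (nat_lit 3) (nat_lit 0x4000000078000000080000000000000000000000000000000000) (nat_lit 0x2e00000004000000040000000000000000000000000000000000) (.cons (nat_lit 650) (nat_lit 1) (nat_lit 444) (.cons (nat_lit 682) (nat_lit 534) (nat_lit 447) .nil))))
(.leaf (.mk (nat_lit 5) (nat_lit 0x10000000f0000000000000000000000000000000000000000000) (nat_lit 0x20000000300000002800000000000000380000003800000038000000280000000000) (.cons (nat_lit 715) (nat_lit 4) (nat_lit 477) (.cons (nat_lit 652) (nat_lit 917) (nat_lit 450) .nil))))))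
(.node (nat_lit 2)
(.node (nat_lit 1)
(.leaf (.mk (nat_lit 6) (nat_lit 0x800000008000000000000000f8000000000000000000000000000000000000000000) (nat_lit 0x400000007e00000006000000770000000000000000000000000000000000) (.cons (nat_lit 715) (nat_lit 173) (nat_lit 418) (.cons (nat_lit 682) (nat_lit 2210) (nat_lit 512) (.cons (nat_lit 714) (nat_lit 1765) (nat_lit 510) .nil)))))
(.leaf (.mk (nat_lit 6) (nat_lit 0x800000008000000000000000f8000000000000000000000000000000000000000000) (nat_lit 0x200000006000000070000000060000007f0000001000000010000000000000000000) (.cons (nat_lit 651) (nat_lit 172) (nat_lit 418) (.cons (nat_lit 682) (nat_lit 2210) (nat_lit 512) (.cons (nat_lit 652) (nat_lit 2211) (nat_lit 512) (.cons (nat_lit 650) (nat_lit 2002) (nat_lit 512) .nil)))))))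
(.node (nat_lit 1)
(.leaf (.mk (nat_lit 6) (nat_lit 0x800000008000000000000000f0000000080000000000000000000000000000000000) (nat_lit 0x400000006e0000000c000000740000000000000000000000000000000000) (.cons (nat_lit 652) (nat_lit 1) (nat_lit 445) (.cons (nat_lit 683) (nat_lit 2207) (nat_lit 512) .nil))))
(.leaf (.mk (nat_lit 5) (nat_lit 0x80000000800000000000000078000000080000000000000000000000000000000000) (nat_lit 0x400000006e00000004000000640000000000000000000000000000000000) (.cons (nat_lit 650) (nat_lit 1) (nat_lit 444) (.cons (nat_lit 714) (nat_lit 2208) (nat_lit 512) .nil)))))))))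
(.node (nat_lit 16)
(.node (nat_lit 8)
(.node (nat_lit 4)
(.node (nat_lit 2)
(.node (nat_lit 1)
(.leaf (.mk (nat_lit 4) (nat_lit 0x80000000800000000400000078000000000000000000000000000000000000000000) (nat_lit 0x400000006a00000004000000600000000000000000000000000000000000) (.cons (nat_lit 715) (nat_lit 4) (nat_lit 476) (.cons (nat_lit 682) (nat_lit 2209) (nat_lit 512) .nil))))
(.leaf (.mk (nat_lit 3) (nat_lit 0x8000000080000000040000007c000000000000000000000000000000000000000000) (nat_lit 0x400000006200000000000000600000000000000000000000000000000000) (.cons (nat_lit 713) (nat_lit 4) (nat_lit 475) (.cons (nat_lit 654) (nat_lit 1836) (nat_lit 512) .nil)))))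
(.node (nat_lit 1)
(.leaf (.mk (nat_lit 4) (nat_lit 0x8000000080000000000000007c000000000000000000000000000000000000000000) (nat_lit 0x400000007000000002000000770000000000000000000000000000000000) (.cons (nat_lit 654) (nat_lit 1836) (nat_lit 512) (.cons (nat_lit 649) (nat_lit 1252) (nat_lit 512) (.cons (nat_lit 649) (nat_lit 2214) (nat_lit 512) .nil)))))
(.leaf (.mk (nat_lit 5) (nat_lit 0xf8000000100000000000000000000000000000000000) (nat_lit 0x20000000200000007000000006000000680000001000000010000000000000000000) (.cons (nat_lit 651) (nat_lit 1) (nat_lit 445) (.cons (nat_lit 682) (nat_lit 2212) (nat_lit 512) .nil))))))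
(.node (nat_lit 2)
(.node (nat_lit 1)
(.leaf (.mk (nat_lit 4) (nat_lit 0x3c000000100000000000000000000000000000000000) (nat_lit 0x20000000200000007000000002000000600000001000000010000000000000000000) (.cons (nat_lit 653) (nat_lit 289) (nat_lit 576) (.cons (nat_lit 717) (nat_lit 2213) (nat_lit 512) .nil))))
(.leaf (.mk (nat_lit 3) (nat_lit 0x200000003c000000100000000000000000000000000000000000) (nat_lit 0x20000000200000005000000000000000000000001000000010000000000000000000) (.cons (nat_lit 718) (nat_lit 0) (nat_lit 476) (.cons (nat_lit 620) (nat_lit 127) (nat_lit 450) .nil)))))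
(.node (nat_lit 1)
(.leaf (.mk (nat_lit 3) (nat_lit 0x3c000000020000000000000000000000000000000000) (nat_lit 0x7000000002000000050000000000000000000000000000000000) (.cons (nat_lit 650) (nat_lit 1) (nat_lit 443) (.cons (nat_lit 681) (nat_lit 2215) (nat_lit 512) .nil))))
(.leaf (.mk (nat_lit 2) (nat_lit 0x3e000000020000000000000000000000000000000000) (nat_lit 0x7000000000000000010000000000000000000000000000000000) (.cons (nat_lit 648) (nat_lit 1) (nat_lit 442) (.cons (nat_lit 717) (nat_lit 89) (nat_lit 540) .nil)))))))
(.node (nat_lit 4)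
(.node (nat_lit 2)
(.node (nat_lit 1)
(.leaf (.mk (nat_lit 9) (nat_lit 0x800000008000000100000001e0000000000000000000000000000000000000000000) (nat_lit 0x1380000007000000270000000000000036000000ff8000007f000000ffc0000000000) (.cons (nat_lit 721) (nat_lit 0) (nat_lit 479) (.cons (nat_lit 717) (nat_lit 2217) (nat_lit 512) .nil))))
(.leaf (.mk (nat_lit 8) (nat_lit 0x800000008000000120000001e0000000000000000000000000000000000000000000) (nat_lit 0x1380000007000000050000000000000036000000ff8000007f000000ffc0000000000) (.cons (nat_lit 716) (nat_lit 4) (nat_lit 478) (.cons (nat_lit 654) (nat_lit 2218) (nat_lit 512) .nil)))))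
(.node (nat_lit 1)
(.leaf (.mk (nat_lit 7) (nat_lit 0x800000008000000120000001e0000000400000000000000000000000000000000000) (nat_lit 0x1380000007000000040000000000000032000000ff8000007f000000ffc0000000000) (.cons (nat_lit 750) (nat_lit 2219) (nat_lit 512) (.cons (nat_lit 591) (nat_lit 2104) (nat_lit 512) (.cons (nat_lit 622) (nat_lit 993) (nat_lit 352) .nil)))))
(.leaf (.mk (nat_lit 4) (nat_lit 0x80000000c00000002000000060000000400000000000000000000000000000000000) (nat_lit 0x138000000300000004000000000000000200000000000000000000000000000000000) (.cons (nat_lit 718) (nat_lit 3) (nat_lit 448) (.cons (nat_lit 749) (nat_lit 2220) (nat_lit 512) .nil))))))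
(.node (nat_lit 2)
(.node (nat_lit 1)
(.leaf (.mk (nat_lit 3) (nat_lit 0x80000000e00000002000000060000000400000000000000000000000000000000000) (nat_lit 0x138000000100000000000000000000000200000000000000000000000000000000000) (.cons (nat_lit 781) (nat_lit 5) (nat_lit 447) (.cons (nat_lit 748) (nat_lit 2221) (nat_lit 512) .nil))))
(.leaf (.mk (nat_lit 2) (nat_lit 0x80000000f00000002000000020000000000000000000000000000000000000000000) (nat_lit 0x118000000000000000000000000000000200000000000000000000000000000000000) (.cons (nat_lit 784) (nat_lit 0) (nat_lit 542) (.cons (nat_lit 780) (nat_lit 243) (nat_lit 546) .nil)))))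
(.node (nat_lit 1)
(.leaf (.mk (nat_lit 5) (nat_lit 0xf0000000100000000000000000000000000000000000) (nat_lit 0x77000000300000000280000000000000000000000000000000000) (.cons (nat_lit 651) (nat_lit 1) (nat_lit 445) (.cons (nat_lit 688) (nat_lit 1841) (nat_lit 512) .nil))))
(.leaf (.mk (nat_lit 5) (nat_lit 0xf8000000000000000000000000000000000000000000) (nat_lit 0xe000001060000007e0000000000000000000000000000000000) (.cons (nat_lit 651) (nat_lit 172) (nat_lit 418) (.cons (nat_lit 714) (nat_lit 2230) (nat_lit 512) (.cons (nat_lit 650) (nat_lit 180) (nat_lit 481) .nil)))))))))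
(.node (nat_lit 8)
(.node (nat_lit 4)
(.node (nat_lit 2)
(.node (nat_lit 1)
(.leaf (.mk (nat_lit 5) (nat_lit 0xf8000000000000000000000000000000000000000000) (nat_lit 0x7e000001060000000e0000000000000000000000000000000000) (.cons (nat_lit 715) (nat_lit 173) (nat_lit 418) (.cons (nat_lit 650) (nat_lit 2227) (nat_lit 512) (.cons (nat_lit 650) (nat_lit 180) (nat_lit 481) .nil)))))
(.leaf (.mk (nat_lit 5) (nat_lit 0x10000000f0000000000000000000000000000000000000000000) (nat_lit 0x72800000300000000700000000000000000000000000000000000) (.cons (nat_lit 715) (nat_lit 4) (nat_lit 477) (.cons (nat_lit 688) (nat_lit 2226) (nat_lit 512) .nil)))))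
(.node (nat_lit 1)
(.leaf (.mk (nat_lit 4) (nat_lit 0x10000001e0000000000000000000000000000000000000000000) (nat_lit 0x72000000200000000700000000000000000000000000000000000) (.cons (nat_lit 717) (nat_lit 4) (nat_lit 478) (.cons (nat_lit 653) (nat_lit 1773) (nat_lit 512) .nil))))
(.leaf (.mk (nat_lit 4) (nat_lit 0xf8000000040000000000000000000000000000000000) (nat_lit 0x70000001060000000a0000000000000000000000000000000000) (.cons (nat_lit 651) (nat_lit 1) (nat_lit 444) (.cons (nat_lit 682) (nat_lit 2228) (nat_lit 512) .nil))))))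
(.node (nat_lit 2)
(.node (nat_lit 1)
(.leaf (.mk (nat_lit 3) (nat_lit 0xfc000000040000000000000000000000000000000000) (nat_lit 0x7000000102000000020000000000000000000000000000000000) (.cons (nat_lit 649) (nat_lit 1) (nat_lit 443) (.cons (nat_lit 717) (nat_lit 2229) (nat_lit 512) .nil))))
(.leaf (.mk (nat_lit 2) (nat_lit 0x20000000fc000000000000000000000000000000000000000000) (nat_lit 0x5000000102000000000000000000000000000000000000000000) (.cons (nat_lit 718) (nat_lit 0) (nat_lit 476) (.cons (nat_lit 716) (nat_lit 2024) (nat_lit 512) .nil)))))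
(.node (nat_lit 1)
(.leaf (.mk (nat_lit 4) (nat_lit 0x4000000f8000000000000000000000000000000000000000000) (nat_lit 0xa00000106000000700000000000000000000000000000000000) (.cons (nat_lit 715) (nat_lit 4) (nat_lit 476) (.cons (nat_lit 682) (nat_lit 2231) (nat_lit 512) .nil))))
(.leaf (.mk (nat_lit 3) (nat_lit 0x4000000fc000000000000000000000000000000000000000000) (nat_lit 0x200000102000000700000000000000000000000000000000000) (.cons (nat_lit 713) (nat_lit 4) (nat_lit 475) (.cons (nat_lit 653) (nat_lit 2232) (nat_lit 512) .nil)))))))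
(.node (nat_lit 4)
(.node (nat_lit 2)
(.node (nat_lit 1)
(.leaf (.mk (nat_lit 2) (nat_lit 0xfc000000200000000000000000000000000000000000) (nat_lit 0x102000000500000000000000000000000000000000000) (.cons (nat_lit 654) (nat_lit 7) (nat_lit 444) (.cons (nat_lit 652) (nat_lit 2233) (nat_lit 512) .nil))))
(.leaf (.mk (nat_lit 1) (nat_lit 0xfc000000300000000000000000000000000000000000) (nat_lit 0x102000000000000000000000000000000000000000000) (.cons (nat_lit 681) (nat_lit 7) (nat_lit 443) (.cons (nat_lit 688) (nat_lit 1) (nat_lit 446) .nil)))))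
(.node (nat_lit 1)
(.leaf (.mk (nat_lit 4) (nat_lit 0xf0000000100000000000000000000000000000000000) (nat_lit 0x20000000200000003800000100000000080000001000000000000000000000000000) (.cons (nat_lit 651) (nat_lit 1) (nat_lit 445) (.cons (nat_lit 716) (nat_lit 2241) (nat_lit 512) .nil))))
(.leaf (.mk (nat_lit 5) (nat_lit 0x20000000e0000000100000000000000000000000000000000000) (nat_lit 0x30000000300000001c00000110000000600000007000000000000000000000000000) (.cons (nat_lit 749) (nat_lit 2236) (nat_lit 512) (.cons (nat_lit 653) (nat_lit 2237) (nat_lit 512) (.cons (nat_lit 716) (nat_lit 244) (nat_lit 482) .nil)))))))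
(.node (nat_lit 2)
(.node (nat_lit 1)
(.leaf (.mk (nat_lit 4) (nat_lit 0x2000000020000000e0000000100000000000000000000000000000000000) (nat_lit 0x30000000100000001c00000010000000600000007000000000000000000000000000) (.cons (nat_lit 781) (nat_lit 220) (nat_lit 578) (.cons (nat_lit 653) (nat_lit 2239) (nat_lit 512) (.cons (nat_lit 653) (nat_lit 2238) (nat_lit 512) .nil)))))
(.leaf (.mk (nat_lit 3) (nat_lit 0x20000000e0000000300000000000000000000000000000000000) (nat_lit 0x20000000200000000000000100000000400000005000000000000000000000000000) (.cons (nat_lit 688) (nat_lit 1) (nat_lit 446) (.cons (nat_lit 749) (nat_lit 2238) (nat_lit 512) .nil)))))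
(.node (nat_lit 1)
(.leaf (.mk (nat_lit 2) (nat_lit 0x200000002000000060000000300000000000000000000000000000000000) (nat_lit 0x20000000000000000000000000000000400000005000000000000000000000000000) (.cons (nat_lit 620) (nat_lit 2) (nat_lit 414) (.cons (nat_lit 654) (nat_lit 123) (nat_lit 515) .nil))))
(.leaf (.mk (nat_lit 3) (nat_lit 0x2000000020000000e0000000300000000000000000000000000000000000) (nat_lit 0x10000000100000001c00000010000000000000003000000000000000000000000000) (.cons (nat_lit 620) (nat_lit 2) (nat_lit 414) (.cons (nat_lit 716) (nat_lit 2240) (nat_lit 512) .nil))))))))))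
(.node (nat_lit 32)
(.node (nat_lit 16)
(.node (nat_lit 8)
(.node (nat_lit 4)
(.node (nat_lit 2)
(.node (nat_lit 1)
(.leaf (.mk (nat_lit 2) (nat_lit 0x2000000030000000e0000000200000000000000000000000000000000000) (nat_lit 0x10000000100000000c00000010000000000000002000000000000000000000000000) (.cons (nat_lit 748) (nat_lit 419) (nat_lit 482) (.cons (nat_lit 715) (nat_lit 245) (nat_lit 482) .nil))))
(.leaf (.mk (nat_lit 3) (nat_lit 0x10000000f0000000100000000000000000000000000000000000) (nat_lit 0x20000000200000002800000100000000000000001000000000000000000000000000) (.cons (nat_lit 715) (nat_lit 4) (nat_lit 477) (.cons (nat_lit 717) (nat_lit 157) (nat_lit 482) .nil)))))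
(.node (nat_lit 1)
(.leaf (.mk (nat_lit 4) (nat_lit 0x1e0000000000000000000000000000000000000000000) (nat_lit 0x77800000210000007800000000000000000000000000000000000) (.cons (nat_lit 656) (nat_lit 875) (nat_lit 451) (.cons (nat_lit 717) (nat_lit 713) (nat_lit 416) (.cons (nat_lit 657) (nat_lit 87) (nat_lit 544) .nil)))))
(.leaf (.mk (nat_lit 7) (nat_lit 0x800000008000000000000000f0000000000000000000000000000000000000000000) (nat_lit 0x5000000070000007780000007c0000007f0000000e000001be0000001000000010000000000000000000) (.cons (nat_lit 651) (nat_lit 180) (nat_lit 482) (.cons (nat_lit 652) (nat_lit 2442) (nat_lit 512) (.cons (nat_lit 683) (nat_lit 2248) (nat_lit 512) (.cons (nat_lit 683) (nat_lit 2443) (nat_lit 512) (.cons (nat_lit 683) (nat_lit 2444) (nat_lit 512) .nil)))))))))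
(.node (nat_lit 2)
(.node (nat_lit 1)
(.leaf (.mk (nat_lit 8) (nat_lit 0xc00000008000000000000000e0000000000000000000000000000000000000000000) (nat_lit 0x7000000f7c0000073800000e7c000007600000071000000fbc0000000000000000000000000000000000) (.cons (nat_lit 688) (nat_lit 2360) (nat_lit 512) (.cons (nat_lit 750) (nat_lit 2361) (nat_lit 512) (.cons (nat_lit 688) (nat_lit 2362) (nat_lit 512) (.cons (nat_lit 784) (nat_lit 2363) (nat_lit 512) (.cons (nat_lit 781) (nat_lit 2364) (nat_lit 512) (.cons (nat_lit 750) (nat_lit 2365) (nat_lit 512) .nil))))))))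
(.leaf (.mk (nat_lit 8) (nat_lit 0x800000008000000000000000f0000000000000000000000000000000000000000000) (nat_lit 0x3800000f780000077c0000027c0000075e0000030c000007be0000000000000000000000000000000000) (.cons (nat_lit 651) (nat_lit 180) (nat_lit 482) (.cons (nat_lit 652) (nat_lit 1805) (nat_lit 510) (.cons (nat_lit 782) (nat_lit 2265) (nat_lit 512) (.cons (nat_lit 688) (nat_lit 2266) (nat_lit 512) .nil)))))))
(.node (nat_lit 1)
(.leaf (.mk (nat_lit 7) (nat_lit 0x800000008000000000000000f0000000000000000000000000000000000000000000) (nat_lit 0x500000007800000778000000780000077f0000030e0000003e0000001000000010000000000000000000) (.cons (nat_lit 651) (nat_lit 180) (nat_lit 482) (.cons (nat_lit 652) (nat_lit 2222) (nat_lit 512) (.cons (nat_lit 683) (nat_lit 2248) (nat_lit 512) (.cons (nat_lit 683) (nat_lit 2224) (nat_lit 512) (.cons (nat_lit 716) (nat_lit 2249) (nat_lit 512) .nil)))))))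
(.leaf (.mk (nat_lit 4) (nat_lit 0x800000008000000000000001e0000000000000000000000000000000000000000000) (nat_lit 0x500000007000000778000000700000073800000210000007b80000000000000000000000000000000000) (.cons (nat_lit 657) (nat_lit 87) (nat_lit 544) (.cons (nat_lit 652) (nat_lit 180) (nat_lit 483) .nil)))))))
(.node (nat_lit 4)
(.node (nat_lit 2)
(.node (nat_lit 1)
(.leaf (.mk (nat_lit 6) (nat_lit 0x800000008000000000000000f8000000000000000000000000000000000000000000) (nat_lit 0x500000007000000778000000700000006e000000060000003e0000001000000010000000000000000000) (.cons (nat_lit 651) (nat_lit 172) (nat_lit 418) (.cons (nat_lit 717) (nat_lit 2256) (nat_lit 512) (.cons (nat_lit 650) (nat_lit 180) (nat_lit 481) .nil)))))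
(.leaf (.mk (nat_lit 6) (nat_lit 0x800000008000000010000000f0000000000000000000000000000000000000000000) (nat_lit 0x1800000178000000780000002800000100000000300000001000000000000000000000000000) (.cons (nat_lit 715) (nat_lit 4) (nat_lit 477) (.cons (nat_lit 717) (nat_lit 2250) (nat_lit 512) .nil)))))
(.node (nat_lit 1)
(.leaf (.mk (nat_lit 5) (nat_lit 0x800000008000000030000000f0000000000000000000000000000000000000000000) (nat_lit 0x1800000178000000780000000000000100000000300000001000000000000000000000000000) (.cons (nat_lit 688) (nat_lit 4) (nat_lit 478) (.cons (nat_lit 748) (nat_lit 2251) (nat_lit 512) .nil))))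
(.leaf (.mk (nat_lit 4) (nat_lit 0x80000000900000003000000030000000000000000000000000000000000000000000) (nat_lit 0x1800000178000000680000000000000000000000300000001000000000000000000000000000) (.cons (nat_lit 780) (nat_lit 123) (nat_lit 546) (.cons (nat_lit 749) (nat_lit 2252) (nat_lit 512) (.cons (nat_lit 780) (nat_lit 2253) (nat_lit 512) .nil)))))))
(.node (nat_lit 2)
(.node (nat_lit 1)
(.leaf (.mk (nat_lit 3) (nat_lit 0x80000000b00000003000000030000000000000000000000000000000000000000000) (nat_lit 0x160000000480000000000000000000000300000001000000000000000000000000000) (.cons (nat_lit 652) (nat_lit 149) (nat_lit 512) (.cons (nat_lit 750) (nat_lit 2255) (nat_lit 512) .nil))))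
(.leaf (.mk (nat_lit 3) (nat_lit 0x10000000100000003000000030000000000000000000000000000000000000000000) (nat_lit 0x1800000028000000280000000000000000000000100000001000000000000000000000000000) (.cons (nat_lit 812) (nat_lit 5) (nat_lit 478) (.cons (nat_lit 652) (nat_lit 2254) (nat_lit 512) .nil)))))
(.node (nat_lit 1)
(.leaf (.mk (nat_lit 2) (nat_lit 0x10000000100000003000000030000000100000000000000000000000000000000000) (nat_lit 0x800000028000000280000000000000000000000000000001000000000000000000000000000) (.cons (nat_lit 749) (nat_lit 149) (nat_lit 512) (.cons (nat_lit 779) (nat_lit 91) (nat_lit 479) .nil))))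
(.leaf (.mk (nat_lit 2) (nat_lit 0x80000000f00000002000000020000000000000000000000000000000000000000000) (nat_lit 0x140000000080000000000000000000000200000000000000000000000000000000000) (.cons (nat_lit 784) (nat_lit 0) (nat_lit 542) (.cons (nat_lit 782) (nat_lit 486) (nat_lit 512) .nil))))))))
(.node (nat_lit 8)
(.node (nat_lit 4)
(.node (nat_lit 2)
(.node (nat_lit 1)
(.leaf (.mk (nat_lit 5) (nat_lit 0x80000000800000002000000078000000000000000000000000000000000000000000) (nat_lit 0x500000007000000778000000700000004e00000006000000300000001000000010000000000000000000) (.cons (nat_lit 682) (nat_lit 1523) (nat_lit 449) (.cons (nat_lit 749) (nat_lit 2257) (nat_lit 512) (.cons (nat_lit 749) (nat_lit 2258) (nat_lit 512) .nil)))))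
(.leaf (.mk (nat_lit 4) (nat_lit 0x80000000a00000002000000070000000000000000000000000000000000000000000) (nat_lit 0x500000007000000778000000500000004000000000000000300000001000000010000000000000000000) (.cons (nat_lit 652) (nat_lit 811) (nat_lit 450) (.cons (nat_lit 750) (nat_lit 2263) (nat_lit 512) (.cons (nat_lit 781) (nat_lit 2264) (nat_lit 512) .nil))))))
(.node (nat_lit 1)
(.leaf (.mk (nat_lit 4) (nat_lit 0x80000000a00000002000000078000000000000000000000000000000000000000000) (nat_lit 0x500000007000000778000000500000000e00000006000000300000001000000010000000000000000000) (.cons (nat_lit 652) (nat_lit 811) (nat_lit 450) (.cons (nat_lit 750) (nat_lit 2259) (nat_lit 512) (.cons (nat_lit 653) (nat_lit 2260) (nat_lit 512) (.cons (nat_lit 781) (nat_lit 1740) (nat_lit 448) .nil))))))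
(.leaf (.mk (nat_lit 3) (nat_lit 0x80000000e00000002000000020000000000000000000000000000000000000000000) (nat_lit 0x400000004000000778000000100000000000000000000000200000000000000000000000000000000000) (.cons (nat_lit 782) (nat_lit 127) (nat_lit 515) (.cons (nat_lit 748) (nat_lit 2221) (nat_lit 512) (.cons (nat_lit 784) (nat_lit 583) (nat_lit 512) .nil)))))))
(.node (nat_lit 2)
(.node (nat_lit 1)
(.leaf (.mk (nat_lit 3) (nat_lit 0x80000000a00000002000000078000000200000000000000000000000000000000000) (nat_lit 0x150000000500000000e00000006000000100000001000000000000000000000000000) (.cons (nat_lit 748) (nat_lit 1788) (nat_lit 512) (.cons (nat_lit 682) (nat_lit 2261) (nat_lit 512) .nil))))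
(.leaf (.mk (nat_lit 2) (nat_lit 0x20000000200000007c000000200000000000000000000000000000000000) (nat_lit 0xe00000002000000100000001000000000000000000000000000) (.cons (nat_lit 652) (nat_lit 2262) (nat_lit 512) (.cons (nat_lit 714) (nat_lit 173) (nat_lit 417) .nil)))))
(.node (nat_lit 1)
(.leaf (.mk (nat_lit 1) (nat_lit 0x20000000200000003c000000300000000000000000000000000000000000) (nat_lit 0x2000000000000001000000000000000000000000000) (.cons (nat_lit 620) (nat_lit 2) (nat_lit 414) (.cons (nat_lit 681) (nat_lit 7) (nat_lit 443) .nil))))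
(.leaf (.mk (nat_lit 3) (nat_lit 0x80000000e00000002000000020000000000000000000000000000000000000000000) (nat_lit 0x400000004000000758000000100000004000000000000000200000000000000000000000000000000000) (.cons (nat_lit 782) (nat_lit 96) (nat_lit 512) (.cons (nat_lit 748) (nat_lit 2221) (nat_lit 512) (.cons (nat_lit 784) (nat_lit 583) (nat_lit 512) .nil))))))))
(.node (nat_lit 4)
(.node (nat_lit 2)
(.node (nat_lit 1)
(.leaf (.mk (nat_lit 3) (nat_lit 0x20000000200000002000000070000000000000000000000000000000000000000000) (nat_lit 0x100000003000000010000000000000004000000000000000100000000000000000000000000000000000) (.cons (nat_lit 652) (nat_lit 2) (nat_lit 446) (.cons (nat_lit 812) (nat_lit 766) (nat_lit 416) .nil))))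
(.leaf (.mk (nat_lit 7) (nat_lit 0xc00000008000000000000000f0000000000000000000000000000000000000000000) (nat_lit 0x3800000f780000073c0000027c0000075e0000030c000007ae0000000000000000000000000000000000) (.cons (nat_lit 716) (nat_lit 2280) (nat_lit 512) (.cons (nat_lit 656) (nat_lit 2281) (nat_lit 512) (.cons (nat_lit 750) (nat_lit 2282) (nat_lit 512) (.cons (nat_lit 716) (nat_lit 2283) (nat_lit 512) (.cons (nat_lit 748) (nat_lit 2284) (nat_lit 512) (.cons (nat_lit 750) (nat_lit 2285) (nat_lit 512) (.cons (nat_lit 781) (nat_lit 2286) (nat_lit 512) (.cons (nat_lit 715) (nat_lit 2287) (nat_lit 512) (.cons (nat_lit 750) (nat_lit 2288) (nat_lit 512) .nil))))))))))))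
(.node (nat_lit 1)
(.leaf (.mk (nat_lit 7) (nat_lit 0x800000008000000000000001f0000000000000000000000000000000000000000000) (nat_lit 0x8000000280000017c000000780000001800000000000003b00000000000000000000000000000000000) (.cons (nat_lit 656) (nat_lit 202) (nat_lit 578) (.cons (nat_lit 716) (nat_lit 2267) (nat_lit 512) .nil))))
(.leaf (.mk (nat_lit 6) (nat_lit 0x800000008000000010000001f0000000000000000000000000000000000000000000) (nat_lit 0x8000000280000017c000000780000000800000000000000300000000000000000000000000000000000) (.cons (nat_lit 715) (nat_lit 4) (nat_lit 477) (.cons (nat_lit 748) (nat_lit 2268) (nat_lit 512) .nil))))))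
(.node (nat_lit 2)
(.node (nat_lit 1)
(.leaf (.mk (nat_lit 5) (nat_lit 0x800000009000000010000001f0000000000000000000000000000000000000000000) (nat_lit 0x280000017c000000680000000000000000000000300000000000000000000000000000000000) (.cons (nat_lit 653) (nat_lit 2269) (nat_lit 512) (.cons (nat_lit 749) (nat_lit 2270) (nat_lit 512) (.cons (nat_lit 652) (nat_lit 2271) (nat_lit 512) (.cons (nat_lit 780) (nat_lit 2272) (nat_lit 512) .nil))))))
(.leaf (.mk (nat_lit 1) (nat_lit 0x1000000010000001f0000000200000000000000000000000000000000000) (nat_lit 0x10000000000000000000000000000000100000000000000000000000000000000000) (.cons (nat_lit 652) (nat_lit 1) (nat_lit 446) (.cons (nat_lit 780) (nat_lit 5) (nat_lit 446) .nil)))))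
(.node (nat_lit 1)
(.leaf (.mk (nat_lit 4) (nat_lit 0x80000000b00000001000000010000000000000000000000000000000000000000000) (nat_lit 0x280000017c000000480000000000000000000000100000000000000000000000000000000000) (.cons (nat_lit 781) (nat_lit 2275) (nat_lit 512) (.cons (nat_lit 750) (nat_lit 512) (nat_lit 512) (.cons (nat_lit 652) (nat_lit 2276) (nat_lit 512) (.cons (nat_lit 781) (nat_lit 2277) (nat_lit 512) .nil))))))
(.leaf (.mk (nat_lit 4) (nat_lit 0x800000009000000010000001f0000000100000000000000000000000000000000000) (nat_lit 0x168000000680000000000000000000000200000000000000000000000000000000000) (.cons (nat_lit 653) (nat_lit 1) (nat_lit 446) (.cons (nat_lit 749) (nat_lit 2273) (nat_lit 512) .nil)))))))))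
(.node (nat_lit 16)
(.node (nat_lit 8)
(.node (nat_lit 4)
(.node (nat_lit 2)
(.node (nat_lit 1)
(.leaf (.mk (nat_lit 4) (nat_lit 0x10000000900000001000000030000000000000000000000000000000000000000000) (nat_lit 0x2800000068000000600000000000000000000000200000000000000000000000000000000000) (.cons (nat_lit 653) (nat_lit 5) (nat_lit 446) (.cons (nat_lit 779) (nat_lit 1046) (nat_lit 480) .nil))))
(.leaf (.mk (nat_lit 3) (nat_lit 0x80000000b00000001000000010000000100000000000000000000000000000000000) (nat_lit 0x168000000480000000000000000000000000000000000000000000000000000000000) (.cons (nat_lit 781) (nat_lit 3) (nat_lit 446) (.cons (nat_lit 747) (nat_lit 2274) (nat_lit 512) .nil)))))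
(.node (nat_lit 1)
(.leaf (.mk (nat_lit 2) (nat_lit 0x80000000b80000001000000010000000100000000000000000000000000000000000) (nat_lit 0x148000000400000000000000000000000000000000000000000000000000000000000) (.cons (nat_lit 779) (nat_lit 6) (nat_lit 445) (.cons (nat_lit 750) (nat_lit 89) (nat_lit 606) .nil))))
(.leaf (.mk (nat_lit 2) (nat_lit 0xa0000000b00000001000000010000000000000000000000000000000000000000000) (nat_lit 0x140000000400000000000000000000000100000000000000000000000000000000000) (.cons (nat_lit 652) (nat_lit 3) (nat_lit 446) (.cons (nat_lit 784) (nat_lit 1081) (nat_lit 515) .nil))))))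
(.node (nat_lit 2)
(.node (nat_lit 1)
(.leaf (.mk (nat_lit 3) (nat_lit 0xb00000001000000010000000100000000000000000000000000000000000) (nat_lit 0x800000038000000480000000000000000000000000000000000000000000000000000000000) (.cons (nat_lit 781) (nat_lit 3) (nat_lit 446) (.cons (nat_lit 779) (nat_lit 2278) (nat_lit 512) .nil))))
(.leaf (.mk (nat_lit 3) (nat_lit 0xa0000000300000001000000010000000000000000000000000000000000000000000) (nat_lit 0x2000000150000000080000000000000000000000100000000000000000000000000000000000) (.cons (nat_lit 652) (nat_lit 3) (nat_lit 446) (.cons (nat_lit 780) (nat_lit 1055) (nat_lit 512) .nil)))))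
(.node (nat_lit 1)
(.leaf (.mk (nat_lit 2) (nat_lit 0x8000000b00000001000000010000000100000000000000000000000000000000000) (nat_lit 0x800000010000000480000000000000000000000000000000000000000000000000000000000) (.cons (nat_lit 747) (nat_lit 6) (nat_lit 445) (.cons (nat_lit 780) (nat_lit 2279) (nat_lit 512) .nil))))
(.leaf (.mk (nat_lit 1) (nat_lit 0x18000000b00000001000000010000000000000000000000000000000000000000000) (nat_lit 0x800000000000000400000000000000000000000000000000000000000000000000000000000) (.cons (nat_lit 811) (nat_lit 6) (nat_lit 477) (.cons (nat_lit 750) (nat_lit 4) (nat_lit 541) .nil)))))))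
(.node (nat_lit 4)
(.node (nat_lit 2)
(.node (nat_lit 1)
(.leaf (.mk (nat_lit 6) (nat_lit 0xc00000008000000010000000f0000000000000000000000000000000000000000000) (nat_lit 0x280000007800000118000000780000004800000000000001a00000000000000000000000000000000000) (.cons (nat_lit 715) (nat_lit 4) (nat_lit 477) (.cons (nat_lit 748) (nat_lit 2357) (nat_lit 512) .nil))))
(.leaf (.mk (nat_lit 6) (nat_lit 0xc00000008000000000000000f0000001000000000000000000000000000000000000) (nat_lit 0x77000000720000002600000071800000300000002800000000000000000000000000000000000) (.cons (nat_lit 655) (nat_lit 7) (nat_lit 446) (.cons (nat_lit 688) (nat_lit 2354) (nat_lit 512) .nil)))))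
(.node (nat_lit 1)
(.leaf (.mk (nat_lit 6) (nat_lit 0xc0000000c000000000000000f0000000000000000000000000000000000000000000) (nat_lit 0x738000002380000075000000300000003a00000000000000000000000000000000000) (.cons (nat_lit 655) (nat_lit 271) (nat_lit 577) (.cons (nat_lit 653) (nat_lit 2350) (nat_lit 512) (.cons (nat_lit 656) (nat_lit 2327) (nat_lit 512) .nil)))))
(.leaf (.mk (nat_lit 6) (nat_lit 0xc00000000000000010000000f0000000000000000000000000000000000000000000) (nat_lit 0x280000007800000338000000780000004800000000000000a00000000000000000000000000000000000) (.cons (nat_lit 715) (nat_lit 4) (nat_lit 477) (.cons (nat_lit 748) (nat_lit 2344) (nat_lit 512) .nil))))))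
(.node (nat_lit 2)
(.node (nat_lit 1)
(.leaf (.mk (nat_lit 6) (nat_lit 0xc00000009000000000000000f0000000000000000000000000000000000000000000) (nat_lit 0x2800000078000001380000006c0000071e0000030c0000072e0000000000000000000000000000000000) (.cons (nat_lit 749) (nat_lit 2336) (nat_lit 512) (.cons (nat_lit 716) (nat_lit 2337) (nat_lit 512) (.cons (nat_lit 715) (nat_lit 2338) (nat_lit 512) .nil)))))
(.leaf (.mk (nat_lit 6) (nat_lit 0xc0000000c000000000000000f0000000000000000000000000000000000000000000) (nat_lit 0x7000000738000002380000074000000300000003a00000000000000000000000000000000000) (.cons (nat_lit 655) (nat_lit 271) (nat_lit 577) (.cons (nat_lit 784) (nat_lit 2326) (nat_lit 512) (.cons (nat_lit 656) (nat_lit 2327) (nat_lit 512) .nil))))))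
(.node (nat_lit 1)
(.leaf (.mk (nat_lit 6) (nat_lit 0xe00000000000000000000000f0000000000000000000000000000000000000000000) (nat_lit 0x7700000031c0000023c0000071c0000030c000003ae0000000000000000000000000000000000) (.cons (nat_lit 715) (nat_lit 2313) (nat_lit 512) (.cons (nat_lit 656) (nat_lit 2314) (nat_lit 512) (.cons (nat_lit 715) (nat_lit 2315) (nat_lit 512) .nil)))))
(.leaf (.mk (nat_lit 6) (nat_lit 0xc00000000000000008000000f0000000000000000000000000000000000000000000) (nat_lit 0x10000000100000003800000078000000540000000c000001ae0000000000000000000000000000000000) (.cons (nat_lit 716) (nat_lit 4) (nat_lit 477) (.cons (nat_lit 683) (nat_lit 2303) (nat_lit 512) .nil))))))))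
(.node (nat_lit 8)
(.node (nat_lit 4)
(.node (nat_lit 2)
(.node (nat_lit 1)
(.leaf (.mk (nat_lit 6) (nat_lit 0xc0000000c000000000000000f0000000000000000000000000000000000000000000) (nat_lit 0x77000000738000002100000075800000300000003a00000000000000000000000000000000000) (.cons (nat_lit 655) (nat_lit 271) (nat_lit 577) (.cons (nat_lit 716) (nat_lit 2289) (nat_lit 512) (.cons (nat_lit 785) (nat_lit 2290) (nat_lit 512) .nil)))))
(.leaf (.mk (nat_lit 4) (nat_lit 0x40000000c000000010000000f0000000000000000000000000000000000000000000) (nat_lit 0x2000000038000000100000004800000000000000200000000000000000000000000000000000) (.cons (nat_lit 715) (nat_lit 4) (nat_lit 477) (.cons (nat_lit 780) (nat_lit 2295) (nat_lit 512) .nil)))))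
(.node (nat_lit 1)
(.leaf (.mk (nat_lit 5) (nat_lit 0x2c0000000c000000000000000f0000000000000000000000000000000000000000000) (nat_lit 0x77000000520000002000000070000000300000003800000000000000000000000000000000000) (.cons (nat_lit 656) (nat_lit 2291) (nat_lit 512) (.cons (nat_lit 784) (nat_lit 2292) (nat_lit 512) .nil))))
(.leaf (.mk (nat_lit 4) (nat_lit 0x2000000000000000000000000f0000001000000000000000000000000000000000000) (nat_lit 0x2000000070000000300000002800000000000000000000000000000000000) (.cons (nat_lit 655) (nat_lit 7) (nat_lit 446) (.cons (nat_lit 688) (nat_lit 2293) (nat_lit 512) .nil))))))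
(.node (nat_lit 2)
(.node (nat_lit 1)
(.leaf (.mk (nat_lit 4) (nat_lit 0x3c0000000c00000000000000000000000000000000000000000000000000000000000) (nat_lit 0x77000000420000000000000000000000000000000000000000000000000000000000000000000) (.cons (nat_lit 786) (nat_lit 1) (nat_lit 544) (.cons (nat_lit 813) (nat_lit 1402) (nat_lit 483) .nil))))
(.leaf (.mk (nat_lit 3) (nat_lit 0x2000000000000000000000001e0000001000000000000000000000000000000000000) (nat_lit 0x2000000070000000200000002000000000000000000000000000000000000) (.cons (nat_lit 657) (nat_lit 7) (nat_lit 447) (.cons (nat_lit 721) (nat_lit 2294) (nat_lit 512) .nil)))))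
(.node (nat_lit 1)
(.leaf (.mk (nat_lit 2) (nat_lit 0x2000000000000000200000001e0000001000000000000000000000000000000000000) (nat_lit 0x2000000050000000200000000000000000000000000000000000000000000) (.cons (nat_lit 720) (nat_lit 0) (nat_lit 479) (.cons (nat_lit 689) (nat_lit 965) (nat_lit 417) .nil))))
(.leaf (.mk (nat_lit 3) (nat_lit 0x50000000c00000001000000070000000000000000000000000000000000000000000) (nat_lit 0x2000000028000000100000004000000000000000200000000000000000000000000000000000) (.cons (nat_lit 653) (nat_lit 2296) (nat_lit 512) (.cons (nat_lit 781) (nat_lit 2297) (nat_lit 512) (.cons (nat_lit 748) (nat_lit 2298) (nat_lit 512) (.cons (nat_lit 718) (nat_lit 2299) (nat_lit 512) .nil)))))))))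
(.node (nat_lit 4)
(.node (nat_lit 2)
(.node (nat_lit 1)
(.leaf (.mk (nat_lit 1) (nat_lit 0x50000000400000001000000070000000200000000000000000000000000000000000) (nat_lit 0x100000004000000000000000000000000000000000000000000000000000) (.cons (nat_lit 748) (nat_lit 5) (nat_lit 446) (.cons (nat_lit 718) (nat_lit 2) (nat_lit 447) .nil))))
(.leaf (.mk (nat_lit 2) (nat_lit 0x70000000c00000001000000050000000000000000000000000000000000000000000) (nat_lit 0x2000000008000000100000004000000000000000000000000000000000000000000000000000) (.cons (nat_lit 779) (nat_lit 7) (nat_lit 541) (.cons (nat_lit 813) (nat_lit 2302) (nat_lit 512) .nil)))))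
(.node (nat_lit 1)
(.leaf (.mk (nat_lit 2) (nat_lit 0x50000000d00000001000000030000000000000000000000000000000000000000000) (nat_lit 0x2000000028000000000000000000000000000000200000000000000000000000000000000000) (.cons (nat_lit 653) (nat_lit 5) (nat_lit 446) (.cons (nat_lit 781) (nat_lit 2301) (nat_lit 512) .nil))))
(.leaf (.mk (nat_lit 2) (nat_lit 0x50000000c00000004000000060000000000000000000000000000000000000000000) (nat_lit 0x2000000028000000000000000000000000000000200000000000000000000000000000000000) (.cons (nat_lit 653) (nat_lit 2) (nat_lit 447) (.cons (nat_lit 781) (nat_lit 2300) (nat_lit 512) .nil))))))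
(.node (nat_lit 2)
(.node (nat_lit 1)
(.leaf (.mk (nat_lit 1) (nat_lit 0x70000000c00000004000000040000000000000000000000000000000000000000000) (nat_lit 0x2000000008000000000000000000000000000000000000000000000000000000000000000000) (.cons (nat_lit 813) (nat_lit 6) (nat_lit 479) (.cons (nat_lit 779) (nat_lit 7) (nat_lit 541) .nil))))
(.leaf (.mk (nat_lit 1) (nat_lit 0x70000000d00000001000000010000000000000000000000000000000000000000000) (nat_lit 0x2000000008000000000000000000000000000000000000000000000000000000000000000000) (.cons (nat_lit 813) (nat_lit 3) (nat_lit 478) (.cons (nat_lit 779) (nat_lit 7) (nat_lit 541) .nil)))))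
(.node (nat_lit 1)
(.leaf (.mk (nat_lit 1) (nat_lit 0x2000000070000000400000001000000050000000000000000000000000000000000000000000) (nat_lit 0x100000004000000000000000000000000000000000000000000000000000) (.cons (nat_lit 748) (nat_lit 3) (nat_lit 478) (.cons (nat_lit 718) (nat_lit 6) (nat_lit 479) .nil))))
(.leaf (.mk (nat_lit 5) (nat_lit 0xc00000000000000008000000f8000000000000000000000000000000000000000000) (nat_lit 0x1000000010000000380000007800000044000000040000018e0000000000000000000000000000000000) (.cons (nat_lit 714) (nat_lit 4) (nat_lit 476) (.cons (nat_lit 747) (nat_lit 2304) (nat_lit 512) .nil))))))))))))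

end Vale.Agent.Snaky.LD
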