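import Vale.Agent.Snaky.LData.D0
import Vale.Agent.Snaky.LData.D1
import Vale.Agent.Snaky.LData.D2
import Vale.Agent.Snaky.LData.D3
import Vale.Agent.Snaky.LData.D4
import Vale.Agent.Snaky.LData.D5
import Vale.Agent.Snaky.LData.D6
import Vale.Agent.Snaky.LData.D7
import Vale.Agent.Snaky.LData.D8
import Vale.Agent.Snaky.LData.D9
import Vale.Agent.Snaky.LData.D10
import Vale.Agent.Snaky.LData.D11
import Vale.Agent.Snaky.LData.D12
import Vale.Agent.Snaky.LData.D13
import Vale.Agent.Snaky.LData.D14
import Vale.Agent.Snaky.LData.D15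
import Vale.Agent.Snaky.LData.D16
import Vale.Agent.Snaky.LData.D17
import Vale.Agent.Snaky.LData.D18
import Vale.Agent.Snaky.LData.D19
import Vale.Agent.Snaky.LData.D20
import Vale.Agent.Snaky.LData.D21
import Vale.Agent.Snaky.LData.D22
import Vale.Agent.Snaky.LData.D23
import Vale.Agent.Snaky.LData.D24
import Vale.Agent.Snaky.LData.D25
import Vale.Agent.Snaky.LData.D26
import Vale.Agent.Snaky.LData.D27
import Vale.Agent.Snaky.LData.D28
import Vale.Agent.Snaky.LData.D29
import Vale.Agent.Snaky.LData.D30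
import Vale.Agent.Snaky.LData.D31
import Vale.Agent.Snaky.LData.D32
import Vale.Agent.Snaky.LData.D33
import Vale.Agent.Snaky.LData.D34
import Vale.Agent.Snaky.LData.D35
import Vale.Agent.Snaky.LData.D36
import Vale.Agent.Snaky.LData.D37
import Vale.Agent.Snaky.LData.D38
import Vale.Agent.Snaky.LData.D39
import Vale.Agent.Snaky.LData.D40
import Vale.Agent.Snaky.LData.D41
import Vale.Agent.Snaky.LData.D42
import Vale.Agent.Snaky.LData.D43
import Vale.Agent.Snaky.LData.D44
import Vale.Agent.Snaky.LData.D45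
import Vale.Agent.Snaky.LData.D46
import Vale.Agent.Snaky.LData.D47
import Vale.Agent.Snaky.LData.D48
import Vale.Agent.Snaky.LData.D49
import Vale.Agent.Snaky.LData.D50
import Vale.Agent.Snaky.LData.D51
import Vale.Agent.Snaky.LData.D52
import Vale.Agent.Snaky.LData.D53
import Vale.Agent.Snaky.LData.D54
import Vale.Agent.Snaky.LData.D55
import Vale.Agent.Snaky.LData.D56
import Vale.Agent.Snaky.LData.D57
import Vale.Agent.Snaky.LData.D58
import Vale.Agent.Snaky.LData.D59
import Vale.Agent.Snaky.LData.D60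
import Vale.Agent.Snaky.LData.D61

namespace Vale.Agent.Snaky.LD

open Vale.Agent.Snaky

/-- the certificate -/
def cert : Tr :=
(.node (nat_lit 8192) (.node (nat_lit 4096) (.node (nat_lit 2048) (.node (nat_lit 1024) (.node (nat_lit 512) (.node (nat_lit 256) d0 d1) (.node (nat_lit 256) d2 d3)) (.node (nat_lit 512) (.node (nat_lit 256) d4 d5) (.node (nat_lit 256) d6 d7))) (.node (nat_lit 1024) (.node (nat_lit 512) (.node (nat_lit 256) d8 d9) (.node (nat_lit 256) d10 d11)) (.node (nat_lit 512) (.node (nat_lit 256) d12 d13) (.node (nat_lit 256) d14 d15)))) (.node (nat_lit 2048) (.node (nat_lit 1024) (.node (nat_lit 512) (.node (nat_lit 256) d16 d17) (.node (nat_lit 256) d18 d19)) (.node (nat_lit 512) (.node (nat_lit 256) d20 d21) (.node (nat_lit 256) d22 d23))) (.node (nat_lit 1024) (.node (nat_lit 512) (.node (nat_lit 256) d24 d25) (.node (nat_lit 256) d26 d27)) (.node (nat_lit 512) (.node (nat_lit 256) d28 d29) (.node (nat_lit 256) d30 d31))))) (.node (nat_lit 4096) (.node (nat_lit 2048) (.node (nat_lit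 1024) (.node (nat_lit 512) (.node (nat_lit 256) d32 d33) (.node (nat_lit 256) d34 d35)) (.node (nat_lit 512) (.node (nat_lit 256) d36 d37) (.node (nat_lit 256) d38 d39))) (.node (nat_lit 1024) (.node (nat_lit 512) (.node (nat_lit 256) d40 d41) (.node (nat_lit 256) d42 d43)) (.node (nat_lit 512) (.node (nat_lit 256) d44 d45) (.node (nat_lit 256) d46 d47)))) (.node (nat_lit 2048) (.node (nat_lit 1024) (.node (nat_lit 512) (.node (nat_lit 256) d48 d49) (.node (nat_lit 256) d50 d51)) (.node (nat_lit 512) (.node (nat_lit 256) d52 d53) (.node (nat_lit 256) d54 d55))) (.node (nat_lit 1024) (.node (nat_lit 512) (.node (nat_lit 256) d56 d57) (.node (nat_lit 256) d58 d59)) (.node (nat_lit 512) (.node (nat_lit 256) d60 d61) .nil)))))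

end Vale.Agent.Snaky.LD
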