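import Vale.Agent.Snaky.LData.C0
import Vale.Agent.Snaky.LData.C1
import Vale.Agent.Snaky.LData.C2
import Vale.Agent.Snaky.LData.C3
import Vale.Agent.Snaky.LData.C4
import Vale.Agent.Snaky.LData.C5
import Vale.Agent.Snaky.LData.C6
import Vale.Agent.Snaky.LData.C7
import Vale.Agent.Snaky.Line2

namespace Vale.Agent.Snaky.LD

open Vale.Agent.Snaky

theorem cert_ok : cert.all (chkPat cert.get) = true :=
  (Tr.all_node (Tr.all_node (Tr.all_node (Tr.all_node (Tr.all_node (Tr.all_node ok0 ok1) (Tr.all_node ok2 ok3)) (Tr.all_node (Tr.all_node ok4 ok5) (Tr.all_node ok6 ok7))) (Tr.all_node (Tr.all_node (Tr.all_node ok8 ok9) (Tr.all_node ok10 ok11)) (Tr.all_node (Tr.all_node ok12 ok13) (Tr.all_node ok14 ok15)))) (Tr.all_node (Tr.all_node (Tr.all_node (Tr.all_node ok16 ok17) (Tr.all_node ok18 ok19)) (Tr.all_node (Tr.all_node ok20 ok21) (Tr.all_node ok22 ok23))) (Tr.all_node (Tr.all_node (Tr.all_node ok24 ok25) (Tr.all_node ok26 ok27)) (Tr.all_node (Tr.all_node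 ok28 ok29) (Tr.all_node ok30 ok31))))) (Tr.all_node (Tr.all_node (Tr.all_node (Tr.all_node (Tr.all_node ok32 ok33) (Tr.all_node ok34 ok35)) (Tr.all_node (Tr.all_node ok36 ok37) (Tr.all_node ok38 ok39))) (Tr.all_node (Tr.all_node (Tr.all_node ok40 ok41) (Tr.all_node ok42 ok43)) (Tr.all_node (Tr.all_node ok44 ok45) (Tr.all_node ok46 ok47)))) (Tr.all_node (Tr.all_node (Tr.all_node (Tr.all_node ok48 ok49) (Tr.all_node ok50 ok51)) (Tr.all_node (Tr.all_node ok52 ok53) (Tr.all_node ok54 ok55))) (Tr.all_node (Tr.all_node (Tr.all_node ok56 ok57) (Tr.all_node ok58 ok59)) (Tr.all_node (Tr.all_node ok60 ok61) rfl)))))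

/-- the answers to Breaker's first reply -/
def rootT : Ans :=
  (.cons (nat_lit 719) (nat_lit 8) (nat_lit 512) (.cons (nat_lit 750) (nat_lit 9) (nat_lit 512) (.cons (nat_lit 718) (nat_lit 10) (nat_lit 512) (.cons (nat_lit 719) (nat_lit 11) (nat_lit 512) (.cons (nat_lit 783) (nat_lit 11) (nat_lit 544) (.cons (nat_lit 718) (nat_lit 12) (nat_lit 512) (.cons (nat_lit 719) (nat_lit 13) (nat_lit 512) .nil)))))))

/-- the replies `(x, y)` with `0 ≤ y ≤ x ≤ 16`, `(x, y) ≠ (0, 0)`, that are treated -/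
def rootOct : ℕ := 0x80000000c0000000e0000000f0000000f8000000fc000000fe000000ff000000ff800000ffc00000ffe00000fff00000fff80000fffc0000fffe0000ffff0000fffe000000000000000000000000000000000000000000000000000000000000

theorem root_ok : chkList cert.get (15 + 1) (Nat.shiftLeft (1 <<< oIdx) 512) (Nat.shiftLeft fullMask 512)
    rootT (Nat.shiftLeft rootOct 512) = true := by decide +kernel

def levT0 : Ans :=
  (.cons (nat_lit 719) (nat_lit 14) (nat_lit 512) (.cons (nat_lit 815) (nat_lit 15) (nat_lit 512) (.cons (nat_lit 815) (nat_lit 16) (nat_lit 512) (.cons (nat_lit 719) (nat_lit 17) (nat_lit 512) (.cons (nat_lit 719) (nat_lit 18) (nat_lit 512) (.cons (nat_lit 719) (nat_lit 19) (nat_lit 512) (.cons (nat_lit 815) (nat_lit 20) (nat_lit 512) (.cons (nat_lit 719) (nat_lit 21) (nat_lit 512) (.cons (nat_lit 719) (nat_lit 22) (nat_lit 512) (.cons (nat_lit 719) (nat_lit 23) (nat_lit 512) (.cons (nat_lit 719) (nat_lit 24) (nat_lit 512) (.cons (nat_lit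 815) (nat_lit 25) (nat_lit 512) (.cons (nat_lit 815) (nat_lit 26) (nat_lit 512) .nil)))))))))))))

theorem lev_ok0 : chkLevel cert 14 levT0
    [(15, 8), (15, 7)]
    [(16, 7)] (15, 9) = true := by decide +kernel

def levT1 : Ans :=
  (.cons (nat_lit 719) (nat_lit 27) (nat_lit 512) (.cons (nat_lit 719) (nat_lit 28) (nat_lit 512) (.cons (nat_lit 782) (nat_lit 29) (nat_lit 512) (.cons (nat_lit 686) (nat_lit 30) (nat_lit 512) (.cons (nat_lit 719) (nat_lit 31) (nat_lit 512) (.cons (nat_lit 719) (nat_lit 32) (nat_lit 512) (.cons (nat_lit 719) (nat_lit 33) (nat_lit 512) (.cons (nat_lit 686) (nat_lit 34) (nat_lit 512) (.cons (nat_lit 688) (nat_lit 35) (nat_lit 512) (.cons (nat_lit 686) (nat_lit 36) (nat_lit 512) .nil))))))))))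

theorem lev_ok1 : chkLevel cert 13 levT1
    [(15, 5), (15, 8), (15, 7)]
    [(16, 7), (15, 9)] (15, 6) = true := by decide +kernel

def levT2 : Ans :=
  (.cons (nat_lit 686) (nat_lit 37) (nat_lit 512) (.cons (nat_lit 686) (nat_lit 38) (nat_lit 512) (.cons (nat_lit 686) (nat_lit 39) (nat_lit 512) (.cons (nat_lit 686) (nat_lit 40) (nat_lit 512) (.cons (nat_lit 686) (nat_lit 41) (nat_lit 512) (.cons (nat_lit 686) (nat_lit 42) (nat_lit 512) (.cons (nat_lit 686) (nat_lit 43) (nat_lit 512) (.cons (nat_lit 686) (nat_lit 44) (nat_lit 512) (.cons (nat_lit 686) (nat_lit 45) (nat_lit 512) (.cons (nat_lit 686) (nat_lit 46) (nat_lit 512) (.cons (nat_lit 686) (nat_lit 47) (nat_lit 512) (.cons (nat_lit 686) (nat_lit 48) (nat_lit 512) (.cons (nat_lit 686) (nat_lit 49) (nat_lit 512) (.cons (nat_lit 686) (nat_lit 50) (nat_lit 512) (.cons (nat_lit 686) (nat_lit 51) (nat_lit 512) (.cons (nat_lit 686) (nat_lit 52) (nat_lit 512) (.cons (nat_lit 686) (nat_lit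 53) (nat_lit 512) (.cons (nat_lit 686) (nat_lit 54) (nat_lit 512) .nil))))))))))))))))))

theorem lev_ok2 : chkLevel cert 12 levT2
    [(13, 5), (15, 5), (15, 8), (15, 7)]
    [(16, 7), (15, 9), (15, 6)] (14, 5) = true := by decide +kernel

def levT3 : Ans :=
  (.cons (nat_lit 750) (nat_lit 55) (nat_lit 512) (.cons (nat_lit 748) (nat_lit 56) (nat_lit 512) (.cons (nat_lit 748) (nat_lit 57) (nat_lit 512) (.cons (nat_lit 748) (nat_lit 58) (nat_lit 512) (.cons (nat_lit 782) (nat_lit 59) (nat_lit 512) (.cons (nat_lit 748) (nat_lit 60) (nat_lit 512) (.cons (nat_lit 748) (nat_lit 61) (nat_lit 512) (.cons (nat_lit 781) (nat_lit 62) (nat_lit 512) (.cons (nat_lit 717) (nat_lit 63) (nat_lit 512) (.cons (nat_lit 717) (nat_lit 64) (nat_lit 512) (.cons (nat_lit 750) (nat_lit 65) (nat_lit 512) (.cons (nat_lit 748) (nat_lit 66) (nat_lit 512) .nil))))))))))))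

theorem lev_ok3 : chkLevel cert 11 levT3
    [(13, 7), (13, 5), (15, 5), (15, 8), (15, 7)]
    [(16, 7), (15, 9), (15, 6), (14, 5)] (12, 7) = true := by decide +kernel

def levT4 : Ans :=
  (.cons (nat_lit 653) (nat_lit 67) (nat_lit 512) (.cons (nat_lit 781) (nat_lit 68) (nat_lit 512) (.cons (nat_lit 653) (nat_lit 69) (nat_lit 512) (.cons (nat_lit 716) (nat_lit 70) (nat_lit 512) (.cons (nat_lit 782) (nat_lit 71) (nat_lit 512) .nil)))))

theorem lev_ok4 : chkLevel cert 10 levT4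
    [(13, 6), (13, 7), (13, 5), (15, 5), (15, 8), (15, 7)]
    [(16, 7), (15, 9), (15, 6), (14, 5), (12, 7)] (14, 7) = true := by decide +kernel

def levT5 : Ans :=
  (.cons (nat_lit 620) (nat_lit 72) (nat_lit 512) (.cons (nat_lit 652) (nat_lit 73) (nat_lit 512) (.cons (nat_lit 781) (nat_lit 74) (nat_lit 512) .nil)))

theorem lev_ok5 : chkLevel cert 9 levT5
    [(13, 4), (13, 6), (13, 7), (13, 5), (15, 5), (15, 8), (15, 7)]
    [(16, 7), (15, 9), (15, 6), (14, 5), (12, 7), (14, 7)] (12, 4) = true := by decide +kernel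

def levT6 : Ans :=
  (.cons (nat_lit 654) (nat_lit 5) (nat_lit 415) .nil)

theorem lev_ok6 : chkLevel cert 8 levT6
    [(14, 3), (13, 4), (13, 6), (13, 7), (13, 5), (15, 5), (15, 8), (15, 7)]
    [(16, 7), (15, 9), (15, 6), (14, 5), (12, 7), (14, 7), (12, 4)] (14, 4) = true := by decide +kernel

def levT7 : Ans :=
  (.cons (nat_lit 621) (nat_lit 5) (nat_lit 383) .nil)

theorem lev_ok7 : chkLevel cert 7 levT7
    [(14, 2), (14, 3), (13, 4), (13, 6), (13, 7), (13, 5), (15, 5), (15, 8), (15, 7)]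
    [(16, 7), (15, 9), (15, 6), (14, 5), (12, 7), (14, 7), (12, 4), (14, 4)] (13, 3) = true := by decide +kernel

end Vale.Agent.Snaky.LD
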