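import Vale.Agent.Snaky.Types

namespace Vale.Agent.Snaky.LD

open Vale.Agent.Snaky

def d0 : Tr :=
(.node (nat_lit 128)
(.node (nat_lit 64)
(.node (nat_lit 32)
(.node (nat_lit 16)
(.node (nat_lit 8)
(.node (nat_lit 4)
(.node (nat_lit 2)
(.node (nat_lit 1)
(.leaf (.mk (nat_lit 0) (nat_lit 0x600000003c000000000000000000000000000000000000000000000000000) (nat_lit 0) .nil))
(.leaf (.mk (nat_lit 0) (nat_lit 0x780000000c000000000000000000000000000000000000000000000000000) (nat_lit 0) .nil)))
(.node (nat_lit 1)
(.leaf (.mk (nat_lit 0) (nat_lit 0x800000008000000080000000c00000004000000000000000000000000000000000000000000000000000) (nat_lit 0) .nil))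
(.leaf (.mk (nat_lit 0) (nat_lit 0x80000000c000000040000000400000004000000000000000000000000000000000000000000000000000) (nat_lit 0) .nil))))
(.node (nat_lit 2)
(.node (nat_lit 1)
(.leaf (.mk (nat_lit 0) (nat_lit 0xc00000078000000000000000000000000000000000000000000000000000) (nat_lit 0) .nil))
(.leaf (.mk (nat_lit 0) (nat_lit 0x400000004000000040000000c00000008000000000000000000000000000000000000000000000000000) (nat_lit 0) .nil)))
(.node (nat_lit 1)
(.leaf (.mk (nat_lit 0) (nat_lit 0x40000000c000000080000000800000008000000000000000000000000000000000000000000000000000) (nat_lit 0) .nil))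
(.leaf (.mk (nat_lit 0) (nat_lit 0x3c00000060000000000000000000000000000000000000000000000000000) (nat_lit 0) .nil)))))
(.node (nat_lit 4)
(.node (nat_lit 2)
(.node (nat_lit 1)
(.leaf (.mk (nat_lit 10) (nat_lit 0x800000008000000000000000000000000000000000000000000000000000) (nat_lit 0x1c0000001f0000003f8000003f8000007f800000f7800001f7800000ff800001ff800000ff8000001f8000000000000000000) (.cons (nat_lit 687) (nat_lit 15372) (nat_lit 512) (.cons (nat_lit 783) (nat_lit 15373) (nat_lit 512) (.cons (nat_lit 687) (nat_lit 12830) (nat_lit 512) (.cons (nat_lit 783) (nat_lit 15374) (nat_lit 512) (.cons (nat_lit 687) (nat_lit 15375) (nat_lit 512) (.cons (nat_lit 783) (nat_lit 15376) (nat_lit 512) (.cons (nat_lit 783) (nat_lit 15377) (nat_lit 512) (.cons (nat_lit 718) (nat_lit 15378) (nat_lit 512) (.cons (nat_lit 750) (nat_lit 15379) (nat_lit 512) (.cons (nat_lit 687) (nat_lit 14) (nat_lit 480) (.cons (nat_lit 687) (nat_lit 7942) (nat_lit 480) (.cons (nat_lit 783) (nat_lit 15380) (nat_lit 512) (.cons (nat_lit 687) (nat_lit 15381) (nat_lit 512) .nil)))))))))))))))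
(.leaf (.mk (nat_lit 11) (nat_lit 0xc00000000000000000000000000000000000000000000000000000000000) (nat_lit 0xe0000003f800000ff8000007f800000ffe0000033e00003fff00001ffe00001ffe000007fc000007e0000007e0000000e000) (.cons (nat_lit 749) (nat_lit 14955) (nat_lit 512) (.cons (nat_lit 752) (nat_lit 14956) (nat_lit 512) (.cons (nat_lit 749) (nat_lit 14957) (nat_lit 512) (.cons (nat_lit 749) (nat_lit 14958) (nat_lit 512) (.cons (nat_lit 782) (nat_lit 14959) (nat_lit 512) (.cons (nat_lit 749) (nat_lit 14960) (nat_lit 512) (.cons (nat_lit 749) (nat_lit 14961) (nat_lit 512) (.cons (nat_lit 686) (nat_lit 14962) (nat_lit 512) (.cons (nat_lit 749) (nat_lit 14963) (nat_lit 512) (.cons (nat_lit 749) (nat_lit 14964) (nat_lit 512) .nil)))))))))))))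
(.node (nat_lit 1)
(.leaf (.mk (nat_lit 11) (nat_lit 0x800000004000000000000000000000000000000000000000000000000000) (nat_lit 0x140000001c0000001f0000007fc000005fe00003fff00001f7f00003fbf00000fff00000ffe000007fe000007fc000003f8000001e000) (.cons (nat_lit 783) (nat_lit 13911) (nat_lit 512) (.cons (nat_lit 717) (nat_lit 10183) (nat_lit 512) (.cons (nat_lit 719) (nat_lit 13912) (nat_lit 512) (.cons (nat_lit 750) (nat_lit 13913) (nat_lit 512) (.cons (nat_lit 719) (nat_lit 13914) (nat_lit 512) (.cons (nat_lit 717) (nat_lit 10186) (nat_lit 512) (.cons (nat_lit 686) (nat_lit 13915) (nat_lit 512) (.cons (nat_lit 750) (nat_lit 13916) (nat_lit 512) (.cons (nat_lit 719) (nat_lit 13917) (nat_lit 512) (.cons (nat_lit 750) (nat_lit 13918) (nat_lit 512) (.cons (nat_lit 719) (nat_lit 13919) (nat_lit 512) (.cons (nat_lit 750) (nat_lit 13920) (nat_lit 512) (.cons (nat_lit 717) (nat_lit 13921) (nat_lit 512) (.cons (nat_lit 686) (nat_lit 10195) (nat_lit 512) (.cons (nat_lit 719) (nat_lit 13922) (nat_lit 512) (.cons (nat_lit 719) (nat_lit 10187) (nat_lit 512) (.cons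 (nat_lit 783) (nat_lit 13923) (nat_lit 512) (.cons (nat_lit 686) (nat_lit 13924) (nat_lit 512) (.cons (nat_lit 717) (nat_lit 13925) (nat_lit 512) (.cons (nat_lit 717) (nat_lit 13926) (nat_lit 512) (.cons (nat_lit 719) (nat_lit 13927) (nat_lit 512) (.cons (nat_lit 750) (nat_lit 13928) (nat_lit 512) (.cons (nat_lit 717) (nat_lit 13929) (nat_lit 512) (.cons (nat_lit 686) (nat_lit 13930) (nat_lit 512) .nil))))))))))))))))))))))))))
(.leaf (.mk (nat_lit 11) (nat_lit 0x800000008000000000000000000000000000000000000000000000000000) (nat_lit 0x1f0000001f800000ffe00001ffe00000ffe00003d7f00003f7f00003fff00003ffc00001ffe000007f8000003f0000003c000) (.cons (nat_lit 783) (nat_lit 12826) (nat_lit 512) (.cons (nat_lit 687) (nat_lit 7955) (nat_lit 512) (.cons (nat_lit 687) (nat_lit 12827) (nat_lit 512) (.cons (nat_lit 717) (nat_lit 12828) (nat_lit 512) (.cons (nat_lit 718) (nat_lit 12829) (nat_lit 512) (.cons (nat_lit 687) (nat_lit 12830) (nat_lit 512) (.cons (nat_lit 783) (nat_lit 12831) (nat_lit 512) (.cons (nat_lit 687) (nat_lit 12832) (nat_lit 512) (.cons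 (nat_lit 687) (nat_lit 12833) (nat_lit 512) (.cons (nat_lit 783) (nat_lit 12834) (nat_lit 512) (.cons (nat_lit 783) (nat_lit 12835) (nat_lit 512) (.cons (nat_lit 783) (nat_lit 12836) (nat_lit 512) .nil))))))))))))))))
(.node (nat_lit 2)
(.node (nat_lit 1)
(.leaf (.mk (nat_lit 11) (nat_lit 0x800000004000000000000000000000000000000000000000000000000000) (nat_lit 0x100000001e0000003f800000ffc00000ffe00003bff00003f7f00003fbf00001fff00001ffe000007fe000007fc000007f8000001e000) (.cons (nat_lit 719) (nat_lit 10180) (nat_lit 512) (.cons (nat_lit 686) (nat_lit 10181) (nat_lit 512) (.cons (nat_lit 783) (nat_lit 10182) (nat_lit 512) (.cons (nat_lit 717) (nat_lit 10183) (nat_lit 512) (.cons (nat_lit 717) (nat_lit 10184) (nat_lit 512) (.cons (nat_lit 750) (nat_lit 10185) (nat_lit 512) (.cons (nat_lit 717) (nat_lit 10186) (nat_lit 512) (.cons (nat_lit 719) (nat_lit 10187) (nat_lit 512) (.cons (nat_lit 750) (nat_lit 10188) (nat_lit 512) (.cons (nat_lit 719) (nat_lit 10189) (nat_lit 512) (.cons (nat_lit 719) (nat_lit 10190) (nat_lit 512) (.cons (nat_lit 686)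 (nat_lit 10191) (nat_lit 512) (.cons (nat_lit 717) (nat_lit 10192) (nat_lit 512) (.cons (nat_lit 717) (nat_lit 10193) (nat_lit 512) (.cons (nat_lit 750) (nat_lit 10194) (nat_lit 512) (.cons (nat_lit 686) (nat_lit 10195) (nat_lit 512) (.cons (nat_lit 719) (nat_lit 10196) (nat_lit 512) (.cons (nat_lit 717) (nat_lit 10197) (nat_lit 512) (.cons (nat_lit 752) (nat_lit 10198) (nat_lit 512) .nil)))))))))))))))))))))
(.leaf (.mk (nat_lit 11) (nat_lit 0x800000008000000000000000000000000000000000000000000000000000) (nat_lit 0x4000000170000001f8000005f800001ffe00000ffe00001efe00007f7f00003f7f00007fff00003fff00001ffc00000ff8000007f80000074000) (.cons (nat_lit 687) (nat_lit 7941) (nat_lit 512) (.cons (nat_lit 783) (nat_lit 7942) (nat_lit 512) (.cons (nat_lit 718) (nat_lit 7943) (nat_lit 512) (.cons (nat_lit 687) (nat_lit 7944) (nat_lit 512) (.cons (nat_lit 783) (nat_lit 7945) (nat_lit 512) (.cons (nat_lit 783) (nat_lit 7946) (nat_lit 512) (.cons (nat_lit 687) (nat_lit 7947) (nat_lit 512) (.cons (nat_lit 687) (nat_lit 17) (nat_lit 480) (.cons (nat_lit 720)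 (nat_lit 7948) (nat_lit 512) (.cons (nat_lit 814) (nat_lit 7949) (nat_lit 512) (.cons (nat_lit 750) (nat_lit 7950) (nat_lit 512) (.cons (nat_lit 783) (nat_lit 7951) (nat_lit 512) (.cons (nat_lit 718) (nat_lit 7952) (nat_lit 512) (.cons (nat_lit 783) (nat_lit 7953) (nat_lit 512) (.cons (nat_lit 783) (nat_lit 7954) (nat_lit 512) (.cons (nat_lit 687) (nat_lit 7955) (nat_lit 512) .nil)))))))))))))))))))
(.node (nat_lit 1)
(.leaf (.mk (nat_lit 9) (nat_lit 0x80000000800000008000000000000000000000000000000000000000000000000000) (nat_lit 0x140000001c0000007e0000007600000066000000760000007e0000001c00000014000000000000000000000000000) (.cons (nat_lit 687) (nat_lit 3709) (nat_lit 509) (.cons (nat_lit 814) (nat_lit 7935) (nat_lit 512) (.cons (nat_lit 686) (nat_lit 4951) (nat_lit 512) (.cons (nat_lit 815) (nat_lit 7936) (nat_lit 512) (.cons (nat_lit 687) (nat_lit 31) (nat_lit 512) .nil)))))))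
(.leaf (.mk (nat_lit 8) (nat_lit 0x8000000080000000800000000000000000000000000000000000000000000000000000000000) (nat_lit 0x140000001f0000003f8000007780000007c00000040000001c0000001c0000001c00000004000000000000000000000000000) (.cons (nat_lit 847) (nat_lit 5253) (nat_lit 544) (.cons (nat_lit 719) (nat_lit 7919) (nat_lit 512) (.cons (nat_lit 846) (nat_lit 7920) (nat_lit 512) (.cons (nat_lit 719) (nat_lit 135) (nat_lit 581) (.cons (nat_lit 847) (nat_lit 7921) (nat_lit 512) (.cons (nat_lit 719) (nat_lit 4945) (nat_lit 544) (.cons (nat_lit 719) (nat_lit 3709) (nat_lit 541) .nil)))))))))))))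
(.node (nat_lit 8)
(.node (nat_lit 4)
(.node (nat_lit 2)
(.node (nat_lit 1)
(.leaf (.mk (nat_lit 9) (nat_lit 0x8000000080000000800000000000000000000000000000000000000000000000000000000000) (nat_lit 0x1d0000001f000000ff800000ffe00001f7c00001f7e00000670000006f000000020000000000000000000000000000000000000000000) (.cons (nat_lit 847) (nat_lit 7841) (nat_lit 512) (.cons (nat_lit 847) (nat_lit 7842) (nat_lit 512) (.cons (nat_lit 846) (nat_lit 7843) (nat_lit 512) (.cons (nat_lit 847) (nat_lit 4146) (nat_lit 512) (.cons (nat_lit 814) (nat_lit 7844) (nat_lit 512) (.cons (nat_lit 816) (nat_lit 7845) (nat_lit 512) (.cons (nat_lit 816) (nat_lit 7846) (nat_lit 512) (.cons (nat_lit 848) (nat_lit 7847) (nat_lit 512) .nil))))))))))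
(.leaf (.mk (nat_lit 10) (nat_lit 0x80000000800000008000000000000000000000000000000000000000000000000000) (nat_lit 0x1e0000001e0000001fc000000f80000077800000e7f00001f7e00000fff00000ff80000017000000050000000000000000000) (.cons (nat_lit 687) (nat_lit 7693) (nat_lit 512) (.cons (nat_lit 815) (nat_lit 7797) (nat_lit 512) (.cons (nat_lit 686) (nat_lit 4951) (nat_lit 512) (.cons (nat_lit 750) (nat_lit 7798) (nat_lit 512) (.cons (nat_lit 687) (nat_lit 4197) (nat_lit 480) (.cons (nat_lit 718) (nat_lit 7799) (nat_lit 512) (.cons (nat_lit 687) (nat_lit 7800) (nat_lit 512) (.cons (nat_lit 687) (nat_lit 7801) (nat_lit 512) .nil)))))))))))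
(.node (nat_lit 1)
(.leaf (.mk (nat_lit 10) (nat_lit 0x80000000800000008000000000000000000000000000000000000000000000000000) (nat_lit 0x20000001a800000ff80000077800000e7f0000077e00000fff000001f80000017000000000000000000000000000) (.cons (nat_lit 687) (nat_lit 7769) (nat_lit 512) (.cons (nat_lit 687) (nat_lit 7770) (nat_lit 512) (.cons (nat_lit 687) (nat_lit 4197) (nat_lit 480) (.cons (nat_lit 718) (nat_lit 7771) (nat_lit 512) (.cons (nat_lit 687) (nat_lit 7695) (nat_lit 512) (.cons (nat_lit 687) (nat_lit 7772) (nat_lit 512) .nil))))))))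
(.leaf (.mk (nat_lit 10) (nat_lit 0x80000000800000008000000000000000000000000000000000000000000000000000) (nat_lit 0x10000000700000007c00000ffe0000077c00000e7f0000077e00000fff000001f80000017000000000000000000000000000) (.cons (nat_lit 687) (nat_lit 7693) (nat_lit 512) (.cons (nat_lit 782) (nat_lit 7694) (nat_lit 512) (.cons (nat_lit 686) (nat_lit 4951) (nat_lit 512) (.cons (nat_lit 687) (nat_lit 7695) (nat_lit 512) (.cons (nat_lit 718) (nat_lit 7696) (nat_lit 512) .nil)))))))))
(.node (nat_lit 2)
(.node (nat_lit 1)
(.leaf (.mk (nat_lit 11) (nat_lit 0x8000000080000000800000000000000000000000000000000000000000000000000000000000) (nat_lit 0x500000037800000ff800003fff00003fff00003fff00001f7f00001f7f00000e7e0000047f0000007e000000780000007800000000000000000000000000) (.cons (nat_lit 847) (nat_lit 6302) (nat_lit 512) (.cons (nat_lit 847) (nat_lit 6303) (nat_lit 512) (.cons (nat_lit 750) (nat_lit 6304) (nat_lit 512) (.cons (nat_lit 750) (nat_lit 6305) (nat_lit 512) (.cons (nat_lit 813) (nat_lit 6306) (nat_lit 512) (.cons (nat_lit 878) (nat_lit 6307)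 (nat_lit 512) (.cons (nat_lit 847) (nat_lit 6308) (nat_lit 512) (.cons (nat_lit 750) (nat_lit 6309) (nat_lit 512) (.cons (nat_lit 750) (nat_lit 6310) (nat_lit 512) (.cons (nat_lit 750) (nat_lit 6311) (nat_lit 512) (.cons (nat_lit 847) (nat_lit 4146) (nat_lit 512) (.cons (nat_lit 847) (nat_lit 6312) (nat_lit 512) (.cons (nat_lit 847) (nat_lit 6313) (nat_lit 512) .nil)))))))))))))))
(.leaf (.mk (nat_lit 12) (nat_lit 0x80000000800000008000000000000000000000000000000000000000000000000000) (nat_lit 0x14000000be800000ff800001ffc00001ffc00001f7c00001e3c00001f7c00001ffc00001ffc00000ff800000be8000001400000000000) (.cons (nat_lit 815) (nat_lit 5845) (nat_lit 512) (.cons (nat_lit 687) (nat_lit 4946) (nat_lit 512) (.cons (nat_lit 815) (nat_lit 5846) (nat_lit 512) (.cons (nat_lit 687) (nat_lit 5847) (nat_lit 512) (.cons (nat_lit 815) (nat_lit 5848) (nat_lit 512) (.cons (nat_lit 687) (nat_lit 5849) (nat_lit 512) .nil)))))))))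
(.node (nat_lit 1)
(.leaf (.mk (nat_lit 10) (nat_lit 0x80000000800000008000000000000000000000000000000000000000000000000000) (nat_lit 0x3f4000007ff80000fff00000ff380000fe7f0000ff7e0000ffff00007ffe00007ffc00007ff000000ef000000e7000) (.cons (nat_lit 815) (nat_lit 5253) (nat_lit 512) (.cons (nat_lit 686) (nat_lit 4951) (nat_lit 512) (.cons (nat_lit 815) (nat_lit 5254) (nat_lit 512) (.cons (nat_lit 718) (nat_lit 5255) (nat_lit 512) (.cons (nat_lit 720) (nat_lit 5256) (nat_lit 512) (.cons (nat_lit 722) (nat_lit 5257) (nat_lit 512) (.cons (nat_lit 687) (nat_lit 4946) (nat_lit 512) .nil)))))))))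
(.leaf (.mk (nat_lit 10) (nat_lit 0x80000000800000008000000000000000000000000000000000000000000000000000) (nat_lit 0x34000000fc000000fc000001fe800003fbc00001f7800007e7e00003f7e00007ffe00001ff800000ff800000f60000000000000000000) (.cons (nat_lit 687) (nat_lit 4945) (nat_lit 512) (.cons (nat_lit 687) (nat_lit 4946) (nat_lit 512) (.cons (nat_lit 718) (nat_lit 4947) (nat_lit 512) (.cons (nat_lit 720) (nat_lit 4948) (nat_lit 512) (.cons (nat_lit 815) (nat_lit 4949) (nat_lit 512) (.cons (nat_lit 784) (nat_lit 4215) (nat_lit 512) (.cons (nat_lit 720) (nat_lit 4950) (nat_lit 512) (.cons (nat_lit 686) (nat_lit 4951) (nat_lit 512) .nil)))))))))))))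
(.node (nat_lit 4)
(.node (nat_lit 2)
(.node (nat_lit 1)
(.leaf (.mk (nat_lit 10) (nat_lit 0x80000000800000008000000000000000000000000000000000000000000000000000) (nat_lit 0xe7000000ef000007ff000007ffc00007ffe0000ffff0000ff7e0000fe7f0000ff380000fff000007ff800003f4000000000000000000000000000) (.cons (nat_lit 688) (nat_lit 4211) (nat_lit 512) (.cons (nat_lit 687) (nat_lit 4212) (nat_lit 512) (.cons (nat_lit 687) (nat_lit 4213) (nat_lit 512) (.cons (nat_lit 782) (nat_lit 4214) (nat_lit 512) (.cons (nat_lit 784) (nat_lit 4215) (nat_lit 512) (.cons (nat_lit 786) (nat_lit 4216) (nat_lit 512) (.cons (nat_lit 687) (nat_lit 4217) (nat_lit 512) .nil)))))))))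
(.leaf (.mk (nat_lit 8) (nat_lit 0x8000000080000000800000000000000000000000000000000000000000000000000000000000) (nat_lit 0x140000001f0000007f8000001600000014000000e7c000007f800000ff8000001400000000000000000000000000000000000) (.cons (nat_lit 719) (nat_lit 596) (nat_lit 578) (.cons (nat_lit 847) (nat_lit 4195) (nat_lit 512) (.cons (nat_lit 719) (nat_lit 4196) (nat_lit 512) (.cons (nat_lit 719) (nat_lit 4197) (nat_lit 512) .nil)))))))
(.node (nat_lit 1)
(.leaf (.mk (nat_lit 9) (nat_lit 0x8000000080000000800000000000000000000000000000000000000000000000000000000000) (nat_lit 0x180000001c0000001f8000007f80000075c0000076000000670000007c0000007c0000001c0000001c000000040000000000000000000) (.cons (nat_lit 719) (nat_lit 135) (nat_lit 581) (.cons (nat_lit 847) (nat_lit 4146) (nat_lit 512) (.cons (nat_lit 846) (nat_lit 4147) (nat_lit 512) (.cons (nat_lit 719) (nat_lit 4148) (nat_lit 512) (.cons (nat_lit 848) (nat_lit 4149) (nat_lit 512) (.cons (nat_lit 719) (nat_lit 4150) (nat_lit 512) .nil))))))))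
(.leaf (.mk (nat_lit 7) (nat_lit 0x80000000800000008000000080000000000000000000000000000000000000000000) (nat_lit 0x4000000040000000400000075c00000778000001f80000014000000000000000000000000000) (.cons (nat_lit 654) (nat_lit 72) (nat_lit 546) (.cons (nat_lit 656) (nat_lit 602) (nat_lit 546) (.cons (nat_lit 654) (nat_lit 561) (nat_lit 578) (.cons (nat_lit 688) (nat_lit 4139) (nat_lit 512) .nil))))))))
(.node (nat_lit 2)
(.node (nat_lit 1)
(.leaf (.mk (nat_lit 7) (nat_lit 0x80000000800000008000000080000000000000000000000000000000000000000000) (nat_lit 0xf780000077800000e7c00000f700000076000000f400000000000000000000000000000000000) (.cons (nat_lit 688) (nat_lit 4131) (nat_lit 512) (.cons (nat_lit 784) (nat_lit 4132) (nat_lit 512) .nil))))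
(.leaf (.mk (nat_lit 10) (nat_lit 0xc0000000800000000000000080000000000000000000000000000000000000000000) (nat_lit 0x400000007800000078000000780000077f0000073e00000e7f000001fe0000017f000001b00000013000000000000000000000000000) (.cons (nat_lit 719) (nat_lit 510) (nat_lit 546) (.cons (nat_lit 781) (nat_lit 4048) (nat_lit 512) (.cons (nat_lit 784) (nat_lit 4049) (nat_lit 512) (.cons (nat_lit 781) (nat_lit 4050) (nat_lit 512) .nil)))))))
(.node (nat_lit 1)
(.leaf (.mk (nat_lit 9) (nat_lit 0x800000008000000000000000c0000000000000000000000000000000000000000000) (nat_lit 0x2200000022000000ffc0000073800000ffc000007f8000007fc000002e0000000e000) (.cons (nat_lit 688) (nat_lit 3315) (nat_lit 512) (.cons (nat_lit 654) (nat_lit 3165) (nat_lit 512) (.cons (nat_lit 688) (nat_lit 4008) (nat_lit 512) (.cons (nat_lit 719) (nat_lit 4009) (nat_lit 512) (.cons (nat_lit 688) (nat_lit 4010) (nat_lit 512) (.cons (nat_lit 688) (nat_lit 4011) (nat_lit 512) (.cons (nat_lit 688) (nat_lit 4012) (nat_lit 512) (.cons (nat_lit 719) (nat_lit 4013) (nat_lit 512) .nil))))))))))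
(.leaf (.mk (nat_lit 8) (nat_lit 0x80000000800000008000000080000000000000000000000000000000000000000000) (nat_lit 0x74000000740000006600000076000000740000001c00000014000000000000000000000000000) (.cons (nat_lit 654) (nat_lit 72) (nat_lit 546) (.cons (nat_lit 656) (nat_lit 602) (nat_lit 546) (.cons (nat_lit 654) (nat_lit 561) (nat_lit 578) (.cons (nat_lit 782) (nat_lit 3991) (nat_lit 512) .nil)))))))))))
(.node (nat_lit 16)
(.node (nat_lit 8)
(.node (nat_lit 4)
(.node (nat_lit 2)
(.node (nat_lit 1)
(.leaf (.mk (nat_lit 11) (nat_lit 0x80000000800000008000000080000000000000000000000000000000000000000000) (nat_lit 0xa0000000e2800000e3800001f7800000f7800001e7e00000f7c00001f3e00001ff800000ffc000009f8000001680000000000) (.cons (nat_lit 656) (nat_lit 602) (nat_lit 546) (.cons (nat_lit 782) (nat_lit 3739) (nat_lit 512) (.cons (nat_lit 718) (nat_lit 3740) (nat_lit 512) (.cons (nat_lit 784) (nat_lit 3741) (nat_lit 512) (.cons (nat_lit 784) (nat_lit 3742) (nat_lit 512) .nil)))))))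
(.leaf (.mk (nat_lit 11) (nat_lit 0x80000000800000008000000080000000000000000000000000000000000000000000) (nat_lit 0x2800000a3800000e3800000f7c00000f7800000e7c00000f7800000e7800000ffc00000bf8000009c8000001c00000014000) (.cons (nat_lit 784) (nat_lit 3553) (nat_lit 512) (.cons (nat_lit 655) (nat_lit 3554) (nat_lit 512) (.cons (nat_lit 782) (nat_lit 3555) (nat_lit 512) (.cons (nat_lit 685) (nat_lit 3556) (nat_lit 512) (.cons (nat_lit 782) (nat_lit 3557) (nat_lit 512) .nil))))))))
(.node (nat_lit 1)
(.leaf (.mk (nat_lit 9) (nat_lit 0x800000008000000000000000c0000000000000000000000000000000000000000000) (nat_lit 0x70000001780000017c0000007800001fff00000f3e00000eff000000f0000000f0000000f00000000000) (.cons (nat_lit 719) (nat_lit 3484) (nat_lit 512) (.cons (nat_lit 654) (nat_lit 3485) (nat_lit 512) (.cons (nat_lit 719) (nat_lit 3486) (nat_lit 512) (.cons (nat_lit 685) (nat_lit 3487) (nat_lit 512) (.cons (nat_lit 685) (nat_lit 3488) (nat_lit 512) (.cons (nat_lit 685) (nat_lit 3489) (nat_lit 512) .nil))))))))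
(.leaf (.mk (nat_lit 9) (nat_lit 0x80000000800000000000000180000000000000000000000000000000000000000000) (nat_lit 0x70000000f0000000f6000000e2000007fbe00003e7c00007ffe00003ff000001ff000000ff0000003c000) (.cons (nat_lit 686) (nat_lit 3315) (nat_lit 512) (.cons (nat_lit 686) (nat_lit 3316) (nat_lit 512) (.cons (nat_lit 656) (nat_lit 3317) (nat_lit 512) (.cons (nat_lit 656) (nat_lit 3318) (nat_lit 512) (.cons (nat_lit 689) (nat_lit 3319) (nat_lit 512) (.cons (nat_lit 689) (nat_lit 3320) (nat_lit 512) (.cons (nat_lit 689) (nat_lit 3321) (nat_lit 512) .nil)))))))))))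
(.node (nat_lit 2)
(.node (nat_lit 1)
(.leaf (.mk (nat_lit 9) (nat_lit 0x800000008000000000000000c0000000000000000000000000000000000000000000) (nat_lit 0x7000000078000003780000023800003eff00001f3e00003fff000007fe000007fc000007f8000001e000) (.cons (nat_lit 688) (nat_lit 3162) (nat_lit 512) (.cons (nat_lit 688) (nat_lit 3163) (nat_lit 512) (.cons (nat_lit 654) (nat_lit 3164) (nat_lit 512) (.cons (nat_lit 654) (nat_lit 3165) (nat_lit 512) (.cons (nat_lit 685) (nat_lit 3166) (nat_lit 512) (.cons (nat_lit 685) (nat_lit 3167) (nat_lit 512) (.cons (nat_lit 685) (nat_lit 3168) (nat_lit 512) .nil)))))))))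
(.leaf (.mk (nat_lit 8) (nat_lit 0x800000008000000000000000e0000000000000000000000000000000000000000000) (nat_lit 0x170000000700000073c00000f1c000007fe0000007800000018000000100000000000) (.cons (nat_lit 688) (nat_lit 3140) (nat_lit 512) (.cons (nat_lit 652) (nat_lit 3141) (nat_lit 512) (.cons (nat_lit 688) (nat_lit 1889) (nat_lit 512) (.cons (nat_lit 684) (nat_lit 3142) (nat_lit 512) (.cons (nat_lit 688) (nat_lit 3143) (nat_lit 512) (.cons (nat_lit 684) (nat_lit 2763) (nat_lit 511) (.cons (nat_lit 688) (nat_lit 3144) (nat_lit 512) .nil))))))))))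
(.node (nat_lit 1)
(.leaf (.mk (nat_lit 7) (nat_lit 0x800000008000000000000000e0000000000000000000000000000000000000000000) (nat_lit 0x4000000078000000780000037c000000780000007f0000031e000000ff0000007000000070000000100000000000) (.cons (nat_lit 684) (nat_lit 1941) (nat_lit 512) (.cons (nat_lit 653) (nat_lit 3050) (nat_lit 512) (.cons (nat_lit 717) (nat_lit 3051) (nat_lit 512) (.cons (nat_lit 716) (nat_lit 3052) (nat_lit 512) (.cons (nat_lit 684) (nat_lit 3053) (nat_lit 512) (.cons (nat_lit 684) (nat_lit 3054) (nat_lit 512) (.cons (nat_lit 718) (nat_lit 3055) (nat_lit 512) (.cons (nat_lit 717) (nat_lit 3056) (nat_lit 512) (.cons (nat_lit 718) (nat_lit 3057) (nat_lit 512) .nil)))))))))))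
(.leaf (.mk (nat_lit 11) (nat_lit 0xe0000000000000000000000000000000000000000000) (nat_lit 0x70000007780000071800000ff8000007f8000003f8000003f80000002800) (.cons (nat_lit 688) (nat_lit 2966) (nat_lit 512) (.cons (nat_lit 688) (nat_lit 2473) (nat_lit 512) (.cons (nat_lit 684) (nat_lit 2967) (nat_lit 512) (.cons (nat_lit 688) (nat_lit 1760) (nat_lit 512) (.cons (nat_lit 684) (nat_lit 2968) (nat_lit 512) (.cons (nat_lit 688) (nat_lit 2969) (nat_lit 512) .nil)))))))))))
(.node (nat_lit 4)
(.node (nat_lit 2)
(.node (nat_lit 1)
(.leaf (.mk (nat_lit 8) (nat_lit 0x800000008000000000000000e0000000000000000000000000000000000000000000) (nat_lit 0x50000000700000077c000000780000077f0000071e00000fee00000fe0000003e0000003800000000000) (.cons (nat_lit 688) (nat_lit 1760) (nat_lit 512) (.cons (nat_lit 684) (nat_lit 2922) (nat_lit 512) (.cons (nat_lit 688) (nat_lit 2923) (nat_lit 512) (.cons (nat_lit 688) (nat_lit 2924) (nat_lit 512) (.cons (nat_lit 684) (nat_lit 2925) (nat_lit 512) (.cons (nat_lit 688) (nat_lit 2926) (nat_lit 512) (.cons (nat_lit 688) (nat_lit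 2927) (nat_lit 512) .nil)))))))))
(.leaf (.mk (nat_lit 9) (nat_lit 0x800000008000000000000000e0000000000000000000000000000000000000000000) (nat_lit 0x4000000070000007780000077c0000007c00000f7c00000f0000001ff800000ffc000007fc00000ffc0000000000) (.cons (nat_lit 688) (nat_lit 1889) (nat_lit 512) (.cons (nat_lit 750) (nat_lit 2824) (nat_lit 512) (.cons (nat_lit 688) (nat_lit 2610) (nat_lit 512) (.cons (nat_lit 717) (nat_lit 2894) (nat_lit 512) (.cons (nat_lit 688) (nat_lit 1890) (nat_lit 512) (.cons (nat_lit 688) (nat_lit 1856) (nat_lit 512) (.cons (nat_lit 688) (nat_lit 2895) (nat_lit 512) .nil))))))))))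
(.node (nat_lit 1)
(.leaf (.mk (nat_lit 9) (nat_lit 0x800000008000000000000000e0000000000000000000000000000000000000000000) (nat_lit 0x5000000070000007780000077c0000007c0000007f0000001e000003fe000007f8000007f8000000f80000000000) (.cons (nat_lit 684) (nat_lit 1816) (nat_lit 512) (.cons (nat_lit 684) (nat_lit 2823) (nat_lit 512) (.cons (nat_lit 750) (nat_lit 2824) (nat_lit 512) (.cons (nat_lit 684) (nat_lit 2735) (nat_lit 512) (.cons (nat_lit 750) (nat_lit 2825) (nat_lit 512) (.cons (nat_lit 750) (nat_lit 2826) (nat_lit 512) (.cons (nat_lit 684) (nat_lit 2243) (nat_lit 512) (.cons (nat_lit 684) (nat_lit 2827) (nat_lit 512) (.cons (nat_lit 654) (nat_lit 2475) (nat_lit 512) (.cons (nat_lit 684) (nat_lit 2828) (nat_lit 512) .nil))))))))))))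
(.leaf (.mk (nat_lit 8) (nat_lit 0x800000008000000000000000e0000000000000000000000000000000000000000000) (nat_lit 0x50000000500000007f0000071e00000fff000001f8000000f8000000500000000000) (.cons (nat_lit 688) (nat_lit 2763) (nat_lit 512) (.cons (nat_lit 684) (nat_lit 1939) (nat_lit 512) (.cons (nat_lit 684) (nat_lit 2764) (nat_lit 512) (.cons (nat_lit 688) (nat_lit 2765) (nat_lit 512) (.cons (nat_lit 653) (nat_lit 2766) (nat_lit 512) (.cons (nat_lit 688) (nat_lit 2767) (nat_lit 512) (.cons (nat_lit 684) (nat_lit 2768) (nat_lit 512) (.cons (nat_lit 656) (nat_lit 2769) (nat_lit 512) (.cons (nat_lit 684) (nat_lit 2770) (nat_lit 512) (.cons (nat_lit 684) (nat_lit 2771) (nat_lit 512) (.cons (nat_lit 652) (nat_lit 1945) (nat_lit 512) .nil)))))))))))))))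
(.node (nat_lit 2)
(.node (nat_lit 1)
(.leaf (.mk (nat_lit 10) (nat_lit 0x800000008000000000000000e0000000000000000000000000000000000000000000) (nat_lit 0x70000000780000017c0000007c0000077e0000071c00000fdc00000ff8000007f800000ff80000000000) (.cons (nat_lit 684) (nat_lit 1941) (nat_lit 512) (.cons (nat_lit 688) (nat_lit 2476) (nat_lit 512) (.cons (nat_lit 684) (nat_lit 2735) (nat_lit 512) (.cons (nat_lit 717) (nat_lit 2736) (nat_lit 512) (.cons (nat_lit 688) (nat_lit 2029) (nat_lit 512) (.cons (nat_lit 684) (nat_lit 2611) (nat_lit 512) (.cons (nat_lit 656) (nat_lit 2737) (nat_lit 512) .nil)))))))))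
(.leaf (.mk (nat_lit 10) (nat_lit 0x800000008000000000000000e0000000000000000000000000000000000000000000) (nat_lit 0x3800000f780000077c0000027c0000075e0000071e00000ffe00000ffc000007f800000ffc0000000000) (.cons (nat_lit 688) (nat_lit 255) (nat_lit 578) (.cons (nat_lit 684) (nat_lit 1816) (nat_lit 512) (.cons (nat_lit 688) (nat_lit 2610) (nat_lit 512) (.cons (nat_lit 684) (nat_lit 2611) (nat_lit 512) (.cons (nat_lit 684) (nat_lit 2245) (nat_lit 512) (.cons (nat_lit 688) (nat_lit 2030) (nat_lit 512) (.cons (nat_lit 750) (nat_lit 2612) (nat_lit 512) (.cons (nat_lit 684) (nat_lit 2613) (nat_lit 512) .nil)))))))))))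
(.node (nat_lit 1)
(.leaf (.mk (nat_lit 7) (nat_lit 0x800000000000000000000000e0000000000000000000000000000000000000000000) (nat_lit 0x100000003800000178000000380000077c00000718000007fc000001f000000070000000700000005000) (.cons (nat_lit 688) (nat_lit 2242) (nat_lit 512) (.cons (nat_lit 684) (nat_lit 2578) (nat_lit 512) (.cons (nat_lit 688) (nat_lit 255) (nat_lit 578) (.cons (nat_lit 717) (nat_lit 2579) (nat_lit 512) (.cons (nat_lit 653) (nat_lit 2580) (nat_lit 512) .nil)))))))
(.leaf (.mk (nat_lit 9) (nat_lit 0x800000008000000000000000e0000000000000000000000000000000000000000000) (nat_lit 0x7000000f7c0000077800000e7c0000076e0000071e00000ffe00000ff8000007f0000003f00000000000) (.cons (nat_lit 688) (nat_lit 2473) (nat_lit 512) (.cons (nat_lit 653) (nat_lit 2474) (nat_lit 512) (.cons (nat_lit 654) (nat_lit 2475) (nat_lit 512) (.cons (nat_lit 688) (nat_lit 2476) (nat_lit 512) (.cons (nat_lit 782) (nat_lit 2244) (nat_lit 512) .nil)))))))))))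
(.node (nat_lit 8)
(.node (nat_lit 4)
(.node (nat_lit 2)
(.node (nat_lit 1)
(.leaf (.mk (nat_lit 9) (nat_lit 0x800000008000000000000000e0000000000000000000000000000000000000000000) (nat_lit 0x7800000f7c0000077c00000e7c0000077f0000071e00000fbe0000007000000070000000500000000000) (.cons (nat_lit 688) (nat_lit 2242) (nat_lit 512) (.cons (nat_lit 684) (nat_lit 2243) (nat_lit 512) (.cons (nat_lit 688) (nat_lit 1856) (nat_lit 512) (.cons (nat_lit 782) (nat_lit 2244) (nat_lit 512) (.cons (nat_lit 684) (nat_lit 2245) (nat_lit 512) (.cons (nat_lit 684) (nat_lit 2246) (nat_lit 512) (.cons (nat_lit 688) (nat_lit 2247) (nat_lit 512) .nil)))))))))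
(.leaf (.mk (nat_lit 11) (nat_lit 0x800000008000000000000000e0000000000000000000000000000000000000000000) (nat_lit 0x1800000138000000780000077f0000031e0000077f00000ffc000007fc00000ffc000002d000) (.cons (nat_lit 652) (nat_lit 2025) (nat_lit 512) (.cons (nat_lit 684) (nat_lit 2026) (nat_lit 512) (.cons (nat_lit 688) (nat_lit 2027) (nat_lit 512) (.cons (nat_lit 684) (nat_lit 2028) (nat_lit 512) (.cons (nat_lit 688) (nat_lit 2029) (nat_lit 512) (.cons (nat_lit 688) (nat_lit 2030) (nat_lit 512) (.cons (nat_lit 688) (nat_lit 2031) (nat_lit 512) (.cons (nat_lit 652) (nat_lit 2032) (nat_lit 512) .nil)))))))))))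
(.node (nat_lit 1)
(.leaf (.mk (nat_lit 8) (nat_lit 0x800000008000000000000000e0000000000000000000000000000000000000000000) (nat_lit 0x500000007000000078000000600000077f0000031e000007fe000003fc000001f8000001f00000014000) (.cons (nat_lit 684) (nat_lit 1939) (nat_lit 512) (.cons (nat_lit 688) (nat_lit 1940) (nat_lit 512) (.cons (nat_lit 684) (nat_lit 1941) (nat_lit 512) (.cons (nat_lit 684) (nat_lit 1942) (nat_lit 512) (.cons (nat_lit 684) (nat_lit 1943) (nat_lit 512) (.cons (nat_lit 717) (nat_lit 1944) (nat_lit 512) (.cons (nat_lit 652) (nat_lit 1945) (nat_lit 512) (.cons (nat_lit 684) (nat_lit 1818) (nat_lit 512) .nil))))))))))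
(.leaf (.mk (nat_lit 8) (nat_lit 0x800000008000000000000000e0000000000000000000000000000000000000000000) (nat_lit 0x4000000060000000700000077c00000078000007700000071800000ffc00000ff0000003f0000003d00000000000) (.cons (nat_lit 688) (nat_lit 1885) (nat_lit 512) (.cons (nat_lit 688) (nat_lit 1886) (nat_lit 512) (.cons (nat_lit 750) (nat_lit 1887) (nat_lit 512) (.cons (nat_lit 688) (nat_lit 1888) (nat_lit 512) (.cons (nat_lit 688) (nat_lit 1856) (nat_lit 512) (.cons (nat_lit 688) (nat_lit 1889) (nat_lit 512) (.cons (nat_lit 688) (nat_lit 1890) (nat_lit 512) (.cons (nat_lit 688) (nat_lit 1763) (nat_lit 512) .nil))))))))))))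
(.node (nat_lit 2)
(.node (nat_lit 1)
(.leaf (.mk (nat_lit 8) (nat_lit 0x800000008000000000000000e0000000000000000000000000000000000000000000) (nat_lit 0x4000000060000000700000037c000000780000077c00000f1c00000ff0000003f0000003f0000001d00000000000) (.cons (nat_lit 688) (nat_lit 1760) (nat_lit 512) (.cons (nat_lit 750) (nat_lit 1854) (nat_lit 512) (.cons (nat_lit 688) (nat_lit 1855) (nat_lit 512) (.cons (nat_lit 688) (nat_lit 1856) (nat_lit 512) (.cons (nat_lit 688) (nat_lit 1857) (nat_lit 512) .nil)))))))
(.leaf (.mk (nat_lit 8) (nat_lit 0x800000008000000000000000e0000000000000000000000000000000000000000000) (nat_lit 0x800000178000000780000077e0000031e000007fe0000005800000038000000380000002000) (.cons (nat_lit 688) (nat_lit 1759) (nat_lit 512) (.cons (nat_lit 684) (nat_lit 1816) (nat_lit 512) (.cons (nat_lit 652) (nat_lit 1817) (nat_lit 512) (.cons (nat_lit 684) (nat_lit 1818) (nat_lit 512) (.cons (nat_lit 684) (nat_lit 1819) (nat_lit 512) (.cons (nat_lit 688) (nat_lit 1820) (nat_lit 512) .nil)))))))))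
(.node (nat_lit 1)
(.leaf (.mk (nat_lit 7) (nat_lit 0x800000008000000000000000e0000000000000000000000000000000000000000000) (nat_lit 0x10000001700000007000000f7c00000f1800000ffc0000003800000078000000700000004000) (.cons (nat_lit 688) (nat_lit 1759) (nat_lit 512) (.cons (nat_lit 688) (nat_lit 1760) (nat_lit 512) (.cons (nat_lit 684) (nat_lit 1761) (nat_lit 512) (.cons (nat_lit 716) (nat_lit 1762) (nat_lit 512) (.cons (nat_lit 688) (nat_lit 1763) (nat_lit 512) (.cons (nat_lit 688) (nat_lit 1764) (nat_lit 512) .nil))))))))
(.leaf (.mk (nat_lit 8) (nat_lit 0x80000000e000000000000000a0000000000000000000000000000000000000000000) (nat_lit 0x30000000300000007000000778000000100000007000000110000001f00000007000000040000000000000000000) (.cons (nat_lit 784) (nat_lit 583) (nat_lit 512) (.cons (nat_lit 717) (nat_lit 1743) (nat_lit 512) (.cons (nat_lit 748) (nat_lit 1744) (nat_lit 512) .nil))))))))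
(.node (nat_lit 4)
(.node (nat_lit 2)
(.node (nat_lit 1)
(.leaf (.mk (nat_lit 6) (nat_lit 0x80000000b00000000000000020000000000000000000000000000000000000000000) (nat_lit 0x7000000070000000780000007c0000017c0000004c0000007c00000018000000100000000000000000000000000000000000) (.cons (nat_lit 750) (nat_lit 468) (nat_lit 512) (.cons (nat_lit 781) (nat_lit 1723) (nat_lit 512) (.cons (nat_lit 780) (nat_lit 1724) (nat_lit 512) (.cons (nat_lit 750) (nat_lit 179) (nat_lit 546) (.cons (nat_lit 781) (nat_lit 1725) (nat_lit 512) (.cons (nat_lit 750) (nat_lit 512) (nat_lit 512) .nil))))))))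
(.leaf (.mk (nat_lit 9) (nat_lit 0x80000000b000000000000000a0000000000000000000000000000000000000000000) (nat_lit 0x5c0000005c0000015f0000004e0000007f0000031f000001ff000003fe0000007c000000000000000000) (.cons (nat_lit 750) (nat_lit 468) (nat_lit 512) (.cons (nat_lit 717) (nat_lit 1658) (nat_lit 512) (.cons (nat_lit 750) (nat_lit 512) (nat_lit 512) (.cons (nat_lit 750) (nat_lit 896) (nat_lit 512) .nil)))))))
(.node (nat_lit 1)
(.leaf (.mk (nat_lit 10) (nat_lit 0x80000000b00000000000000020000000000000000000000000000000000000000000) (nat_lit 0x380000003e000001ff000001ff0000007f0000017f0000004f0000001f0000001f000001ff0000003e0000001c000000140000000000) (.cons (nat_lit 750) (nat_lit 468) (nat_lit 512) (.cons (nat_lit 750) (nat_lit 1029) (nat_lit 512) (.cons (nat_lit 750) (nat_lit 512) (nat_lit 512) (.cons (nat_lit 780) (nat_lit 1030) (nat_lit 512) (.cons (nat_lit 750) (nat_lit 898) (nat_lit 512) .nil)))))))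
(.leaf (.mk (nat_lit 11) (nat_lit 0xc0000000a00000000000000020000000000000000000000000000000000000000000) (nat_lit 0x2000000ffc000007f800000ffc00000f7e0000073f00000e5e0000027f0000020e000000260000000000000000000000000000000000) (.cons (nat_lit 717) (nat_lit 934) (nat_lit 512) (.cons (nat_lit 784) (nat_lit 935) (nat_lit 512) (.cons (nat_lit 748) (nat_lit 936) (nat_lit 512) (.cons (nat_lit 781) (nat_lit 937) (nat_lit 512) (.cons (nat_lit 814) (nat_lit 938) (nat_lit 512) (.cons (nat_lit 750) (nat_lit 939) (nat_lit 512) (.cons (nat_lit 784) (nat_lit 940) (nat_lit 512) .nil)))))))))))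
(.node (nat_lit 2)
(.node (nat_lit 1)
(.leaf (.mk (nat_lit 10) (nat_lit 0x80000000b000000000000000a0000000000000000000000000000000000000000000) (nat_lit 0x40000000480000006e0000017f0000004e0000007f0000071e000003fe0000076e0000004a000000000000000000) (.cons (nat_lit 750) (nat_lit 468) (nat_lit 512) (.cons (nat_lit 750) (nat_lit 896) (nat_lit 512) (.cons (nat_lit 750) (nat_lit 512) (nat_lit 512) (.cons (nat_lit 717) (nat_lit 897) (nat_lit 512) (.cons (nat_lit 750) (nat_lit 898) (nat_lit 512) .nil)))))))
(.leaf (.mk (nat_lit 9) (nat_lit 0x80000000b000000000000000a0000000000000000000000000000000000000000000) (nat_lit 0x20000000380000003c0000001c0000013f0000004e0000007f0000011e000001ff0000007800000070000000000000000000) (.cons (nat_lit 750) (nat_lit 179) (nat_lit 546) (.cons (nat_lit 750) (nat_lit 515) (nat_lit 512) (.cons (nat_lit 717) (nat_lit 863) (nat_lit 512) (.cons (nat_lit 750) (nat_lit 864) (nat_lit 512) (.cons (nat_lit 750) (nat_lit 472) (nat_lit 512) .nil))))))))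
(.node (nat_lit 1)
(.leaf (.mk (nat_lit 11) (nat_lit 0xa0000000a000000000000000a0000000000000000000000000000000000000000000) (nat_lit 0x50000000780000007c000003fe000001fe0000077e0000075e00000e1f0000007f0000071e000003ff0000077e0000007e0000003c0000000000) (.cons (nat_lit 748) (nat_lit 604) (nat_lit 512) (.cons (nat_lit 717) (nat_lit 605) (nat_lit 512) (.cons (nat_lit 782) (nat_lit 606) (nat_lit 512) (.cons (nat_lit 813) (nat_lit 607) (nat_lit 512) (.cons (nat_lit 813) (nat_lit 608) (nat_lit 512) (.cons (nat_lit 782) (nat_lit 609) (nat_lit 512) (.cons (nat_lit 717) (nat_lit 610) (nat_lit 512) (.cons (nat_lit 717) (nat_lit 611) (nat_lit 512) .nil))))))))))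
(.leaf (.mk (nat_lit 6) (nat_lit 0x80000000a000000020000000a0000000000000000000000000000000000000000000) (nat_lit 0x50000000700000007e0000005c0000005c00000118000001f00000007000000070000000100000000000) (.cons (nat_lit 653) (nat_lit 596) (nat_lit 512) (.cons (nat_lit 653) (nat_lit 597) (nat_lit 512) (.cons (nat_lit 781) (nat_lit 598) (nat_lit 512) (.cons (nat_lit 653) (nat_lit 599) (nat_lit 512) .nil))))))))))))
(.node (nat_lit 32)
(.node (nat_lit 16)
(.node (nat_lit 8)
(.node (nat_lit 4)
(.node (nat_lit 2)
(.node (nat_lit 1)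
(.leaf (.mk (nat_lit 7) (nat_lit 0x80000000a000000020000000a0000000000000000000000000000000000000000000) (nat_lit 0x400000007000000070000007700000076e0000005c0000005c00000118000001f00000007000000070000000100000000000) (.cons (nat_lit 782) (nat_lit 535) (nat_lit 512) (.cons (nat_lit 750) (nat_lit 536) (nat_lit 512) (.cons (nat_lit 750) (nat_lit 537) (nat_lit 512) (.cons (nat_lit 653) (nat_lit 538) (nat_lit 512) (.cons (nat_lit 782) (nat_lit 539) (nat_lit 512) (.cons (nat_lit 653) (nat_lit 540) (nat_lit 512) (.cons (nat_lit 781) (nat_lit 541) (nat_lit 512) (.cons (nat_lit 781) (nat_lit 542) (nat_lit 512) .nil))))))))))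
(.leaf (.mk (nat_lit 7) (nat_lit 0x80000000e000000000000000a0000000000000000000000000000000000000000000) (nat_lit 0x400000006000000070000000700000077c000000180000006000000118000001f00000007000000050000000000000000000) (.cons (nat_lit 748) (nat_lit 512) (nat_lit 512) (.cons (nat_lit 748) (nat_lit 513) (nat_lit 512) (.cons (nat_lit 717) (nat_lit 514) (nat_lit 512) (.cons (nat_lit 748) (nat_lit 515) (nat_lit 512) .nil)))))))
(.node (nat_lit 1)
(.leaf (.mk (nat_lit 10) (nat_lit 0x80000000b000000000000000a0000000000000000000000000000000000000000000) (nat_lit 0x28000000380000007c000001760000004e0000007e0000071e000003f80000077000000050000000000000000000) (.cons (nat_lit 750) (nat_lit 468) (nat_lit 512) (.cons (nat_lit 717) (nat_lit 469) (nat_lit 512) (.cons (nat_lit 717) (nat_lit 470) (nat_lit 512) (.cons (nat_lit 750) (nat_lit 471) (nat_lit 512) (.cons (nat_lit 750) (nat_lit 472) (nat_lit 512) .nil)))))))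
(.leaf (.mk (nat_lit 6) (nat_lit 0x80000000200000002000000020000000200000000000000000000000000000000000) (nat_lit 0x100000007000000170000000400000000000000000000000500000007000000050000000000000000000) (.cons (nat_lit 620) (nat_lit 72) (nat_lit 512) (.cons (nat_lit 622) (nat_lit 465) (nat_lit 512) (.cons (nat_lit 620) (nat_lit 466) (nat_lit 512) .nil)))))))
(.node (nat_lit 2)
(.node (nat_lit 1)
(.leaf (.mk (nat_lit 7) (nat_lit 0xa0000000a00000002000000020000000000000000000000000000000000000000000) (nat_lit 0x500000007e0000015c0000004e0000001000000010000000100000000000000000000000000000000000) (.cons (nat_lit 684) (nat_lit 75) (nat_lit 512) (.cons (nat_lit 780) (nat_lit 460) (nat_lit 512) (.cons (nat_lit 684) (nat_lit 461) (nat_lit 512) .nil)))))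
(.leaf (.mk (nat_lit 10) (nat_lit 0xa000000020000000a0000000200000000000000000000000000000000000) (nat_lit 0x40000000480000005c0000011c000000dc0000007e00000050000000000000000000) (.cons (nat_lit 620) (nat_lit 72) (nat_lit 512) (.cons (nat_lit 622) (nat_lit 446) (nat_lit 512) (.cons (nat_lit 620) (nat_lit 447) (nat_lit 512) (.cons (nat_lit 750) (nat_lit 448) (nat_lit 512) .nil)))))))
(.node (nat_lit 1)
(.leaf (.mk (nat_lit 10) (nat_lit 0xa000000030000000a0000000000000000000000000000000000000000000) (nat_lit 0x52000000770000007f0000003f0000004f0000004e0000011f000003ff000000fe000003ff000000500000000000) (.cons (nat_lit 653) (nat_lit 144) (nat_lit 512) (.cons (nat_lit 781) (nat_lit 145) (nat_lit 512) (.cons (nat_lit 750) (nat_lit 146) (nat_lit 512) (.cons (nat_lit 715) (nat_lit 147) (nat_lit 512) (.cons (nat_lit 684) (nat_lit 148) (nat_lit 512) .nil)))))))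
(.leaf (.mk (nat_lit 10) (nat_lit 0xc0000000a00000002000000020000000000000000000000000000000000000000000) (nat_lit 0x200000007a0000037e0000033e0000004e0000005e0000001e0000002e0000000e0000000a000000000000000000) (.cons (nat_lit 781) (nat_lit 95) (nat_lit 512) (.cons (nat_lit 750) (nat_lit 96) (nat_lit 512) (.cons (nat_lit 750) (nat_lit 97) (nat_lit 512) .nil))))))))
(.node (nat_lit 4)
(.node (nat_lit 2)
(.node (nat_lit 1)
(.leaf (.mk (nat_lit 3) (nat_lit 0x200000002000000020000000200000001000000000000000000000000000) (nat_lit 0x500000006000000050000000000000000000) (.cons (nat_lit 652) (nat_lit 2) (nat_lit 414) (.cons (nat_lit 621) (nat_lit 93) (nat_lit 512) .nil))))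
(.leaf (.mk (nat_lit 5) (nat_lit 0x80000000200000002000000020000000300000000000000000000000000000000000) (nat_lit 0x100000007000000170000000000000000000000010000000000000001000000000000000000000000000) (.cons (nat_lit 620) (nat_lit 2) (nat_lit 414) (.cons (nat_lit 781) (nat_lit 92) (nat_lit 512) .nil)))))
(.node (nat_lit 1)
(.leaf (.mk (nat_lit 7) (nat_lit 0xa00000002000000020000000a0000000200000000000000000000000000000000000) (nat_lit 0x100000007000000150000000000000001000000710000003d00000076000000060000000000000000000) (.cons (nat_lit 684) (nat_lit 75) (nat_lit 512) (.cons (nat_lit 654) (nat_lit 76) (nat_lit 512) (.cons (nat_lit 622) (nat_lit 77) (nat_lit 512) .nil)))))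
(.leaf (.mk (nat_lit 3) (nat_lit 0x20000000200000002000000030000000000000000000000000000000000000000000) (nat_lit 0x100000003000000010000000000000001000000000000000100000000000000000000000000000000000) (.cons (nat_lit 652) (nat_lit 2) (nat_lit 446) (.cons (nat_lit 813) (nat_lit 90) (nat_lit 512) .nil))))))
(.node (nat_lit 2)
(.node (nat_lit 1)
(.leaf (.mk (nat_lit 6) (nat_lit 0x200000002000000020000000a0000000600000000000000000000000000000000000) (nat_lit 0x710000003900000074000000000000000000000000000) (.cons (nat_lit 622) (nat_lit 5) (nat_lit 415) (.cons (nat_lit 655) (nat_lit 81) (nat_lit 512) .nil))))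
(.leaf (.mk (nat_lit 4) (nat_lit 0xa0000000200000002000000020000000200000004000000000000000000000000000) (nat_lit 0x100000007000000150000000000000000000000000000000400000000000000000000000000000000000) (.cons (nat_lit 654) (nat_lit 5) (nat_lit 415) (.cons (nat_lit 812) (nat_lit 78) (nat_lit 512) .nil)))))
(.node (nat_lit 1)
(.leaf (.mk (nat_lit 3) (nat_lit 0x10000000a0000000200000002000000020000000000000000000000000000000000000000000) (nat_lit 0x100000006000000150000000000000000000000000000000000000000000000000000000000000000000) (.cons (nat_lit 780) (nat_lit 6) (nat_lit 478) (.cons (nat_lit 782) (nat_lit 79) (nat_lit 512) .nil))))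
(.leaf (.mk (nat_lit 2) (nat_lit 0x10000000e0000000200000002000000020000000000000000000000000000000000000000000) (nat_lit 0x100000006000000100000000000000000000000000000000000000000000000000000000000000000000) (.cons (nat_lit 814) (nat_lit 3) (nat_lit 479) (.cons (nat_lit 813) (nat_lit 80) (nat_lit 512) .nil))))))))
(.node (nat_lit 8)
(.node (nat_lit 4)
(.node (nat_lit 2)
(.node (nat_lit 1)
(.leaf (.mk (nat_lit 1) (nat_lit 0x30000000e0000000200000002000000000000000000000000000000000000000000000000000) (nat_lit 0x100000000000000100000000000000000000000000000000000000000000000000000000000000000000) (.cons (nat_lit 844) (nat_lit 6) (nat_lit 510) (.cons (nat_lit 784) (nat_lit 4) (nat_lit 574) .nil))))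
(.leaf (.mk (nat_lit 5) (nat_lit 0x200000002000000020000000a0000000e00000000000000000000000000000000000) (nat_lit 0x710000003100000070000000000000000000000000000) (.cons (nat_lit 652) (nat_lit 82) (nat_lit 512) (.cons (nat_lit 656) (nat_lit 83) (nat_lit 512) (.cons (nat_lit 688) (nat_lit 84) (nat_lit 512) (.cons (nat_lit 684) (nat_lit 85) (nat_lit 512) .nil)))))))
(.node (nat_lit 1)
(.leaf (.mk (nat_lit 1) (nat_lit 0x200000002000000020000000a0000000f00000000000000000000000000000000000) (nat_lit 0x110000000000000000000000000000000000000000000) (.cons (nat_lit 688) (nat_lit 0) (nat_lit 446) (.cons (nat_lit 684) (nat_lit 2) (nat_lit 446) .nil))))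
(.leaf (.mk (nat_lit 4) (nat_lit 0x20000001e00000000000000000000000000000000000) (nat_lit 0x710000002000000070000000000000000000000000000) (.cons (nat_lit 684) (nat_lit 4) (nat_lit 446) (.cons (nat_lit 625) (nat_lit 87) (nat_lit 512) .nil))))))
(.node (nat_lit 2)
(.node (nat_lit 1)
(.leaf (.mk (nat_lit 2) (nat_lit 0x180000000e00000000000000000000000000000000000) (nat_lit 0x600000001100000000000000000000000000000000000) (.cons (nat_lit 652) (nat_lit 0) (nat_lit 446) (.cons (nat_lit 689) (nat_lit 86) (nat_lit 512) .nil))))
(.leaf (.mk (nat_lit 1) (nat_lit 0x20000000200000002000000030000000e00000000000000000000000000000000000) (nat_lit 0x1100000000000000000000000000000000000) (.cons (nat_lit 652) (nat_lit 2) (nat_lit 446) (.cons (nat_lit 656) (nat_lit 4) (nat_lit 446) .nil)))))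
(.node (nat_lit 1)
(.leaf (.mk (nat_lit 1) (nat_lit 0x380000000e00000000000000000000000000000000000) (nat_lit 0x400000001000000000000000000000000000000000000) (.cons (nat_lit 656) (nat_lit 0) (nat_lit 447) (.cons (nat_lit 690) (nat_lit 1) (nat_lit 448) .nil))))
(.leaf (.mk (nat_lit 3) (nat_lit 0x1e00000020000000000000000000000000000) (nat_lit 0x700000002000000050000000000000000000000000000) (.cons (nat_lit 624) (nat_lit 7) (nat_lit 415) (.cons (nat_lit 657) (nat_lit 88) (nat_lit 512) .nil)))))))
(.node (nat_lit 4)
(.node (nat_lit 2)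
(.node (nat_lit 1)
(.leaf (.mk (nat_lit 2) (nat_lit 0x3e00000020000000000000000000000000000) (nat_lit 0x700000000000000040000000000000000000000000000) (.cons (nat_lit 626) (nat_lit 7) (nat_lit 416) (.cons (nat_lit 689) (nat_lit 89) (nat_lit 512) .nil))))
(.leaf (.mk (nat_lit 1) (nat_lit 0x200000003e00000000000000000000000000000000000) (nat_lit 0x500000000000000000000000000000000000000000000) (.cons (nat_lit 688) (nat_lit 0) (nat_lit 447) (.cons (nat_lit 690) (nat_lit 0) (nat_lit 448) .nil)))))
(.node (nat_lit 1)
(.leaf (.mk (nat_lit 2) (nat_lit 0x2000000020000000200000002000000030000000000000000000000000000000000000000000) (nat_lit 0x100000001000000010000000000000001000000000000000000000000000000000000000000000000000) (.cons (nat_lit 716) (nat_lit 2) (nat_lit 478) (.cons (nat_lit 812) (nat_lit 91) (nat_lit 512) .nil))))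
(.leaf (.mk (nat_lit 1) (nat_lit 0x3000000020000000200000002000000020000000000000000000000000000000000000000000) (nat_lit 0x100000000000000010000000000000000000000000000000000000000000000000000000000000000000) (.cons (nat_lit 780) (nat_lit 6) (nat_lit 478) (.cons (nat_lit 844) (nat_lit 6) (nat_lit 510) .nil))))))
(.node (nat_lit 2)
(.node (nat_lit 1)
(.leaf (.mk (nat_lit 4) (nat_lit 0xa0000000200000002000000020000000100000000000000000000000000000000000) (nat_lit 0x100000007000000150000000000000000000000010000000000000000000000000000000000000000000) (.cons (nat_lit 684) (nat_lit 2) (nat_lit 446) (.cons (nat_lit 812) (nat_lit 78) (nat_lit 512) .nil))))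
(.leaf (.mk (nat_lit 2) (nat_lit 0x200000002000000020000000200000003000000000000000000000000000) (nat_lit 0x400000004000000050000000000000000000) (.cons (nat_lit 588) (nat_lit 2) (nat_lit 382) (.cons (nat_lit 622) (nat_lit 94) (nat_lit 512) .nil)))))
(.node (nat_lit 1)
(.leaf (.mk (nat_lit 1) (nat_lit 0x200000002000000020000000200000006000000000000000000000000000) (nat_lit 0x400000000000000040000000000000000000) (.cons (nat_lit 590) (nat_lit 5) (nat_lit 383) (.cons (nat_lit 654) (nat_lit 5) (nat_lit 415) .nil))))
(.leaf (.mk (nat_lit 3) (nat_lit 0xe0000000200000002000000020000000000000000000000000000000000000000000) (nat_lit 0x100000007000000110000000000000000000000000000000000000000000000000000000000000000000) (.cons (nat_lit 814) (nat_lit 3) (nat_lit 479) (.cons (nat_lit 812) (nat_lit 143) (nat_lit 512) .nil)))))))))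
(.node (nat_lit 16)
(.node (nat_lit 8)
(.node (nat_lit 4)
(.node (nat_lit 2)
(.node (nat_lit 1)
(.leaf (.mk (nat_lit 2) (nat_lit 0x40000000600000002000000020000000000000000000000000000000000000000000) (nat_lit 0x400000004000000000000000000000004000000000000000200000000000000000000000000000000000) (.cons (nat_lit 653) (nat_lit 3) (nat_lit 447) (.cons (nat_lit 814) (nat_lit 142) (nat_lit 512) .nil))))
(.leaf (.mk (nat_lit 9) (nat_lit 0xc0000000e00000002000000020000000000000000000000000000000000000000000) (nat_lit 0x200000002a0000033e0000033e0000000e0000005e0000001e0000002e0000000e0000000a000000000000000000) (.cons (nat_lit 653) (nat_lit 3) (nat_lit 447) (.cons (nat_lit 781) (nat_lit 98) (nat_lit 512) .nil)))))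
(.node (nat_lit 1)
(.leaf (.mk (nat_lit 8) (nat_lit 0xe0000000e00000002000000020000000000000000000000000000000000000000000) (nat_lit 0x200000002a0000033e0000031e0000000e0000005e0000001e0000000e0000000e0000000a000000000000000000) (.cons (nat_lit 780) (nat_lit 99) (nat_lit 512) (.cons (nat_lit 784) (nat_lit 100) (nat_lit 512) (.cons (nat_lit 716) (nat_lit 101) (nat_lit 512) .nil)))))
(.leaf (.mk (nat_lit 1) (nat_lit 0x70000000e00000002000000020000000000000000000000000000000000000000000) (nat_lit 0x1000000008000000000000000000000000000000000000000000000000000000000000000000) (.cons (nat_lit 812) (nat_lit 6) (nat_lit 478) (.cons (nat_lit 779) (nat_lit 7) (nat_lit 541) .nil))))))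
(.node (nat_lit 2)
(.node (nat_lit 1)
(.leaf (.mk (nat_lit 3) (nat_lit 0x1e0000000600000000000000000000000000000000000000000000000000000000000) (nat_lit 0x20000000200000003000000200000000000000004000000000000000000000000000000000000000000000000000) (.cons (nat_lit 785) (nat_lit 1) (nat_lit 543) (.cons (nat_lit 813) (nat_lit 141) (nat_lit 512) .nil))))
(.leaf (.mk (nat_lit 7) (nat_lit 0xe0000000e00000003000000020000000000000000000000000000000000000000000) (nat_lit 0x200000002a0000032e0000031e0000000e0000004e0000001e0000000e0000000e0000000a000000000000000000) (.cons (nat_lit 715) (nat_lit 102) (nat_lit 512) (.cons (nat_lit 813) (nat_lit 103) (nat_lit 512) (.cons (nat_lit 714) (nat_lit 104) (nat_lit 512) .nil))))))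
(.node (nat_lit 1)
(.leaf (.mk (nat_lit 1) (nat_lit 0xe00000003800000000000000000000000000000000000000000000000000) (nat_lit 0x4400000000000000000000000000000000000000000000000000) (.cons (nat_lit 714) (nat_lit 0) (nat_lit 508) (.cons (nat_lit 718) (nat_lit 0) (nat_lit 509) .nil))))
(.leaf (.mk (nat_lit 2) (nat_lit 0x2000000060000000600000003000000000000000000000000000000000000000000000000000) (nat_lit 0x20000000200000000000000000000000000000004000000010000000000000000000000000000000000000000000) (.cons (nat_lit 684) (nat_lit 2) (nat_lit 478) (.cons (nat_lit 845) (nat_lit 123) (nat_lit 611) .nil)))))))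
(.node (nat_lit 4)
(.node (nat_lit 2)
(.node (nat_lit 1)
(.leaf (.mk (nat_lit 6) (nat_lit 0xe0000000e00000003400000020000000000000000000000000000000000000000000) (nat_lit 0xa0000032e0000031e0000000e0000000a0000001e0000000e0000000e0000000a000000000000000000) (.cons (nat_lit 715) (nat_lit 0) (nat_lit 508) (.cons (nat_lit 682) (nat_lit 105) (nat_lit 512) .nil))))
(.leaf (.mk (nat_lit 5) (nat_lit 0x60000000e00000003400000024000000000000000000000000000000000000000000) (nat_lit 0xa0000002e0000001e0000000e000000020000001a0000000e0000000e0000000a000000000000000000) (.cons (nat_lit 684) (nat_lit 106) (nat_lit 512) (.cons (nat_lit 746) (nat_lit 107) (nat_lit 512) (.cons (nat_lit 746) (nat_lit 108) (nat_lit 512) (.cons (nat_lit 746) (nat_lit 109) (nat_lit 512) .nil)))))))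
(.node (nat_lit 1)
(.leaf (.mk (nat_lit 2) (nat_lit 0x20000000200000003400000034000000000000000000000000000000000000000000) (nat_lit 0x200000000000000000000000020000000a000000000000000000000000000000000000000000) (.cons (nat_lit 813) (nat_lit 2) (nat_lit 478) (.cons (nat_lit 683) (nat_lit 140) (nat_lit 512) .nil))))
(.leaf (.mk (nat_lit 4) (nat_lit 0x60000000e40000000400000004000000000000000000000000000000000000000000) (nat_lit 0xa0000000e0000001e0000000a00000002000000020000000e0000000e0000000a000000000000000000) (.cons (nat_lit 779) (nat_lit 110) (nat_lit 512) (.cons (nat_lit 650) (nat_lit 135) (nat_lit 512) (.cons (nat_lit 650) (nat_lit 136) (nat_lit 512) (.cons (nat_lit 778) (nat_lit 137) (nat_lit 512) .nil))))))))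
(.node (nat_lit 2)
(.node (nat_lit 1)
(.leaf (.mk (nat_lit 4) (nat_lit 0x60000000e40000003400000024000000000000000000000000000000000000000000) (nat_lit 0x8000000280000001e0000000a00000002000000180000000e0000000e00000008000000000000000000) (.cons (nat_lit 779) (nat_lit 110) (nat_lit 512) (.cons (nat_lit 650) (nat_lit 129) (nat_lit 512) (.cons (nat_lit 779) (nat_lit 130) (nat_lit 512) .nil)))))
(.leaf (.mk (nat_lit 4) (nat_lit 0x60000000e40000003400000024000000000000000000000000000000000000000000) (nat_lit 0x8000000280000001c00000008000000000000001a0000000e0000000e0000000a000000000000000000) (.cons (nat_lit 779) (nat_lit 110) (nat_lit 512) (.cons (nat_lit 650) (nat_lit 111) (nat_lit 512) (.cons (nat_lit 684) (nat_lit 112) (nat_lit 512) (.cons (nat_lit 779) (nat_lit 113) (nat_lit 512) .nil)))))))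
(.node (nat_lit 1)
(.leaf (.mk (nat_lit 3) (nat_lit 0x68000000c40000000400000004000000000000000000000000000000000000000000) (nat_lit 0x80000000800000014000000080000000000000000000000040000000000000000000000000000000000) (.cons (nat_lit 780) (nat_lit 7) (nat_lit 541) (.cons (nat_lit 747) (nat_lit 127) (nat_lit 512) .nil))))
(.leaf (.mk (nat_lit 3) (nat_lit 0x20000000240000003400000024000000040000000000000000000000000000000000) (nat_lit 0x200000000400000000000000000000001a0000000a0000000e0000000a000000000000000000) (.cons (nat_lit 649) (nat_lit 120) (nat_lit 512) (.cons (nat_lit 618) (nat_lit 121) (nat_lit 512) (.cons (nat_lit 683) (nat_lit 122) (nat_lit 512) .nil)))))))))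
(.node (nat_lit 8)
(.node (nat_lit 4)
(.node (nat_lit 2)
(.node (nat_lit 1)
(.leaf (.mk (nat_lit 3) (nat_lit 0x60000000e40000003400000034000000000000000000000000000000000000000000) (nat_lit 0x2000000018000000080000000000000008000000060000000200000000000000000000000000) (.cons (nat_lit 813) (nat_lit 2) (nat_lit 478) (.cons (nat_lit 650) (nat_lit 117) (nat_lit 512) .nil))))
(.leaf (.mk (nat_lit 3) (nat_lit 0x68000000e40000003400000004000000000000000000000000000000000000000000) (nat_lit 0x280000001400000000000000000000001a000000020000000000000000000000000000000000) (.cons (nat_lit 780) (nat_lit 7) (nat_lit 541) (.cons (nat_lit 681) (nat_lit 114) (nat_lit 512) .nil)))))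
(.node (nat_lit 1)
(.leaf (.mk (nat_lit 2) (nat_lit 0x28000000240000003400000006000000000000000000000000000000000000000000) (nat_lit 0x2800000004000000000000000000000018000000020000000000000000000000000000000000) (.cons (nat_lit 778) (nat_lit 115) (nat_lit 512) (.cons (nat_lit 684) (nat_lit 116) (nat_lit 512) .nil))))
(.leaf (.mk (nat_lit 1) (nat_lit 0xc000000040000000400000006000000000000000000000000000000000000000000) (nat_lit 0x800000000000000000000000000000000000000020000000000000000000000000000000000) (.cons (nat_lit 649) (nat_lit 2) (nat_lit 443) (.cons (nat_lit 811) (nat_lit 3) (nat_lit 476) .nil))))))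
(.node (nat_lit 2)
(.node (nat_lit 1)
(.leaf (.mk (nat_lit 1) (nat_lit 0x20000000200000003000000016000000000000000000000000000000000000000000) (nat_lit 0x2000000000000000000000000000000008000000000000000000000000000000000000000000) (.cons (nat_lit 683) (nat_lit 0) (nat_lit 475) (.cons (nat_lit 813) (nat_lit 2) (nat_lit 478) .nil))))
(.leaf (.mk (nat_lit 2) (nat_lit 0x60000000c40000000400000034000000040000000000000000000000000000000000) (nat_lit 0x18000000080000000000000008000000020000000200000000000000000000000000) (.cons (nat_lit 649) (nat_lit 118) (nat_lit 512) (.cons (nat_lit 779) (nat_lit 119) (nat_lit 512) .nil)))))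
(.node (nat_lit 1)
(.leaf (.mk (nat_lit 1) (nat_lit 0x40000000400000034000000060000000000000000000000000000000000) (nat_lit 0x8000000000000000200000000000000000000000000) (.cons (nat_lit 617) (nat_lit 2) (nat_lit 411) (.cons (nat_lit 683) (nat_lit 1) (nat_lit 443) .nil))))
(.leaf (.mk (nat_lit 1) (nat_lit 0x68000000c40000000400000004000000040000000000000000000000000000000000) (nat_lit 0x10000000080000000000000000000000000000000000000000000000000000000000) (.cons (nat_lit 747) (nat_lit 3) (nat_lit 444) (.cons (nat_lit 780) (nat_lit 7) (nat_lit 541) .nil)))))))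
(.node (nat_lit 4)
(.node (nat_lit 2)
(.node (nat_lit 1)
(.leaf (.mk (nat_lit 2) (nat_lit 0x20000000240000003400000024000000060000000000000000000000000000000000) (nat_lit 0x2000000000000000000000000000000018000000000000000200000000000000000000000000) (.cons (nat_lit 617) (nat_lit 2) (nat_lit 411) (.cons (nat_lit 684) (nat_lit 126) (nat_lit 512) .nil))))
(.leaf (.mk (nat_lit 2) (nat_lit 0x40000000400000004000000040000000400000000000000000000000000) (nat_lit 0xa0000000a0000000a000000000000000000) (.cons (nat_lit 617) (nat_lit 125) (nat_lit 512) (.cons (nat_lit 619) (nat_lit 94) (nat_lit 509) .nil)))))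
(.node (nat_lit 1)
(.leaf (.mk (nat_lit 2) (nat_lit 0x2000000024000000340000000c000000040000000000000000000000000000000000) (nat_lit 0x2000000004000000000000000000000012000000080000000800000000000000000000000000) (.cons (nat_lit 651) (nat_lit 123) (nat_lit 512) (.cons (nat_lit 684) (nat_lit 124) (nat_lit 512) .nil))))
(.leaf (.mk (nat_lit 1) (nat_lit 0x4000000040000000c0000000c0000000000000000000000000000000000) (nat_lit 0x4000000000000000000000000000000000000000800000000000000000000000000) (.cons (nat_lit 619) (nat_lit 5) (nat_lit 412) (.cons (nat_lit 778) (nat_lit 5) (nat_lit 444) .nil))))))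
(.node (nat_lit 2)
(.node (nat_lit 1)
(.leaf (.mk (nat_lit 1) (nat_lit 0x2000000020000000300000001c000000000000000000000000000000000000000000) (nat_lit 0x2000000000000000000000000000000002000000000000000000000000000000000000000000) (.cons (nat_lit 681) (nat_lit 0) (nat_lit 475) (.cons (nat_lit 813) (nat_lit 2) (nat_lit 478) .nil))))
(.leaf (.mk (nat_lit 1) (nat_lit 0x40000000400000004000000040000000600000000000000000000000000) (nat_lit 0x20000000000000002000000000000000000) (.cons (nat_lit 585) (nat_lit 2) (nat_lit 379) (.cons (nat_lit 649) (nat_lit 2) (nat_lit 411) .nil)))))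
(.node (nat_lit 1)
(.leaf (.mk (nat_lit 1) (nat_lit 0x20000000200000003000000034000000060000000000000000000000000000000000) (nat_lit 0x2000000000000000000000000000000008000000000000000000000000000000000000000000) (.cons (nat_lit 683) (nat_lit 1) (nat_lit 443) (.cons (nat_lit 813) (nat_lit 2) (nat_lit 478) .nil))))
(.leaf (.mk (nat_lit 2) (nat_lit 0x80000000c0000000400000004000000000000000000000000000000000000000000) (nat_lit 0x80000000800000004000000000000000000000000000000040000000000000000000000000000000000) (.cons (nat_lit 650) (nat_lit 3) (nat_lit 444) (.cons (nat_lit 811) (nat_lit 128) (nat_lit 512) .nil)))))))))))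
(.node (nat_lit 64)
(.node (nat_lit 32)
(.node (nat_lit 16)
(.node (nat_lit 8)
(.node (nat_lit 4)
(.node (nat_lit 2)
(.node (nat_lit 1)
(.leaf (.mk (nat_lit 1) (nat_lit 0x8000000080000000c0000000400000004000000000000000000000000000000000000000000) (nat_lit 0x80000000000000004000000000000000000000000000000000000000000000000000000000000000000) (.cons (nat_lit 778) (nat_lit 3) (nat_lit 476) (.cons (nat_lit 843) (nat_lit 2) (nat_lit 508) .nil))))
(.leaf (.mk (nat_lit 3) (nat_lit 0x20000000240000003400000024000000040000000000000000000000000000000000) (nat_lit 0x20000000020000000200000002000000180000000a0000000e00000008000000000000000000) (.cons (nat_lit 649) (nat_lit 120) (nat_lit 512) (.cons (nat_lit 618) (nat_lit 134) (nat_lit 512) .nil)))))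
(.node (nat_lit 1)
(.leaf (.mk (nat_lit 3) (nat_lit 0x68000000e40000003400000024000000000000000000000000000000000000000000) (nat_lit 0x2800000014000000000000000200000018000000080000000000000000000000000000000000) (.cons (nat_lit 780) (nat_lit 7) (nat_lit 541) (.cons (nat_lit 683) (nat_lit 131) (nat_lit 512) .nil))))
(.leaf (.mk (nat_lit 2) (nat_lit 0x2800000024000000340000002c000000000000000000000000000000000000000000) (nat_lit 0x2800000004000000000000000200000010000000080000000000000000000000000000000000) (.cons (nat_lit 778) (nat_lit 132) (nat_lit 512) (.cons (nat_lit 684) (nat_lit 133) (nat_lit 512) .nil))))))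
(.node (nat_lit 2)
(.node (nat_lit 1)
(.leaf (.mk (nat_lit 1) (nat_lit 0xc00000004000000040000000c000000000000000000000000000000000000000000) (nat_lit 0x800000000000000000000000000000000000000080000000000000000000000000000000000) (.cons (nat_lit 651) (nat_lit 5) (nat_lit 444) (.cons (nat_lit 811) (nat_lit 3) (nat_lit 476) .nil))))
(.leaf (.mk (nat_lit 1) (nat_lit 0x2000000020000000340000003c000000000000000000000000000000000000000000) (nat_lit 0x2000000000000000000000000200000000000000000000000000000000000000000000000000) (.cons (nat_lit 713) (nat_lit 4) (nat_lit 475) (.cons (nat_lit 813) (nat_lit 2) (nat_lit 478) .nil)))))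
(.node (nat_lit 1)
(.leaf (.mk (nat_lit 2) (nat_lit 0x40000000400000004000000040000000400000000000000000000000000) (nat_lit 0x2000000020000000200000000000000080000000800000008000000000000000000) (.cons (nat_lit 619) (nat_lit 94) (nat_lit 509) (.cons (nat_lit 745) (nat_lit 91) (nat_lit 445) .nil))))
(.leaf (.mk (nat_lit 3) (nat_lit 0x40000000400000004000000040000000000000000000000000000000000) (nat_lit 0x2000000060000000200000002000000020000000a0000000e0000000a000000000000000000) (.cons (nat_lit 618) (nat_lit 121) (nat_lit 512) (.cons (nat_lit 778) (nat_lit 139) (nat_lit 480) (.cons (nat_lit 618) (nat_lit 134) (nat_lit 512) .nil))))))))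
(.node (nat_lit 4)
(.node (nat_lit 2)
(.node (nat_lit 1)
(.leaf (.mk (nat_lit 3) (nat_lit 0x60000000c40000000400000004000000040000000000000000000000000000000000) (nat_lit 0x180000000800000000000000000000000a0000000e0000000a000000000000000000) (.cons (nat_lit 779) (nat_lit 119) (nat_lit 512) (.cons (nat_lit 618) (nat_lit 121) (nat_lit 512) .nil))))
(.leaf (.mk (nat_lit 3) (nat_lit 0x24000000640000000400000004000000000000000000000000000000000000000000) (nat_lit 0x20000000e0000001a000000000000000200000002000000020000000000000000000000000000000000) (.cons (nat_lit 779) (nat_lit 138) (nat_lit 512) (.cons (nat_lit 810) (nat_lit 139) (nat_lit 512) .nil)))))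
(.node (nat_lit 1)
(.leaf (.mk (nat_lit 1) (nat_lit 0x2c000000640000000400000004000000000000000000000000000000000000000000) (nat_lit 0x800000010000000000000000000000000000000000000000000000000000000000000000000) (.cons (nat_lit 811) (nat_lit 3) (nat_lit 476) (.cons (nat_lit 780) (nat_lit 7) (nat_lit 540) .nil))))
(.leaf (.mk (nat_lit 2) (nat_lit 0x400000004000000040000000400000004000000000000000000000000000000000000000000) (nat_lit 0x20000000200000002000000000000000200000002000000020000000000000000000000000000000000) (.cons (nat_lit 681) (nat_lit 125) (nat_lit 576) (.cons (nat_lit 809) (nat_lit 91) (nat_lit 509) .nil))))))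
(.node (nat_lit 2)
(.node (nat_lit 1)
(.leaf (.mk (nat_lit 1) (nat_lit 0x340000003c000000000000000000000000000000000000000000) (nat_lit 0x200000002000000000000000000000000000000000000000000) (.cons (nat_lit 681) (nat_lit 0) (nat_lit 475) (.cons (nat_lit 713) (nat_lit 4) (nat_lit 475) .nil))))
(.leaf (.mk (nat_lit 2) (nat_lit 0x20000001e0000000600000000000000000000000000000000000000000000000000000000000) (nat_lit 0x20000000200000001000000000000000000000004000000000000000000000000000000000000000000000000000) (.cons (nat_lit 812) (nat_lit 4) (nat_lit 574) (.cons (nat_lit 845) (nat_lit 123) (nat_lit 611) .nil)))))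
(.node (nat_lit 1)
(.leaf (.mk (nat_lit 1) (nat_lit 0x4000000040000000600000002000000020000000000000000000000000000000000000000000) (nat_lit 0x400000000000000000000000000000004000000000000000000000000000000000000000000000000000) (.cons (nat_lit 718) (nat_lit 2) (nat_lit 479) (.cons (nat_lit 846) (nat_lit 2) (nat_lit 511) .nil))))
(.leaf (.mk (nat_lit 2) (nat_lit 0x10000000e0000000200000002000000020000000000000000000000000000000000000000000) (nat_lit 0x100000002000000110000000000000000000000000000000000000000000000000000000000000000000) (.cons (nat_lit 780) (nat_lit 6) (nat_lit 478) (.cons (nat_lit 813) (nat_lit 80) (nat_lit 512) .nil))))))))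
(.node (nat_lit 8)
(.node (nat_lit 4)
(.node (nat_lit 2)
(.node (nat_lit 1)
(.leaf (.mk (nat_lit 5) (nat_lit 0x2000000030000000a0000000200000000000000000000000000000000000) (nat_lit 0x200000002000000000000000000000011e000001de0000007e00000078000000500000000000) (.cons (nat_lit 620) (nat_lit 72) (nat_lit 512) (.cons (nat_lit 621) (nat_lit 317) (nat_lit 512) (.cons (nat_lit 622) (nat_lit 318) (nat_lit 512) (.cons (nat_lit 622) (nat_lit 319) (nat_lit 512) (.cons (nat_lit 652) (nat_lit 320) (nat_lit 512) .nil)))))))
(.leaf (.mk (nat_lit 9) (nat_lit 0x20000000a00000003000000020000000000000000000000000000000000000000000) (nat_lit 0x52000000770000007f0000001f0000004f0000004e0000001f0000000e0000000c0000000c000000000000000000) (.cons (nat_lit 684) (nat_lit 336) (nat_lit 512) (.cons (nat_lit 715) (nat_lit 337) (nat_lit 512) (.cons (nat_lit 715) (nat_lit 338) (nat_lit 512) (.cons (nat_lit 813) (nat_lit 339) (nat_lit 512) .nil)))))))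
(.node (nat_lit 1)
(.leaf (.mk (nat_lit 7) (nat_lit 0xe000000030000000a0000000000000000000000000000000000000000000) (nat_lit 0x40000000700000007000000030000000000000004c00000118000000f00000007000000070000000100000000000) (.cons (nat_lit 715) (nat_lit 102) (nat_lit 512) (.cons (nat_lit 781) (nat_lit 314) (nat_lit 512) (.cons (nat_lit 714) (nat_lit 315) (nat_lit 512) .nil)))))
(.leaf (.mk (nat_lit 9) (nat_lit 0xa00000003800000020000000000000000000000000000000000000000000) (nat_lit 0x80000004f000000460000000f000003ff000000fe000003ff000000100000000000) (.cons (nat_lit 750) (nat_lit 102) (nat_lit 512) (.cons (nat_lit 620) (nat_lit 177) (nat_lit 512) (.cons (nat_lit 718) (nat_lit 178) (nat_lit 512) (.cons (nat_lit 714) (nat_lit 179) (nat_lit 512) .nil))))))))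
(.node (nat_lit 2)
(.node (nat_lit 1)
(.leaf (.mk (nat_lit 8) (nat_lit 0xa000000030000000b0000000000000000000000000000000000000000000) (nat_lit 0x3f0000003e0000004f0000004e00000106000001f40000007000000070000000000000000000) (.cons (nat_lit 652) (nat_lit 149) (nat_lit 512) (.cons (nat_lit 781) (nat_lit 150) (nat_lit 512) (.cons (nat_lit 715) (nat_lit 151) (nat_lit 512) .nil)))))
(.leaf (.mk (nat_lit 1) (nat_lit 0x200000003000000030000000100000000000000000000000000000000000) (nat_lit 0x20000000000000000000000000000000000000001000000000000000000000000000) (.cons (nat_lit 620) (nat_lit 3) (nat_lit 414) (.cons (nat_lit 781) (nat_lit 2) (nat_lit 446) .nil)))))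
(.node (nat_lit 1)
(.leaf (.mk (nat_lit 7) (nat_lit 0x20000000a00000003000000030000000000000000000000000000000000000000000) (nat_lit 0x3f0000001e0000004f0000004e00000006000000040000000000000000000000000000000000) (.cons (nat_lit 813) (nat_lit 2) (nat_lit 478) (.cons (nat_lit 715) (nat_lit 164) (nat_lit 512) .nil))))
(.leaf (.mk (nat_lit 6) (nat_lit 0xa000000038000000b0000000000000000000000000000000000000000000) (nat_lit 0x8000000080000004e0000004600000106000001f40000007000000070000000000000000000) (.cons (nat_lit 714) (nat_lit 152) (nat_lit 512) (.cons (nat_lit 718) (nat_lit 153) (nat_lit 512) (.cons (nat_lit 714) (nat_lit 154) (nat_lit 512) .nil))))))))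
(.node (nat_lit 4)
(.node (nat_lit 2)
(.node (nat_lit 1)
(.leaf (.mk (nat_lit 1) (nat_lit 0x200000003c00000030000000000000000000000000000000000000000000) (nat_lit 0x400000000200000000000000000000000000000000000000000000000000) (.cons (nat_lit 713) (nat_lit 7) (nat_lit 475) (.cons (nat_lit 750) (nat_lit 0) (nat_lit 508) .nil))))
(.leaf (.mk (nat_lit 5) (nat_lit 0xa000000078000000b0000000000000000000000000000000000000000000) (nat_lit 0x400000000000000100000001f00000007000000070000000000000000000) (.cons (nat_lit 750) (nat_lit 0) (nat_lit 509) (.cons (nat_lit 653) (nat_lit 158) (nat_lit 512) .nil)))))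
(.node (nat_lit 1)
(.leaf (.mk (nat_lit 5) (nat_lit 0x3c00000030000000000000000000000000000000000000000000) (nat_lit 0x8000000080000000e0000004200000006000000040000000000000000000000000000000000) (.cons (nat_lit 713) (nat_lit 7) (nat_lit 475) (.cons (nat_lit 746) (nat_lit 155) (nat_lit 512) .nil))))
(.leaf (.mk (nat_lit 4) (nat_lit 0x40000003c00000000000000000000000000000000000000000000000000) (nat_lit 0x8000000080000000a0000004000000006000000040000000000000000000000000000000000) (.cons (nat_lit 745) (nat_lit 4) (nat_lit 507) (.cons (nat_lit 682) (nat_lit 156) (nat_lit 512) .nil))))))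
(.node (nat_lit 2)
(.node (nat_lit 1)
(.leaf (.mk (nat_lit 3) (nat_lit 0x40000003c00000004000000000000000000000000000000000000000000) (nat_lit 0x800000008000000080000004000000002000000040000000000000000000000000000000000) (.cons (nat_lit 681) (nat_lit 1) (nat_lit 475) (.cons (nat_lit 747) (nat_lit 157) (nat_lit 512) .nil))))
(.leaf (.mk (nat_lit 2) (nat_lit 0xc0000003c00000004000000000000000000000000000000000000000000) (nat_lit 0x800000008000000000000004000000000000000040000000000000000000000000000000000) (.cons (nat_lit 718) (nat_lit 4) (nat_lit 508) (.cons (nat_lit 779) (nat_lit 149) (nat_lit 542) .nil)))))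
(.node (nat_lit 1)
(.leaf (.mk (nat_lit 4) (nat_lit 0x2000000030000000b0000000200000000000000000000000000000000000) (nat_lit 0x100000001d00000007000000070000000000000000000) (.cons (nat_lit 621) (nat_lit 159) (nat_lit 512) (.cons (nat_lit 621) (nat_lit 160) (nat_lit 512) (.cons (nat_lit 654) (nat_lit 161) (nat_lit 512) .nil)))))
(.leaf (.mk (nat_lit 2) (nat_lit 0x200000003000000030000000200000002000000000000000000000000000) (nat_lit 0x100000001000000030000000000000000000) (.cons (nat_lit 589) (nat_lit 6) (nat_lit 382) (.cons (nat_lit 620) (nat_lit 125) (nat_lit 515) .nil)))))))))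
(.node (nat_lit 16)
(.node (nat_lit 8)
(.node (nat_lit 4)
(.node (nat_lit 2)
(.node (nat_lit 1)
(.leaf (.mk (nat_lit 2) (nat_lit 0x200000003000000030000000200000002000000000000000000000000000) (nat_lit 0x400000004000000060000000000000000000) (.cons (nat_lit 589) (nat_lit 6) (nat_lit 382) (.cons (nat_lit 622) (nat_lit 94) (nat_lit 512) .nil))))
(.leaf (.mk (nat_lit 3) (nat_lit 0x2000000020000000b0000000600000000000000000000000000000000000) (nat_lit 0x100000001900000005000000000000000000000000000) (.cons (nat_lit 622) (nat_lit 5) (nat_lit 415) (.cons (nat_lit 652) (nat_lit 162) (nat_lit 512) .nil)))))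
(.node (nat_lit 1)
(.leaf (.mk (nat_lit 2) (nat_lit 0x2000000020000000b0000000700000000000000000000000000000000000) (nat_lit 0x100000001800000001000000000000000000000000000) (.cons (nat_lit 620) (nat_lit 2) (nat_lit 414) (.cons (nat_lit 655) (nat_lit 163) (nat_lit 512) .nil))))
(.leaf (.mk (nat_lit 1) (nat_lit 0xb0000000f00000000000000000000000000000000000) (nat_lit 0x100000001000000000000000000000000000000000000) (.cons (nat_lit 688) (nat_lit 0) (nat_lit 446) (.cons (nat_lit 656) (nat_lit 4) (nat_lit 446) .nil))))))
(.node (nat_lit 2)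
(.node (nat_lit 1)
(.leaf (.mk (nat_lit 6) (nat_lit 0x20000000a00000003800000030000000000000000000000000000000000000000000) (nat_lit 0x1f0000001e0000004f0000004600000006000000040000000000000000000000000000000000) (.cons (nat_lit 714) (nat_lit 152) (nat_lit 512) (.cons (nat_lit 780) (nat_lit 165) (nat_lit 512) (.cons (nat_lit 714) (nat_lit 154) (nat_lit 512) .nil)))))
(.leaf (.mk (nat_lit 5) (nat_lit 0x30000000a00000003800000030000000000000000000000000000000000000000000) (nat_lit 0x1f0000000e0000004f0000004000000000000000000000000000000000000000000000000000) (.cons (nat_lit 812) (nat_lit 6) (nat_lit 478) (.cons (nat_lit 779) (nat_lit 166) (nat_lit 512) .nil)))))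
(.node (nat_lit 1)
(.leaf (.mk (nat_lit 4) (nat_lit 0x38000000a00000003800000010000000000000000000000000000000000000000000) (nat_lit 0xf000000060000004f0000004000000000000000000000000000000000000000000000000000) (.cons (nat_lit 750) (nat_lit 167) (nat_lit 512) (.cons (nat_lit 747) (nat_lit 168) (nat_lit 512) (.cons (nat_lit 747) (nat_lit 169) (nat_lit 512) (.cons (nat_lit 778) (nat_lit 170) (nat_lit 512) .nil))))))
(.leaf (.mk (nat_lit 1) (nat_lit 0x38000000e00000003800000000000000000000000000000000000000000000000000) (nat_lit 0x4000000000000004000000000000000000000000000000000000000000000000000) (.cons (nat_lit 718) (nat_lit 0) (nat_lit 509) (.cons (nat_lit 778) (nat_lit 7) (nat_lit 540) .nil)))))))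
(.node (nat_lit 4)
(.node (nat_lit 2)
(.node (nat_lit 1)
(.leaf (.mk (nat_lit 3) (nat_lit 0x38000000080000003800000010000000000000000000000000000000000000000000) (nat_lit 0x800000004000000070000004000000000000000000000000000000000000000000000000000) (.cons (nat_lit 811) (nat_lit 5) (nat_lit 477) (.cons (nat_lit 746) (nat_lit 175) (nat_lit 512) .nil))))
(.leaf (.mk (nat_lit 2) (nat_lit 0x8000000880000003800000010000000000000000000000000000000000000000000) (nat_lit 0x800000000000000440000004000000000000000000000000000000000000000000000000000) (.cons (nat_lit 811) (nat_lit 5) (nat_lit 477) (.cons (nat_lit 718) (nat_lit 174) (nat_lit 512) .nil)))))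
(.node (nat_lit 1)
(.leaf (.mk (nat_lit 3) (nat_lit 0x3c000000200000000000000000000000000000000000000000000000000000000000) (nat_lit 0x700000002000000470000000000000000000000000000000000000000000000000000000000) (.cons (nat_lit 750) (nat_lit 7) (nat_lit 540) (.cons (nat_lit 777) (nat_lit 171) (nat_lit 512) .nil))))
(.leaf (.mk (nat_lit 2) (nat_lit 0x3e000000000000000000000000000000000000000000000000000000000000000000) (nat_lit 0x700000000000000070000000000000000000000000000000000000000000000000000000000) (.cons (nat_lit 745) (nat_lit 172) (nat_lit 512) (.cons (nat_lit 809) (nat_lit 173) (nat_lit 512) .nil))))))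
(.node (nat_lit 2)
(.node (nat_lit 1)
(.leaf (.mk (nat_lit 1) (nat_lit 0x3e000000020000000000000000000000000000000000000000000000000000000000) (nat_lit 0x50000000000000000000000000000000000000000000000000000000000) (.cons (nat_lit 744) (nat_lit 1) (nat_lit 538) (.cons (nat_lit 746) (nat_lit 1) (nat_lit 539) .nil))))
(.leaf (.mk (nat_lit 1) (nat_lit 0x20000003e000000000000000000000000000000000000000000000000000000000000000000) (nat_lit 0x500000000000000000000000000000000000000000000000000000000000000000000000000) (.cons (nat_lit 808) (nat_lit 4) (nat_lit 570) (.cons (nat_lit 810) (nat_lit 4) (nat_lit 571) .nil)))))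
(.node (nat_lit 1)
(.leaf (.mk (nat_lit 1) (nat_lit 0x880000007800000000000000000000000000000000000000000000000000) (nat_lit 0x440000000000000000000000000000000000000000000000000000000000) (.cons (nat_lit 746) (nat_lit 4) (nat_lit 508) (.cons (nat_lit 750) (nat_lit 0) (nat_lit 509) .nil))))
(.leaf (.mk (nat_lit 2) (nat_lit 0x380000000c0000003800000000000000000000000000000000000000000000000000) (nat_lit 0x4000000030000004000000000000000000000000000000000000000000000000000) (.cons (nat_lit 718) (nat_lit 4) (nat_lit 508) (.cons (nat_lit 745) (nat_lit 176) (nat_lit 512) .nil))))))))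
(.node (nat_lit 8)
(.node (nat_lit 4)
(.node (nat_lit 2)
(.node (nat_lit 1)
(.leaf (.mk (nat_lit 1) (nat_lit 0x380000000e0000001800000000000000000000000000000000000000000000000000) (nat_lit 0x4000000010000000000000000000000000000000000000000000000000000000000) (.cons (nat_lit 744) (nat_lit 7) (nat_lit 506) (.cons (nat_lit 778) (nat_lit 1) (nat_lit 539) .nil))))
(.leaf (.mk (nat_lit 7) (nat_lit 0x200000003800000020000000000000001000000000000000000000000000) (nat_lit 0x80000000f000000460000000f000003ff000000ee000003ff000000100000000000) (.cons (nat_lit 653) (nat_lit 72) (nat_lit 512) (.cons (nat_lit 683) (nat_lit 232) (nat_lit 512) (.cons (nat_lit 682) (nat_lit 233) (nat_lit 512) (.cons (nat_lit 652) (nat_lit 234) (nat_lit 512) .nil)))))))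
(.node (nat_lit 1)
(.leaf (.mk (nat_lit 8) (nat_lit 0xa00000007800000020000000000000000000000000000000000000000000) (nat_lit 0x4c000000000000000c000001ff000000fe000003ff000000000000000000) (.cons (nat_lit 750) (nat_lit 0) (nat_lit 509) (.cons (nat_lit 620) (nat_lit 182) (nat_lit 512) .nil))))
(.leaf (.mk (nat_lit 4) (nat_lit 0x200000003c00000000000000000000000000000000000000000000000000) (nat_lit 0x470000000200000007000000000000000000000000000000000000000000) (.cons (nat_lit 750) (nat_lit 0) (nat_lit 508) (.cons (nat_lit 681) (nat_lit 180) (nat_lit 512) .nil))))))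
(.node (nat_lit 2)
(.node (nat_lit 1)
(.leaf (.mk (nat_lit 3) (nat_lit 0x3c00000002000000000000000000000000000000000000000000) (nat_lit 0x70000000200000005000000000000000000000000000000000000000000) (.cons (nat_lit 682) (nat_lit 1) (nat_lit 475) (.cons (nat_lit 713) (nat_lit 181) (nat_lit 512) .nil))))
(.leaf (.mk (nat_lit 2) (nat_lit 0x3e00000002000000000000000000000000000000000000000000) (nat_lit 0x70000000000000001000000000000000000000000000000000000000000) (.cons (nat_lit 680) (nat_lit 1) (nat_lit 474) (.cons (nat_lit 745) (nat_lit 173) (nat_lit 448) .nil)))))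
(.node (nat_lit 1)
(.leaf (.mk (nat_lit 7) (nat_lit 0x200000007800000020000000000000001000000000000000000000000000) (nat_lit 0xc000000000000000c000001ff000000ee000003ff000000000000000000) (.cons (nat_lit 653) (nat_lit 72) (nat_lit 512) (.cons (nat_lit 683) (nat_lit 183) (nat_lit 512) (.cons (nat_lit 747) (nat_lit 184) (nat_lit 512) (.cons (nat_lit 683) (nat_lit 185) (nat_lit 512) .nil))))))
(.leaf (.mk (nat_lit 5) (nat_lit 0x7800000008000000000000001000000000000000000000000000) (nat_lit 0xc00000000000000040000001c0000000c00000014000000000000000000) (.cons (nat_lit 682) (nat_lit 1) (nat_lit 476) (.cons (nat_lit 747) (nat_lit 230) (nat_lit 512) .nil)))))))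
(.node (nat_lit 4)
(.node (nat_lit 2)
(.node (nat_lit 1)
(.leaf (.mk (nat_lit 6) (nat_lit 0x280000007800000020000000000000001000000000000000000000000000) (nat_lit 0x4000000000000000c000001ef000000ee000003ff000000000000000000) (.cons (nat_lit 746) (nat_lit 4) (nat_lit 508) (.cons (nat_lit 621) (nat_lit 188) (nat_lit 512) .nil))))
(.leaf (.mk (nat_lit 3) (nat_lit 0x200000007800000028000000000000001000000000000000000000000000) (nat_lit 0xc0000000000000004000000380000000000000000000000000000000000) (.cons (nat_lit 682) (nat_lit 1) (nat_lit 476) (.cons (nat_lit 652) (nat_lit 186) (nat_lit 512) .nil)))))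
(.node (nat_lit 1)
(.leaf (.mk (nat_lit 2) (nat_lit 0x200000007800000028000000100000001000000000000000000000000000) (nat_lit 0xc0000000000000000000000280000000000000000000000000000000000) (.cons (nat_lit 653) (nat_lit 2) (nat_lit 414) (.cons (nat_lit 747) (nat_lit 187) (nat_lit 512) .nil))))
(.leaf (.mk (nat_lit 1) (nat_lit 0x80000007800000008000000100000001000000000000000000000000000) (nat_lit 0x40000000000000000000000080000000000000000000000000000000000) (.cons (nat_lit 651) (nat_lit 5) (nat_lit 413) (.cons (nat_lit 746) (nat_lit 4) (nat_lit 508) .nil))))))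
(.node (nat_lit 2)
(.node (nat_lit 1)
(.leaf (.mk (nat_lit 5) (nat_lit 0x280000007800000020000000000000003000000000000000000000000000) (nat_lit 0xc000001ef000000ce000003ff000000000000000000) (.cons (nat_lit 653) (nat_lit 93) (nat_lit 512) (.cons (nat_lit 619) (nat_lit 189) (nat_lit 512) (.cons (nat_lit 619) (nat_lit 190) (nat_lit 512) (.cons (nat_lit 622) (nat_lit 191) (nat_lit 512) (.cons (nat_lit 622) (nat_lit 192) (nat_lit 512) .nil)))))))
(.leaf (.mk (nat_lit 4) (nat_lit 0x80000007800000020000000000000003800000000000000000000000000) (nat_lit 0xc0000006f0000000600000017000000000000000000) (.cons (nat_lit 588) (nat_lit 223) (nat_lit 512) (.cons (nat_lit 618) (nat_lit 224) (nat_lit 512) (.cons (nat_lit 618) (nat_lit 225) (nat_lit 512) .nil))))))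
(.node (nat_lit 1)
(.leaf (.mk (nat_lit 4) (nat_lit 0x80000007800000000000000000000003800000000000000000000000000) (nat_lit 0xc000001cf000000c6000001ff000000000000000000) (.cons (nat_lit 683) (nat_lit 208) (nat_lit 512) (.cons (nat_lit 618) (nat_lit 209) (nat_lit 512) (.cons (nat_lit 622) (nat_lit 210) (nat_lit 512) (.cons (nat_lit 586) (nat_lit 211) (nat_lit 512) (.cons (nat_lit 618) (nat_lit 212) (nat_lit 512) .nil)))))))
(.leaf (.mk (nat_lit 4) (nat_lit 0x200000002000000020000000000000007000000000000000000000000000) (nat_lit 0x1ee0000008c000003ee000000000000000000) (.cons (nat_lit 653) (nat_lit 94) (nat_lit 512) (.cons (nat_lit 619) (nat_lit 204) (nat_lit 512) (.cons (nat_lit 619) (nat_lit 205) (nat_lit 512) (.cons (nat_lit 590) (nat_lit 195) (nat_lit 512) .nil))))))))))))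
(.node (nat_lit 32)
(.node (nat_lit 16)
(.node (nat_lit 8)
(.node (nat_lit 4)
(.node (nat_lit 2)
(.node (nat_lit 1)
(.leaf (.mk (nat_lit 4) (nat_lit 0x7800000020000000000000007000000000000000000000000000) (nat_lit 0xc0000002c0000008c000003fe000000000000000000) (.cons (nat_lit 653) (nat_lit 193) (nat_lit 512) (.cons (nat_lit 619) (nat_lit 194) (nat_lit 512) (.cons (nat_lit 590) (nat_lit 195) (nat_lit 512) (.cons (nat_lit 588) (nat_lit 196) (nat_lit 512) .nil))))))
(.leaf (.mk (nat_lit 1) (nat_lit 0x2000000020000000200000007000000000000000000000000000) (nat_lit 0x50000000000000000000) (.cons (nat_lit 588) (nat_lit 2) (nat_lit 382) (.cons (nat_lit 590) (nat_lit 5) (nat_lit 383) .nil)))))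
(.node (nat_lit 1)
(.leaf (.mk (nat_lit 3) (nat_lit 0x7800000000000000000000007800000000000000000000000000) (nat_lit 0xc0000000c00000004000000fe000000000000000000) (.cons (nat_lit 651) (nat_lit 200) (nat_lit 512) (.cons (nat_lit 618) (nat_lit 201) (nat_lit 512) .nil))))
(.leaf (.mk (nat_lit 3) (nat_lit 0x2000000020000000000000007000000040000000000000000000) (nat_lit 0x2000000008000003a0000000000000000000) (.cons (nat_lit 653) (nat_lit 5) (nat_lit 383) (.cons (nat_lit 591) (nat_lit 198) (nat_lit 512) .nil))))))
(.node (nat_lit 2)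
(.node (nat_lit 1)
(.leaf (.mk (nat_lit 3) (nat_lit 0x2000000020000000000000007000000010000000000000000000) (nat_lit 0x20000000800000002e000000000000000000) (.cons (nat_lit 653) (nat_lit 2) (nat_lit 382) (.cons (nat_lit 587) (nat_lit 197) (nat_lit 512) .nil))))
(.leaf (.mk (nat_lit 2) (nat_lit 0x7000000018000000000000000000) (nat_lit 0x8000000026000000000000000000) (.cons (nat_lit 623) (nat_lit 1) (nat_lit 381) (.cons (nat_lit 586) (nat_lit 102) (nat_lit 383) .nil)))))
(.node (nat_lit 1)
(.leaf (.mk (nat_lit 2) (nat_lit 0x70000000c0000000000000000000) (nat_lit 0x800000320000000000000000000) (.cons (nat_lit 619) (nat_lit 7) (nat_lit 381) (.cons (nat_lit 592) (nat_lit 199) (nat_lit 512) .nil))))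
(.leaf (.mk (nat_lit 1) (nat_lit 0x70000001c0000000000000000000) (nat_lit 0x220000000000000000000) (.cons (nat_lit 589) (nat_lit 4) (nat_lit 382) (.cons (nat_lit 593) (nat_lit 4) (nat_lit 383) .nil)))))))
(.node (nat_lit 4)
(.node (nat_lit 2)
(.node (nat_lit 1)
(.leaf (.mk (nat_lit 2) (nat_lit 0x7800000000000000080000007800000000000000000000000000) (nat_lit 0xc000000040000000000000010000000000000000000) (.cons (nat_lit 650) (nat_lit 4) (nat_lit 412) (.cons (nat_lit 683) (nat_lit 203) (nat_lit 512) .nil))))
(.leaf (.mk (nat_lit 2) (nat_lit 0x7c00000000000000000000000000) (nat_lit 0xee000000000000000000) (.cons (nat_lit 586) (nat_lit 172) (nat_lit 353) (.cons (nat_lit 590) (nat_lit 202) (nat_lit 512) .nil)))))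
(.node (nat_lit 1)
(.leaf (.mk (nat_lit 1) (nat_lit 0x7c00000040000000000000000000) (nat_lit 0xa0000000000000000000) (.cons (nat_lit 589) (nat_lit 7) (nat_lit 380) (.cons (nat_lit 591) (nat_lit 7) (nat_lit 381) .nil))))
(.leaf (.mk (nat_lit 1) (nat_lit 0x7800000008000000080000001800000000000000000000000000) (nat_lit 0x4000000000000000000000010000000000000000000) (.cons (nat_lit 588) (nat_lit 5) (nat_lit 381) (.cons (nat_lit 682) (nat_lit 1) (nat_lit 476) .nil))))))
(.node (nat_lit 2)
(.node (nat_lit 1)
(.leaf (.mk (nat_lit 3) (nat_lit 0x7800000000000000000000000000) (nat_lit 0x1ce00000084000001ee000000000000000000) (.cons (nat_lit 623) (nat_lit 207) (nat_lit 512) (.cons (nat_lit 618) (nat_lit 171) (nat_lit 353) .nil))))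
(.leaf (.mk (nat_lit 3) (nat_lit 0x200000002000000020000000000000007800000000000000000000000000) (nat_lit 0xee000000040000000e000000000000000000) (.cons (nat_lit 654) (nat_lit 206) (nat_lit 512) (.cons (nat_lit 618) (nat_lit 171) (nat_lit 353) .nil)))))
(.node (nat_lit 1)
(.leaf (.mk (nat_lit 1) (nat_lit 0x200000002000000020000000400000007800000000000000000000000000) (nat_lit 0xa00000000000000000000000000000000000) (.cons (nat_lit 655) (nat_lit 0) (nat_lit 413) (.cons (nat_lit 653) (nat_lit 5) (nat_lit 415) .nil))))
(.leaf (.mk (nat_lit 2) (nat_lit 0xf800000000000000000000000000) (nat_lit 0x1c000000000000001c0000000000000000000) (.cons (nat_lit 591) (nat_lit 202) (nat_lit 513) (.cons (nat_lit 655) (nat_lit 89) (nat_lit 478) .nil))))))))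
(.node (nat_lit 8)
(.node (nat_lit 4)
(.node (nat_lit 2)
(.node (nat_lit 1)
(.leaf (.mk (nat_lit 3) (nat_lit 0x80000007800000008000000000000001800000000000000000000000000) (nat_lit 0x40000000c0000000400000014000000000000000000) (.cons (nat_lit 682) (nat_lit 1) (nat_lit 476) (.cons (nat_lit 651) (nat_lit 222) (nat_lit 512) .nil))))
(.leaf (.mk (nat_lit 3) (nat_lit 0x3c00000000000000000000000000) (nat_lit 0x700000042000000ff000000000000000000) (.cons (nat_lit 617) (nat_lit 221) (nat_lit 512) (.cons (nat_lit 617) (nat_lit 171) (nat_lit 352) (.cons (nat_lit 622) (nat_lit 201) (nat_lit 512) .nil))))))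
(.node (nat_lit 1)
(.leaf (.mk (nat_lit 3) (nat_lit 0x7800000000000000000000007800000000000000000000000000) (nat_lit 0xc000001cc00000080000001d0000000000000000000) (.cons (nat_lit 651) (nat_lit 200) (nat_lit 512) (.cons (nat_lit 623) (nat_lit 207) (nat_lit 512) .nil))))
(.leaf (.mk (nat_lit 3) (nat_lit 0x7800000000000000000000003800000004000000000000000000) (nat_lit 0xc00000008000000440000001b000000000000000000) (.cons (nat_lit 683) (nat_lit 217) (nat_lit 512) (.cons (nat_lit 587) (nat_lit 197) (nat_lit 511) (.cons (nat_lit 585) (nat_lit 218) (nat_lit 512) .nil)))))))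
(.node (nat_lit 2)
(.node (nat_lit 1)
(.leaf (.mk (nat_lit 3) (nat_lit 0x80000007800000000000000000000003c00000000000000000000000000) (nat_lit 0xc0000000f0000004200000007000000000000000000) (.cons (nat_lit 586) (nat_lit 213) (nat_lit 512) (.cons (nat_lit 617) (nat_lit 171) (nat_lit 352) (.cons (nat_lit 650) (nat_lit 214) (nat_lit 512) .nil)))))
(.leaf (.mk (nat_lit 2) (nat_lit 0x7800000000000000000000003c00000004000000000000000000) (nat_lit 0xc000000080000000000000002000000000000000000) (.cons (nat_lit 585) (nat_lit 1) (nat_lit 379) (.cons (nat_lit 683) (nat_lit 216) (nat_lit 512) .nil)))))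
(.node (nat_lit 1)
(.leaf (.mk (nat_lit 2) (nat_lit 0x80000000800000000000000040000003c00000000000000000000000000) (nat_lit 0x80000000a0000004000000000000000000000000000) (.cons (nat_lit 649) (nat_lit 4) (nat_lit 411) (.cons (nat_lit 651) (nat_lit 215) (nat_lit 512) .nil))))
(.leaf (.mk (nat_lit 1) (nat_lit 0x800000008000000000000000c0000003c00000000000000000000000000) (nat_lit 0x8000000000000004000000000000000000000000000) (.cons (nat_lit 683) (nat_lit 2) (nat_lit 412) (.cons (nat_lit 622) (nat_lit 4) (nat_lit 412) .nil)))))))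
(.node (nat_lit 4)
(.node (nat_lit 2)
(.node (nat_lit 1)
(.leaf (.mk (nat_lit 1) (nat_lit 0x7800000008000000000000000c00000004000000000000000000) (nat_lit 0x4000000080000000000000000000000000000000000) (.cons (nat_lit 651) (nat_lit 2) (nat_lit 380) (.cons (nat_lit 682) (nat_lit 1) (nat_lit 476) .nil))))
(.leaf (.mk (nat_lit 2) (nat_lit 0x7800000008000000000000001800000004000000000000000000) (nat_lit 0x4000000080000000400000010000000000000000000) (.cons (nat_lit 682) (nat_lit 1) (nat_lit 476) (.cons (nat_lit 651) (nat_lit 220) (nat_lit 512) .nil)))))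
(.node (nat_lit 1)
(.leaf (.mk (nat_lit 2) (nat_lit 0x3800000006000000000000000000) (nat_lit 0x4400000009000000000000000000) (.cons (nat_lit 618) (nat_lit 1) (nat_lit 379) (.cons (nat_lit 587) (nat_lit 219) (nat_lit 512) .nil))))
(.leaf (.mk (nat_lit 1) (nat_lit 0x380000000e000000000000000000) (nat_lit 0x4000000001000000000000000000) (.cons (nat_lit 584) (nat_lit 0) (nat_lit 378) (.cons (nat_lit 622) (nat_lit 1) (nat_lit 380) .nil))))))
(.node (nat_lit 2)
(.node (nat_lit 1)
(.leaf (.mk (nat_lit 1) (nat_lit 0x800000008000000080000001800000004000000000000000000) (nat_lit 0x400000010000000000000000000) (.cons (nat_lit 618) (nat_lit 2) (nat_lit 380) (.cons (nat_lit 588) (nat_lit 5) (nat_lit 381) .nil))))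
(.leaf (.mk (nat_lit 2) (nat_lit 0x3e00000000000000000000000000) (nat_lit 0x70000000000000070000000000000000000) (.cons (nat_lit 589) (nat_lit 202) (nat_lit 511) (.cons (nat_lit 649) (nat_lit 173) (nat_lit 352) .nil)))))
(.node (nat_lit 1)
(.leaf (.mk (nat_lit 2) (nat_lit 0x80000000800000008000000080000001800000000000000000000000000) (nat_lit 0x40000000400000014000000000000000000) (.cons (nat_lit 588) (nat_lit 5) (nat_lit 381) (.cons (nat_lit 618) (nat_lit 125) (nat_lit 513) .nil))))
(.leaf (.mk (nat_lit 2) (nat_lit 0x7800000020000000000000003800000010000000000000000000) (nat_lit 0xc000000280000000000000000000000000000000000) (.cons (nat_lit 653) (nat_lit 2) (nat_lit 382) (.cons (nat_lit 683) (nat_lit 229) (nat_lit 512) .nil)))))))))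
(.node (nat_lit 16)
(.node (nat_lit 8)
(.node (nat_lit 4)
(.node (nat_lit 2)
(.node (nat_lit 1)
(.leaf (.mk (nat_lit 3) (nat_lit 0x2000000020000000000000003c00000000000000000000000000) (nat_lit 0x670000000200000017000000000000000000) (.cons (nat_lit 653) (nat_lit 228) (nat_lit 512) (.cons (nat_lit 617) (nat_lit 171) (nat_lit 352) .nil))))
(.leaf (.mk (nat_lit 3) (nat_lit 0x80000007800000000000000000000003c00000000000000000000000000) (nat_lit 0xc0000000f0000000200000007000000000000000000) (.cons (nat_lit 586) (nat_lit 213) (nat_lit 512) (.cons (nat_lit 617) (nat_lit 171) (nat_lit 352) (.cons (nat_lit 650) (nat_lit 226) (nat_lit 512) .nil))))))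
(.node (nat_lit 1)
(.leaf (.mk (nat_lit 2) (nat_lit 0x80000007800000000000000040000003c00000000000000000000000000) (nat_lit 0xc0000000a0000000000000000000000000000000000) (.cons (nat_lit 649) (nat_lit 4) (nat_lit 411) (.cons (nat_lit 683) (nat_lit 227) (nat_lit 512) .nil))))
(.leaf (.mk (nat_lit 1) (nat_lit 0x80000007800000008000000040000000400000000000000000000000000) (nat_lit 0x4000000080000000000000000000000000000000000) (.cons (nat_lit 651) (nat_lit 2) (nat_lit 412) (.cons (nat_lit 682) (nat_lit 1) (nat_lit 476) .nil))))))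
(.node (nat_lit 2)
(.node (nat_lit 1)
(.leaf (.mk (nat_lit 1) (nat_lit 0x2000000020000000200000003c00000000000000000000000000) (nat_lit 0x400000000000000010000000000000000000) (.cons (nat_lit 588) (nat_lit 2) (nat_lit 382) (.cons (nat_lit 654) (nat_lit 0) (nat_lit 412) .nil))))
(.leaf (.mk (nat_lit 1) (nat_lit 0x7800000008000000000000001800000010000000000000000000) (nat_lit 0x4000000080000000000000000000000000000000000) (.cons (nat_lit 651) (nat_lit 5) (nat_lit 381) (.cons (nat_lit 682) (nat_lit 1) (nat_lit 476) .nil)))))
(.node (nat_lit 1)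
(.leaf (.mk (nat_lit 4) (nat_lit 0x80000007800000008000000000000001000000000000000000000000000) (nat_lit 0x400000000000000000000001c0000000c00000014000000000000000000) (.cons (nat_lit 746) (nat_lit 4) (nat_lit 508) (.cons (nat_lit 651) (nat_lit 231) (nat_lit 512) .nil))))
(.leaf (.mk (nat_lit 3) (nat_lit 0x80000000800000008000000080000001000000000000000000000000000) (nat_lit 0x140000000c00000014000000000000000000) (.cons (nat_lit 652) (nat_lit 5) (nat_lit 413) (.cons (nat_lit 619) (nat_lit 222) (nat_lit 512) .nil)))))))
(.node (nat_lit 4)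
(.node (nat_lit 2)
(.node (nat_lit 1)
(.leaf (.mk (nat_lit 6) (nat_lit 0x3800000008000000000000001000000000000000000000000000) (nat_lit 0x80000000f00000044000000070000001c0000000c0000001c000000100000000000) (.cons (nat_lit 682) (nat_lit 237) (nat_lit 512) (.cons (nat_lit 747) (nat_lit 304) (nat_lit 512) (.cons (nat_lit 651) (nat_lit 305) (nat_lit 512) (.cons (nat_lit 718) (nat_lit 183) (nat_lit 512) .nil))))))
(.leaf (.mk (nat_lit 6) (nat_lit 0x200000003800000024000000000000001000000000000000000000000000) (nat_lit 0x80000000e000000460000000b000003ef000000ee000003ff000000000000000000) (.cons (nat_lit 681) (nat_lit 218) (nat_lit 608) (.cons (nat_lit 621) (nat_lit 248) (nat_lit 512) (.cons (nat_lit 714) (nat_lit 249) (nat_lit 512) (.cons (nat_lit 621) (nat_lit 250) (nat_lit 512) .nil)))))))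
(.node (nat_lit 1)
(.leaf (.mk (nat_lit 6) (nat_lit 0x200000003800000020000000100000001000000000000000000000000000) (nat_lit 0x80000000f000000460000000f0000002c0000000c00000000000000000000000000) (.cons (nat_lit 653) (nat_lit 2) (nat_lit 414) (.cons (nat_lit 683) (nat_lit 235) (nat_lit 512) .nil))))
(.leaf (.mk (nat_lit 5) (nat_lit 0x3800000008000000100000001000000000000000000000000000) (nat_lit 0x80000000f00000046000000070000000c0000000c00000000000000000000000000) (.cons (nat_lit 747) (nat_lit 236) (nat_lit 512) (.cons (nat_lit 682) (nat_lit 237) (nat_lit 512) (.cons (nat_lit 747) (nat_lit 238) (nat_lit 512) (.cons (nat_lit 714) (nat_lit 239) (nat_lit 512) .nil))))))))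
(.node (nat_lit 2)
(.node (nat_lit 1)
(.leaf (.mk (nat_lit 2) (nat_lit 0x80000003800000008000000100000001000000000000000000000000000) (nat_lit 0x40000004000000004000000080000000000000000000000000000000000) (.cons (nat_lit 651) (nat_lit 5) (nat_lit 413) (.cons (nat_lit 718) (nat_lit 247) (nat_lit 512) .nil))))
(.leaf (.mk (nat_lit 2) (nat_lit 0x380000000c000000000000000000000000000000000000000000) (nat_lit 0x4400000003000000000000000000000000000000000000000000) (.cons (nat_lit 718) (nat_lit 1) (nat_lit 476) (.cons (nat_lit 681) (nat_lit 246) (nat_lit 512) .nil)))))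
(.node (nat_lit 1)
(.leaf (.mk (nat_lit 3) (nat_lit 0x80000003800000008000000100000001000000000000000000000000000) (nat_lit 0x70000004400000000000000080000000000000000000000000000000000) (.cons (nat_lit 651) (nat_lit 5) (nat_lit 413) (.cons (nat_lit 746) (nat_lit 244) (nat_lit 512) .nil))))
(.leaf (.mk (nat_lit 4) (nat_lit 0x3c00000008000000100000001000000000000000000000000000) (nat_lit 0x80000000f00000002000000070000000c0000000c00000000000000000000000000) (.cons (nat_lit 651) (nat_lit 240) (nat_lit 512) (.cons (nat_lit 681) (nat_lit 180) (nat_lit 512) (.cons (nat_lit 682) (nat_lit 241) (nat_lit 512) .nil)))))))))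
(.node (nat_lit 8)
(.node (nat_lit 4)
(.node (nat_lit 2)
(.node (nat_lit 1)
(.leaf (.mk (nat_lit 2) (nat_lit 0x3c00000008000000180000001000000000000000000000000000) (nat_lit 0xe0000000000000000000000000000000800000000000000000000000000) (.cons (nat_lit 747) (nat_lit 5) (nat_lit 413) (.cons (nat_lit 746) (nat_lit 243) (nat_lit 512) .nil))))
(.leaf (.mk (nat_lit 3) (nat_lit 0x3c0000000c000000100000001000000000000000000000000000) (nat_lit 0x80000000800000000000000020000000c0000000400000000000000000000000000) (.cons (nat_lit 681) (nat_lit 1) (nat_lit 475) (.cons (nat_lit 747) (nat_lit 242) (nat_lit 512) .nil)))))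
(.node (nat_lit 1)
(.leaf (.mk (nat_lit 2) (nat_lit 0x80000000c0000000c000000100000001000000000000000000000000000) (nat_lit 0x80000000000000000000000000000000c0000000400000000000000000000000000) (.cons (nat_lit 651) (nat_lit 5) (nat_lit 413) (.cons (nat_lit 650) (nat_lit 149) (nat_lit 510) .nil))))
(.leaf (.mk (nat_lit 1) (nat_lit 0x40000003c00000008000000080000000000000000000000000000000000) (nat_lit 0x20000000000000000000000000000000800000000000000000000000000) (.cons (nat_lit 619) (nat_lit 6) (nat_lit 412) (.cons (nat_lit 745) (nat_lit 4) (nat_lit 507) .nil))))))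
(.node (nat_lit 2)
(.node (nat_lit 1)
(.leaf (.mk (nat_lit 2) (nat_lit 0xc0000003800000000000000000000000000000000000000000000000000) (nat_lit 0x30000004400000000000000000000000000000000000000000000000000) (.cons (nat_lit 718) (nat_lit 4) (nat_lit 508) (.cons (nat_lit 745) (nat_lit 245) (nat_lit 512) .nil))))
(.leaf (.mk (nat_lit 1) (nat_lit 0xe0000003800000000000000000000000000000000000000000000000000) (nat_lit 0x10000000400000000000000000000000000000000000000000000000000) (.cons (nat_lit 714) (nat_lit 4) (nat_lit 507) (.cons (nat_lit 744) (nat_lit 7) (nat_lit 506) .nil)))))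
(.node (nat_lit 1)
(.leaf (.mk (nat_lit 1) (nat_lit 0x380000000e000000000000000000000000000000000000000000) (nat_lit 0x400000001000000000000000000000000000000000000000000) (.cons (nat_lit 680) (nat_lit 0) (nat_lit 474) (.cons (nat_lit 714) (nat_lit 1) (nat_lit 475) .nil))))
(.leaf (.mk (nat_lit 1) (nat_lit 0x80000007800000008000000000000000000000000000000000000000000) (nat_lit 0x40000000000000004000000000000000000000000000000000000000000) (.cons (nat_lit 682) (nat_lit 1) (nat_lit 476) (.cons (nat_lit 746) (nat_lit 4) (nat_lit 508) .nil)))))))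
(.node (nat_lit 4)
(.node (nat_lit 2)
(.node (nat_lit 1)
(.leaf (.mk (nat_lit 5) (nat_lit 0x200000003800000024000000000000003000000000000000000000000000) (nat_lit 0x8000000080000004000000008000003ef000000ce000003ff000000000000000000) (.cons (nat_lit 653) (nat_lit 93) (nat_lit 512) (.cons (nat_lit 619) (nat_lit 275) (nat_lit 512) (.cons (nat_lit 618) (nat_lit 276) (nat_lit 512) (.cons (nat_lit 618) (nat_lit 277) (nat_lit 512) (.cons (nat_lit 683) (nat_lit 278) (nat_lit 512) (.cons (nat_lit 622) (nat_lit 279) (nat_lit 512) .nil))))))))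
(.leaf (.mk (nat_lit 4) (nat_lit 0x3c00000004000000000000000000000000000000000000000000) (nat_lit 0x80000000e0000004000000002000000040000000400000000000000000000000000) (.cons (nat_lit 681) (nat_lit 1) (nat_lit 475) (.cons (nat_lit 746) (nat_lit 272) (nat_lit 512) .nil)))))
(.node (nat_lit 1)
(.leaf (.mk (nat_lit 5) (nat_lit 0x200000003800000024000000000000003000000000000000000000000000) (nat_lit 0xe000000060000000b000003ee000000ce000003ff000000000000000000) (.cons (nat_lit 653) (nat_lit 93) (nat_lit 512) (.cons (nat_lit 618) (nat_lit 251) (nat_lit 512) (.cons (nat_lit 618) (nat_lit 252) (nat_lit 512) (.cons (nat_lit 619) (nat_lit 253) (nat_lit 512) .nil))))))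
(.leaf (.mk (nat_lit 4) (nat_lit 0x3800000024000000000000003400000000000000000000000000) (nat_lit 0xe000000060000000b0000002e00000048000000ee000000000000000000) (.cons (nat_lit 619) (nat_lit 268) (nat_lit 512) (.cons (nat_lit 714) (nat_lit 261) (nat_lit 512) (.cons (nat_lit 619) (nat_lit 269) (nat_lit 512) .nil)))))))
(.node (nat_lit 2)
(.node (nat_lit 1)
(.leaf (.mk (nat_lit 4) (nat_lit 0x3800000024000000000000003400000000000000000000000000) (nat_lit 0xe000000060000000b0000006e000000080000001e000000000000000000) (.cons (nat_lit 619) (nat_lit 259) (nat_lit 512) (.cons (nat_lit 619) (nat_lit 260) (nat_lit 512) (.cons (nat_lit 714) (nat_lit 261) (nat_lit 512) .nil)))))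
(.leaf (.mk (nat_lit 4) (nat_lit 0x3800000004000000000000003800000000000000000000000000) (nat_lit 0x6000000040000000a000001cc000000c4000001fe000000000000000000) (.cons (nat_lit 714) (nat_lit 254) (nat_lit 512) (.cons (nat_lit 622) (nat_lit 255) (nat_lit 512) .nil)))))
(.node (nat_lit 1)
(.leaf (.mk (nat_lit 3) (nat_lit 0x3c00000004000000000000000800000000000000000000000000) (nat_lit 0x6000000000000000a0000000c0000000000000000000000000000000000) (.cons (nat_lit 681) (nat_lit 1) (nat_lit 475) (.cons (nat_lit 746) (nat_lit 257) (nat_lit 512) .nil))))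
(.leaf (.mk (nat_lit 3) (nat_lit 0x7800000000000000000000000000) (nat_lit 0x1c000000084000001fe000000000000000000) (.cons (nat_lit 618) (nat_lit 201) (nat_lit 512) (.cons (nat_lit 623) (nat_lit 207) (nat_lit 512) (.cons (nat_lit 623) (nat_lit 256) (nat_lit 512) .nil)))))))))))))

end Vale.Agent.Snaky.LD
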